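import Vale.Agent.P142.Flux.Poly

/-!
Positive semidefiniteness of integer matrices by a rounded square decomposition with a diagonally
dominant remainder. Rows are compared through their packed values, so the check takes a quadratic
number of integer operations.
-/

namespace Vale.Agent.P142.Flux

namespace Psd

/-- Weighted sum of the values of a function along a list. -/
def rowVal {κ R : Type} [CommRing R] : List ℤ → List κ → (κ → R) → R
  | [], _, _ => 0
  | _ :: _, [], _ => 0
  | h :: r, k :: ks, f => (h : R) * f k + rowVal r ks f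

/-- The pairing of a matrix with a kernel along two lists. -/
def matVal {κ R : Type} [CommRing R] : List (List ℤ) → List κ → List κ → (κ → κ → R) → R
  | [], _, _, _ => 0
  | _ :: _, [], _, _ => 0
  | r :: M, k :: ks, cs, B => rowVal r cs (B k) + matVal M ks cs B

/-- The value of a list of natural numbers in a base. -/
def packN (T : ℕ) (l : List ℕ) : ℕ := l.foldr (fun a acc => Nat.add a (Nat.mul T acc)) 0

/-- The value in a base of the positive parts of a list. -/
def packPos (T : ℕ) (l : List ℤ) : ℕ := packN T (l.map Int.toNat)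

/-- The value in a base of the negative parts of a list. -/
def packNeg (T : ℕ) (l : List ℤ) : ℕ := packN T (l.map fun a => (-a).toNat)

/-- The value of a list in a base, kept as a difference of natural numbers so that the kernel
works on unsigned accumulators. -/
def pack (T : ℕ) (l : List ℤ) : ℤ := Int.subNatNat (packPos T l) (packNeg T l)

/-- The largest absolute value in a list. -/
def absMax (l : List ℤ) : ℕ := l.foldr (fun a m => max a.natAbs m) 0

/-- The list of absolute values. -/
def absList (l : List ℤ) : List ℤ := l.map fun a => (a.natAbs : ℤ)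

/-- The column sums of absolute values. -/
def colAbs (M : List (List ℤ)) : List ℤ :=
  M.foldr (fun r acc => Pl.addL Int.add (absList r) acc) []

/-- One vector of the decomposition: weight, entries still to be read, packed value, largest entry,
all entries. -/
abbrev Vec : Type := ℕ × List ℤ × (ℕ × ℕ) × ℕ × List ℤ

/-- One vector of the decomposition as supplied: weight, entries, its two packed parts and a
bound for its entries. -/
abbrev Sq : Type := ℕ × List ℤ × ℕ × ℕ × ℕ

/-- Test the supplied packed parts and bounds. -/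
def sqOk (T : ℕ) (L : List Sq) : Bool :=
  L.all fun q => decide (packPos T q.2.1 = q.2.2.1) && decide (packNeg T q.2.1 = q.2.2.2.1) &&
    q.2.1.all fun a => decide (a.natAbs ≤ q.2.2.2.2)

/-- Prepare the vectors of the decomposition. -/
def prepare (L : List Sq) : List Vec :=
  L.map fun q => (q.1, q.2.1, (q.2.2.1, q.2.2.2.1), q.2.2.2.2, q.2.1)

/-- The packed value of one row of the decomposition. -/
def packComb (S : List Vec) : ℤ :=
  Int.subNatNat
    (S.foldr (fun q acc => Nat.add (Nat.mul q.1 (Nat.add
      (Nat.mul (q.2.1.headD 0).toNat q.2.2.1.1) (Nat.mul (-q.2.1.headD 0).toNat q.2.2.1.2))) acc) 0)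
    (S.foldr (fun q acc => Nat.add (Nat.mul q.1 (Nat.add
      (Nat.mul (q.2.1.headD 0).toNat q.2.2.1.2) (Nat.mul (-q.2.1.headD 0).toNat q.2.2.1.1))) acc) 0)

/-- A bound for the entries of one row of the decomposition. -/
def boundComb (S : List Vec) : ℕ :=
  S.foldr (fun q acc => q.1 * (q.2.1.headD 0).natAbs * q.2.2.2.1 + acc) 0

/-- Pass to the next row. -/
def advance (S : List Vec) : List Vec := S.map fun q => (q.1, q.2.1.tail, q.2.2)

/-- All rows read. -/
def finished (S : List Vec) : Bool := S.all fun q => q.2.1.isEmpty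

/-- The row tests, from row `r` on. -/
def rowsOk (T : ℕ) (s : ℕ) :
    ℕ → List (List ℤ) → List (List ℤ) → List ℤ → List ℤ → List Vec → Bool
  | _, [], O, _, col, S => O.isEmpty && col.isEmpty && finished S
  | r, h :: H, O, D, col, S =>
    decide ((s : ℤ) * pack T h = packComb S + pack T (O.headD []) + D.headD 0 * ((T ^ r : ℕ) : ℤ)) &&
      decide (s * absMax h + boundComb S + absMax (O.headD []) + (D.headD 0).natAbs < T) &&
      decide ((absList (O.headD [])).sum + col.headD 0 ≤ 2 * D.headD 0) &&
      rowsOk T s (r + 1) H O.tail D.tail col.tail (advance S)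

/-- The positive semidefiniteness check of `H`: a positive multiple of it is the decomposition
plus the off-diagonal part `O` plus the diagonal `D`. -/
def check (W s : ℕ) (H : List (List ℤ)) (L : List Sq) (O : List (List ℤ)) (D : List ℤ) :
    Bool :=
  decide (0 < s) && (sqOk (2 ^ W) L && rowsOk (2 ^ W) s 0 H O D (colAbs O) (prepare L))

/-- One entry of a packed row with offset `2 ^ (W - 1)`, read off directly. -/
def unpackAt (W N k : ℕ) : ℤ :=
  Int.subNatNat (Nat.mod (Nat.div N (2 ^ (W * k))) (2 ^ W)) (2 ^ (W - 1))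

/-- Unpack a row from a packed natural number. -/
def unpack (W n N : ℕ) : List ℤ := (List.range n).map (unpackAt W N)

variable {κ : Type}

theorem rowVal_addL {R : Type} [CommRing R] : ∀ (l m : List ℤ) (ks : List κ) (f : κ → R),
    rowVal (Pl.addL Int.add l m) ks f = rowVal l ks f + rowVal m ks f
  | [], m, ks, f => by simp [Pl.addL, rowVal]
  | a :: l, [], ks, f => by simp [Pl.addL, rowVal]
  | a :: l, b :: m, [], f => by simp [Pl.addL, rowVal]
  | a :: l, b :: m, k :: ks, f => by
    simp only [Pl.addL, rowVal, rowVal_addL l m ks f]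
    rw [show Int.add a b = a + b from rfl]
    push_cast; ring

theorem rowVal_map {R : Type} [CommRing R] (c : ℤ) : ∀ (l : List ℤ) (ks : List κ) (f : κ → R),
    rowVal (l.map (Int.mul c)) ks f = c * rowVal l ks f
  | [], ks, f => by simp [rowVal]
  | a :: l, [], f => by simp [rowVal]
  | a :: l, k :: ks, f => by
    simp only [List.map_cons, rowVal, rowVal_map c l ks f]
    rw [show Int.mul c a = c * a from rfl]
    push_cast; ring

theorem rowVal_cons_head {R : Type} [CommRing R] (r : List ℤ) (k : κ) (ks : List κ) (f : κ → R) :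
    rowVal r (k :: ks) f = (r.headD 0 : ℤ) * f k + rowVal r.tail ks f := by
  cases r <;> simp [rowVal]

theorem matVal_cons_head {R : Type} [CommRing R] (M : List (List ℤ)) (k : κ) (ks cs : List κ)
    (B : κ → κ → R) :
    matVal M (k :: ks) cs B = rowVal (M.headD []) cs (B k) + matVal M.tail ks cs B := by
  cases M <;> simp [matVal, rowVal]

theorem rowVal_eq_zero {R : Type} [CommRing R] : ∀ (l : List ℤ) (ks : List κ) (f : κ → R),
    (∀ a ∈ l, a = 0) → rowVal l ks f = 0
  | [], _, _, _ => by simp [rowVal]
  | _ :: _, [], _, _ => by simp [rowVal]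
  | a :: l, k :: ks, f, h => by
    simp [rowVal, h a (by simp), rowVal_eq_zero l ks f fun b hb => h b (List.mem_cons_of_mem _ hb)]

theorem natAbs_le_absMax : ∀ (l : List ℤ), ∀ a ∈ l, a.natAbs ≤ absMax l
  | [], a, h => by simp at h
  | b :: l, a, h => by
    simp only [absMax, List.foldr_cons]
    rcases List.mem_cons.1 h with rfl | h
    · exact le_max_left _ _
    · exact (natAbs_le_absMax l a h).trans (le_max_right _ _)

theorem bound_map (c : ℤ) (l : List ℤ) {B : ℕ} (h : ∀ a ∈ l, a.natAbs ≤ B) :
    ∀ a ∈ l.map (Int.mul c), a.natAbs ≤ c.natAbs * B := by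
  intro a ha
  obtain ⟨b, hb, rfl⟩ := List.mem_map.1 ha
  rw [show Int.mul c b = c * b from rfl, Int.natAbs_mul]
  exact Nat.mul_le_mul_left _ (h b hb)

theorem bound_addL {B C : ℕ} : ∀ (l m : List ℤ), (∀ a ∈ l, a.natAbs ≤ B) →
    (∀ a ∈ m, a.natAbs ≤ C) → ∀ a ∈ Pl.addL Int.add l m, a.natAbs ≤ B + C
  | [], m, _, hm, a, h => by
    have := hm a (by simpa [Pl.addL] using h)
    omega
  | b :: l, [], hl, _, a, h => by
    have := hl a (by simpa [Pl.addL] using h)
    omega
  | b :: l, c :: m, hl, hm, a, h => by
    simp only [Pl.addL, List.mem_cons] at h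
    rcases h with rfl | h
    · have h1 := hl b (by simp)
      have h2 := hm c (by simp)
      rw [show Int.add b c = b + c from rfl]
      have h3 := Int.natAbs_add_le b c
      omega
    · exact bound_addL l m (fun x hx => hl x (List.mem_cons_of_mem _ hx))
        (fun x hx => hm x (List.mem_cons_of_mem _ hx)) a h

theorem pack_nil (T : ℕ) : pack T [] = 0 := by simp [pack, packPos, packNeg, packN]

theorem pack_cons (T : ℕ) (a : ℤ) (l : List ℤ) : pack T (a :: l) = a + T * pack T l := by
  have h1 : packPos T (a :: l) = a.toNat + T * packPos T l := rfl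
  have h2 : packNeg T (a :: l) = (-a).toNat + T * packNeg T l := rfl
  simp only [pack, h1, h2, Int.subNatNat_eq_coe]
  push_cast
  linear_combination Int.toNat_sub_toNat_neg a

theorem pack_map (T : ℕ) (c : ℤ) : ∀ l : List ℤ, pack T (l.map (Int.mul c)) = c * pack T l
  | [] => by simp [pack_nil]
  | a :: l => by
    rw [List.map_cons, pack_cons, pack_cons, pack_map T c l, show Int.mul c a = c * a from rfl]
    ring

theorem pack_addL (T : ℕ) : ∀ l m : List ℤ, pack T (Pl.addL Int.add l m) = pack T l + pack T m
  | [], m => by simp [Pl.addL, pack_nil]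
  | a :: l, [] => by simp [Pl.addL, pack_nil]
  | a :: l, b :: m => by
    simp only [Pl.addL, pack_cons, pack_addL T l m]
    rw [show Int.add a b = a + b from rfl]
    ring

theorem eq_zero_of_pack (T : ℕ) : ∀ l : List ℤ, (∀ a ∈ l, a.natAbs < T) → pack T l = 0 →
    ∀ a ∈ l, a = 0
  | [], _, _, a, h => by simp at h
  | b :: l, hb, h0, a, ha => by
    rw [pack_cons] at h0
    have hbT : b.natAbs < T := hb b (by simp)
    have hT : 0 < T := by omega
    have hdvd : (T : ℤ) ∣ b := ⟨-pack T l, by linarith⟩
    have hb0 : b = 0 := Int.eq_zero_of_dvd_of_natAbs_lt_natAbs hdvd (by omega)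
    rcases List.mem_cons.1 ha with rfl | ha
    · exact hb0
    · refine eq_zero_of_pack T l (fun x hx => hb x (List.mem_cons_of_mem _ hx)) ?_ a ha
      subst hb0
      simpa [hT.ne'] using h0

theorem pack_unit (T : ℕ) (d : ℤ) : ∀ r : ℕ,
    pack T (List.replicate r 0 ++ [d]) = d * ((T ^ r : ℕ) : ℤ)
  | 0 => by simp [pack_cons, pack_nil]
  | r + 1 => by
    rw [List.replicate_succ, List.cons_append, pack_cons, pack_unit T d r]
    push_cast
    ring

theorem rowVal_unit {R : Type} [CommRing R] (d : ℤ) (k : κ) (f : κ → R) :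
    ∀ (r : ℕ) (cs ks : List κ), cs.drop r = k :: ks →
      rowVal (List.replicate r 0 ++ [d]) cs f = d * f k
  | 0, cs, ks, h => by
    rw [List.drop_zero] at h
    subst h
    simp [rowVal]
  | r + 1, [], ks, h => by simp at h
  | r + 1, c :: cs, ks, h => by
    rw [List.drop_succ_cons] at h
    simp [List.replicate_succ, rowVal, rowVal_unit d k f r cs ks h]

/-- One row of the decomposition, as a list. -/
def comb (S : List Vec) : List ℤ :=
  S.foldr (fun q acc => Pl.addL Int.add (q.2.2.2.2.map (Int.mul ((q.1 : ℤ) * q.2.1.headD 0))) acc) []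

/-- A prepared vector is consistent. -/
def Good (T : ℕ) (S : List Vec) : Prop :=
  ∀ q ∈ S, q.2.2.1 = (packPos T q.2.2.2.2, packNeg T q.2.2.2.2) ∧ ∀ a ∈ q.2.2.2.2, a.natAbs ≤ q.2.2.2.1

theorem good_advance {T : ℕ} {S : List Vec} (h : Good T S) : Good T (advance S) := by
  intro q hq
  obtain ⟨p, hp, rfl⟩ := List.mem_map.1 hq
  exact h p hp

theorem pack_comb {T : ℕ} : ∀ {S : List Vec}, Good T S → pack T (comb S) = packComb S
  | [], _ => by simp [comb, packComb, pack_nil, Int.subNatNat_eq_coe]
  | q :: S, h => by
    have ih := pack_comb (S := S) fun p hp => h p (List.mem_cons_of_mem _ hp)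
    have e := (h q (by simp)).1
    show pack T (Pl.addL Int.add _ (comb S)) = _
    rw [pack_addL, pack_map, ih]
    simp only [pack, packComb, List.foldr_cons, Int.subNatNat_eq_coe, e, Nat.add_eq, Nat.mul_eq]
    push_cast
    linear_combination ((q.1 : ℤ) * ((packPos T q.2.2.2.2 : ℤ) - (packNeg T q.2.2.2.2 : ℤ))) *
      (Int.toNat_sub_toNat_neg (q.2.1.headD 0)).symm

theorem bound_comb {T : ℕ} : ∀ {S : List Vec}, Good T S →
    ∀ a ∈ comb S, a.natAbs ≤ boundComb S
  | [], _, a, ha => by simp [comb] at ha
  | q :: S, h, a, ha => by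
    have ih := bound_comb (S := S) fun p hp => h p (List.mem_cons_of_mem _ hp)
    have h1 := bound_map ((q.1 : ℤ) * q.2.1.headD 0) q.2.2.2.2 (h q (by simp)).2
    have := bound_addL _ (comb S) h1 ih a ha
    rw [Int.natAbs_mul, Int.natAbs_natCast] at this
    exact this

/-- The value of the decomposition on a list of rows still to be read. -/
def quadVal (S : List Vec) (ks cs : List κ) (B : κ → κ → ℝ) : ℝ :=
  S.foldr (fun q acc => (q.1 : ℝ) * rowVal q.2.1 ks (fun k => rowVal q.2.2.2.2 cs (B k)) + acc) 0

theorem quadVal_cons (k : κ) (ks cs : List κ) (B : κ → κ → ℝ) : ∀ S : List Vec,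
    quadVal S (k :: ks) cs B = rowVal (comb S) cs (B k) + quadVal (advance S) ks cs B
  | [] => by simp [quadVal, comb, rowVal, advance]
  | q :: S => by
    show (q.1 : ℝ) * rowVal q.2.1 (k :: ks) _ + quadVal S (k :: ks) cs B =
      rowVal (Pl.addL Int.add _ (comb S)) cs (B k) +
        ((q.1 : ℝ) * rowVal q.2.1.tail ks _ + quadVal (advance S) ks cs B)
    rw [quadVal_cons k ks cs B S, rowVal_cons_head, rowVal_addL, rowVal_map]
    push_cast
    ring

theorem quadVal_finished (ks cs : List κ) (B : κ → κ → ℝ) : ∀ S : List Vec,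
    finished S = true → quadVal S ks cs B = 0
  | [], _ => by simp [quadVal]
  | q :: S, h => by
    simp only [finished, List.all_cons, Bool.and_eq_true, List.isEmpty_iff] at h
    show (q.1 : ℝ) * rowVal q.2.1 ks _ + quadVal S ks cs B = 0
    rw [quadVal_finished ks cs B S h.2, h.1]
    simp [rowVal]

theorem quadVal_nil (cs : List κ) (B : κ → κ → ℝ) : ∀ S : List Vec, quadVal S [] cs B = 0
  | [] => by simp [quadVal]
  | q :: S => by
    show (q.1 : ℝ) * rowVal q.2.1 [] _ + quadVal S [] cs B = 0
    rw [quadVal_nil cs B S]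
    cases q.2.1 <;> simp [rowVal]

theorem rowsOk_le (T : ℕ) (s : ℕ) (B : κ → κ → ℝ) (hd : ∀ k, 0 ≤ B k k) (cs : List κ) :
    ∀ (H O : List (List ℤ)) (D col : List ℤ) (S : List Vec) (r : ℕ) (ks : List κ),
      cs.drop r = ks → Good T S → rowsOk T s r H O D col S = true →
      2 * matVal O ks cs B + rowVal (O.map fun o => (absList o).sum) ks (fun k => B k k) +
          rowVal col ks (fun k => B k k) ≤
        2 * ((s : ℝ) * matVal H ks cs B - quadVal S ks cs B)
  | [], O, D, col, S, r, ks, _, _, h => by
    simp only [rowsOk, Bool.and_eq_true, List.isEmpty_iff] at h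
    rw [h.1.1, h.1.2, quadVal_finished ks cs B S h.2]
    simp [matVal, rowVal]
  | h :: H, O, D, col, S, r, [], _, _, hh => by
    have e : quadVal S ([] : List κ) cs B = 0 := quadVal_nil cs B S
    rw [e]
    cases O <;> cases col <;> simp [matVal, rowVal]
  | h :: H, O, D, col, S, r, k :: ks, hcs, hS, hh => by
    simp only [rowsOk, Bool.and_eq_true, decide_eq_true_eq] at hh
    obtain ⟨⟨⟨h1, h2⟩, h3⟩, h4⟩ := hh
    have hks : cs.drop (r + 1) = ks := by
      rw [← List.drop_drop, hcs]
      simp
    have ih := rowsOk_le T s B hd cs H O.tail D.tail col.tail (advance S) (r + 1) ks hks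
      (good_advance hS) h4
    set o := O.headD [] with ho
    set d := D.headD 0 with hdd
    set Δ := Pl.addL Int.add (h.map (Int.mul (s : ℤ))) ((Pl.addL Int.add (comb S)
      (Pl.addL Int.add o (List.replicate r 0 ++ [d]))).map (Int.mul (-1))) with hΔ
    have hz : ∀ a ∈ Δ, a = 0 := by
      refine eq_zero_of_pack T Δ (fun a ha => ?_) ?_
      · have hu : ∀ x ∈ List.replicate r (0 : ℤ) ++ [d], x.natAbs ≤ d.natAbs := fun x hx => by
          rcases List.mem_append.1 hx with hx | hx
          · rw [List.eq_of_mem_replicate hx]; simp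
          · rw [List.mem_singleton.1 hx]
        have := bound_addL _ _ (bound_map (s : ℤ) h (natAbs_le_absMax h))
          (bound_map (-1) _ (bound_addL _ _ (bound_comb hS)
            (bound_addL _ _ (natAbs_le_absMax o) hu))) a ha
        rw [Int.natAbs_natCast] at this
        simp only [Int.natAbs_neg, Int.natAbs_one, one_mul] at this
        omega
      · rw [hΔ, pack_addL, pack_map, pack_map, pack_addL, pack_addL, pack_comb hS, pack_unit, h1]
        ring
    have e := rowVal_eq_zero Δ cs (B k) hz
    rw [hΔ, rowVal_addL, rowVal_map, rowVal_map, rowVal_addL, rowVal_addL,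
      rowVal_unit d k (B k) r cs ks hcs] at e
    have h3' := mul_le_mul_of_nonneg_right (Int.cast_le (R := ℝ).2 h3) (hd k)
    rw [Int.cast_add] at h3'
    push_cast at e h3'
    rw [matVal_cons_head O, quadVal_cons, rowVal_cons_head col, matVal_cons_head (h :: H),
      List.headD_cons, List.tail_cons, rowVal_cons_head (O.map fun o => (absList o).sum)]
    have hm : (List.map (fun o => (absList o).sum) O).headD 0 = (absList o).sum ∧
        (List.map (fun o => (absList o).sum) O).tail = O.tail.map fun o => (absList o).sum := by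
      cases O <;> simp [ho, absList]
    rw [hm.1, hm.2, ← ho]
    push_cast
    linarith

theorem offDiag_nonneg (B : κ → κ → ℝ)
    (hc : ∀ k l, 0 ≤ B k k + B l l + 2 * B k l ∧ 0 ≤ B k k + B l l - 2 * B k l)
    (hd : ∀ k, 0 ≤ B k k) (k : κ) :
    ∀ (row : List ℤ) (cs : List κ),
      0 ≤ 2 * rowVal row cs (B k) + ((absList row).sum : ℤ) * B k k +
        rowVal (absList row) cs (fun s => B s s)
  | [], cs => by simp [rowVal, absList]
  | a :: row, [] => by
    simp only [rowVal, absList, List.map_cons, mul_zero, zero_add, add_zero]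
    refine mul_nonneg (Int.cast_nonneg (List.sum_nonneg fun z hz => ?_)) (hd k)
    simp only [List.mem_cons, List.mem_map] at hz
    rcases hz with rfl | ⟨b, -, rfl⟩ <;> positivity
  | a :: row, s :: cs => by
    have h0 := offDiag_nonneg B hc hd k row cs
    show 0 ≤ 2 * ((a : ℝ) * B k s + rowVal row cs (B k)) +
      (((a.natAbs : ℤ) :: absList row).sum : ℤ) * B k k +
        (((a.natAbs : ℤ) : ℝ) * B s s + rowVal (absList row) cs fun s => B s s)
    rw [List.sum_cons, Int.cast_add]
    have e := Int.natAbs_eq a
    have hn : (0 : ℤ) ≤ (a.natAbs : ℤ) := Int.natCast_nonneg _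
    generalize (a.natAbs : ℤ) = N at e hn ⊢
    have hn' : (0 : ℝ) ≤ (N : ℝ) := Int.cast_nonneg hn
    rcases e with e | e <;> subst e <;> (try simp only [Int.cast_neg])
    · nlinarith [mul_nonneg hn' (hc k s).1]
    · nlinarith [mul_nonneg hn' (hc k s).2]

theorem offDiag_mat_nonneg (B : κ → κ → ℝ)
    (hc : ∀ k l, 0 ≤ B k k + B l l + 2 * B k l ∧ 0 ≤ B k k + B l l - 2 * B k l)
    (hd : ∀ k, 0 ≤ B k k) (cs : List κ) :
    ∀ (M : List (List ℤ)) (ks : List κ),
      0 ≤ 2 * matVal M ks cs B + rowVal (M.map fun o => (absList o).sum) ks (fun k => B k k) +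
        rowVal (colAbs M) cs (fun k => B k k)
  | [], ks => by simp [matVal, rowVal, colAbs]
  | r :: M, [] => by
    simp only [matVal, rowVal, List.map_cons, mul_zero, zero_add]
    have : ∀ (l : List ℤ) (cs : List κ), (∀ a ∈ l, (0 : ℤ) ≤ a) →
        0 ≤ rowVal l cs (fun k => B k k) := by
      intro l
      induction l with
      | nil => intro cs _; simp [rowVal]
      | cons a l ih =>
        intro cs h
        cases cs with
        | nil => simp [rowVal]
        | cons c cs =>
          exact add_nonneg (mul_nonneg (Int.cast_nonneg (h a (by simp))) (hd c))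
            (ih cs fun x hx => h x (List.mem_cons_of_mem _ hx))
    refine this _ cs ?_
    have hpos : ∀ (l m : List ℤ), (∀ a ∈ l, (0 : ℤ) ≤ a) → (∀ a ∈ m, (0 : ℤ) ≤ a) →
        ∀ a ∈ Pl.addL Int.add l m, (0 : ℤ) ≤ a := by
      intro l
      induction l with
      | nil => intro m _ hm a ha; exact hm a (by simpa [Pl.addL] using ha)
      | cons b l ih =>
        intro m hl hm a ha
        cases m with
        | nil => exact hl a (by simpa [Pl.addL] using ha)
        | cons c m =>
          simp only [Pl.addL, List.mem_cons] at ha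
          rcases ha with rfl | ha
          · exact add_nonneg (hl b (by simp)) (hm c (by simp))
          · exact ih m (fun x hx => hl x (List.mem_cons_of_mem _ hx))
              (fun x hx => hm x (List.mem_cons_of_mem _ hx)) a ha
    have habs : ∀ l : List ℤ, ∀ a ∈ absList l, (0 : ℤ) ≤ a := fun l a ha => by
      obtain ⟨b, -, rfl⟩ := List.mem_map.1 ha
      exact Int.natCast_nonneg _
    generalize r :: M = A
    induction A with
    | nil => simp [colAbs]
    | cons r A ih => exact hpos _ _ (habs r) ih
  | r :: M, k :: ks => by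
    have h1 := offDiag_nonneg B hc hd k r cs
    have h2 := offDiag_mat_nonneg B hc hd cs M ks
    show 0 ≤ 2 * (rowVal r cs (B k) + matVal M ks cs B) +
      (((absList r).sum : ℤ) * B k k + rowVal (M.map fun o => (absList o).sum) ks fun k => B k k) +
        rowVal (Pl.addL Int.add (absList r) (colAbs M)) cs (fun k => B k k)
    rw [rowVal_addL]
    linarith

/-- A checked matrix pairs nonnegatively with every positive symmetric kernel. -/
theorem matVal_nonneg {W s : ℕ} {H O : List (List ℤ)} {L : List Sq} {D : List ℤ}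
    (h : check W s H L O D = true) (B : κ → κ → ℝ)
    (hB : ∀ (u : List ℤ) (ks : List κ), 0 ≤ rowVal u ks fun k => rowVal u ks (B k))
    (hsymm : ∀ k l, B k l = B l k) (ks : List κ) : 0 ≤ matVal H ks ks B := by
  simp only [check, Bool.and_eq_true, decide_eq_true_eq] at h
  have hd : ∀ k, 0 ≤ B k k := fun k => by simpa [rowVal] using hB [1] [k]
  have hc : ∀ k l, 0 ≤ B k k + B l l + 2 * B k l ∧ 0 ≤ B k k + B l l - 2 * B k l := fun k l => by
    have h1 := hB [1, 1] [k, l]
    have h2 := hB [1, -1] [k, l]
    simp [rowVal, hsymm l k] at h1 h2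
    constructor <;> linarith
  obtain ⟨hs0, hq0, h⟩ := h
  have hg : Good (2 ^ W) (prepare L) := fun q hq => by
    obtain ⟨p, hp, rfl⟩ := List.mem_map.1 hq
    have e := (List.all_eq_true.1 hq0) p hp
    simp only [Bool.and_eq_true, decide_eq_true_eq, List.all_eq_true] at e
    exact ⟨by rw [e.1.1, e.1.2], e.2⟩
  have h1 := rowsOk_le _ s B hd ks H O D (colAbs O) _ 0 ks List.drop_zero hg h
  have h2 := offDiag_mat_nonneg B hc hd ks O ks
  have h3 : 0 ≤ quadVal (prepare L) ks ks B := by
    clear h1 h hg hq0
    induction L with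
    | nil => simp [quadVal, prepare]
    | cons q L ih => exact add_nonneg (mul_nonneg (Nat.cast_nonneg _) (hB q.2.1 ks)) ih
  have hs : (0 : ℝ) < (s : ℝ) := by exact_mod_cast hs0
  by_contra hn
  nlinarith [mul_neg_of_pos_of_neg hs (not_le.1 hn)]

end Psd

end Vale.Agent.P142.Flux
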