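import Vale.Agent.P142.Flux.Model
import Vale.Agent.P142.Flux.Psd

/-!
The constraint blocks of the body as matrices of polynomials, Gram polynomials over them, and the
checked pointwise certificate.
-/

open Complex Finset Vale.Agent.P142.Area ComplexConjugate

namespace Vale.Agent.P142.Flux

/-- The blocks. -/
inductive Kind
  /-- The unit block. -/
  | one
  /-- The bound on the second coefficient. -/
  | ball
  /-- The same bound in linear form. -/
  | ballLin
  /-- The first row inequality, scalar form. -/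
  | row
  /-- The odd row inequality, scalar form. -/
  | oddRow
  /-- The inequality of order two. -/
  | pair
  /-- The first row inequality in linear form. -/
  | rowLin
  /-- The odd block. -/
  | block
  /-- The odd row inequality in linear form. -/
  | oddRowLin

namespace Kind

/-- The four coordinates. -/
def z (i : ℕ) : Pl 8 := Pl.var 8 i

/-- Twice the coefficient `(1,3)` of the first row. -/
def g13x : Pl 8 := Pl.add 8 (Pl.smul 8 2 (z 3)) (Pl.mul 8 (z 1) (z 1))

/-- `8` times the odd coefficient `(1,3)`. -/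
def o13x : Pl 8 := Pl.add 8 (Pl.smul 8 4 (z 1)) (Pl.mul 8 (z 0) (z 0))

/-- `24` times the odd coefficient `(3,3)`. -/
def o33x : Pl 8 := Pl.add 8 (Pl.smul 8 12 (z 2)) (Pl.mul 8 (z 0) (Pl.mul 8 (z 0) (z 0)))

/-- `16` times the odd coefficient `(1,5)`. -/
def o15x : Pl 8 := Pl.add 8 (Pl.smul 8 8 (z 2))
  (Pl.add 8 (Pl.smul 8 4 (Pl.mul 8 (z 0) (z 1))) (Pl.mul 8 (z 0) (Pl.mul 8 (z 0) (z 0))))

/-- `128` times the odd coefficient `(3,5)`. -/
def o35x : Pl 8 := Pl.add 8 (Pl.smul 8 64 (z 3)) (Pl.add 8 (Pl.smul 8 16 (Pl.mul 8 (z 1) (z 1)))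
  (Pl.add 8 (Pl.smul 8 8 (Pl.mul 8 (Pl.mul 8 (z 0) (z 0)) (z 1)))
    (Pl.smul 8 3 (Pl.mul 8 (Pl.mul 8 (z 0) (z 0)) (Pl.mul 8 (z 0) (z 0))))))

/-- `128` times the odd coefficient `(1,7)`. -/
def o17x : Pl 8 := Pl.add 8 (Pl.smul 8 64 (z 3))
  (Pl.add 8 (Pl.smul 8 32 (Pl.mul 8 (z 0) (z 2))) (Pl.add 8 (Pl.smul 8 48 (Pl.mul 8 (z 1) (z 1)))
    (Pl.add 8 (Pl.smul 8 24 (Pl.mul 8 (Pl.mul 8 (z 0) (z 0)) (z 1)))
      (Pl.smul 8 5 (Pl.mul 8 (Pl.mul 8 (z 0) (z 0)) (Pl.mul 8 (z 0) (z 0)))))))

/-- A squared modulus. -/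
def nsq (p : Pl 8) : Pl 8 := Pl.mul 8 (swap p) p

/-- A Hermitian block matrix from two diagonals and the lower left entries. -/
def hermitian (w v : List ℤ) (M : List (List (Pl 8))) : List (List (Pl 8)) :=
  (List.range w.length).map (fun i =>
      (List.range w.length).map (fun j => Pl.const 8 (if i = j then w.getD i 0 else 0)) ++
        M.map fun r => swap (r.getD i (Pl.zero 8))) ++
    (List.range v.length).map fun i => M.getD i [] ++
      (List.range v.length).map fun j => Pl.const 8 (if i = j then v.getD i 0 else 0)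

/-- The matrix of a block. -/
def mat : Kind → List (List (Pl 8))
  | .one => [[Pl.const 8 1]]
  | .ball => [[Pl.sub 8 (Pl.const 8 4) (nsq (z 0))]]
  | .ballLin => hermitian [2] [2] [[z 0]]
  | .row => [[Pl.sub 8 (Pl.const 8 4) (Pl.add 8 (Pl.smul 8 4 (nsq (z 1)))
      (Pl.add 8 (Pl.smul 8 8 (nsq (z 2))) (Pl.smul 8 3 (nsq g13x))))]]
  | .oddRow => [[Pl.sub 8 (Pl.const 8 16384) (Pl.add 8 (Pl.smul 8 4096 (nsq (z 0)))
      (Pl.add 8 (Pl.smul 8 768 (nsq o13x))
        (Pl.add 8 (Pl.smul 8 320 (nsq o15x)) (Pl.smul 8 7 (nsq o17x)))))]]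
  | .pair => hermitian [2, 1] [2, 1]
      [[Pl.smul 8 2 (z 1), Pl.smul 8 2 (z 2)], [Pl.smul 8 2 (z 2), Pl.smul 8 2 (z 3)]]
  | .rowLin => hermitian [6] [6, 3, 2]
      [[Pl.smul 8 6 (z 1)], [Pl.smul 8 6 (z 2)], [Pl.smul 8 3 g13x]]
  | .block => hermitian [1920, 640] [1920, 640, 384]
      [[Pl.smul 8 960 (z 0), Pl.smul 8 240 o13x], [Pl.smul 8 240 o13x, Pl.smul 8 80 o33x],
        [Pl.smul 8 120 o15x, Pl.smul 8 15 o35x]]
  | .oddRowLin => hermitian [13440] [13440, 4480, 2688, 1920]
      [[Pl.smul 8 6720 (z 0)], [Pl.smul 8 1680 o13x], [Pl.smul 8 840 o15x], [Pl.smul 8 105 o17x]]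

/-- An entry. -/
def entry (k : Kind) (i j : ℕ) : Pl 8 := (k.mat.getD i []).getD j (Pl.zero 8)

end Kind

/-- A monomial from its list of exponents. -/
def monomial : ℕ → List ℕ → Pl 8
  | _, [] => Pl.const 8 1
  | i, e :: l => Pl.mul 8 (Pl.pow 8 (Pl.var 8 i) e) (monomial (i + 1) l)

/-- Add to one entry of a list. -/
def bump (p : Pl 8) : ℕ → List (Pl 8) → List (Pl 8)
  | _, [] => []
  | 0, a :: l => Pl.add 8 p a :: l
  | j + 1, a :: l => a :: bump p j l

/-- The contributions of one row, sorted by component. -/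
def gather (w : ℕ) : List ℤ → List (ℕ × Pl 8) → List (Pl 8)
  | [], _ => List.replicate w (Pl.zero 8)
  | _ :: _, [] => List.replicate w (Pl.zero 8)
  | h :: r, (j, m) :: ks => bump (Pl.smul 8 h m) j (gather w r ks)

/-- A product sum of two lists of polynomials. -/
def dotList : List (Pl 8) → List (Pl 8) → Pl 8
  | [], _ => Pl.zero 8
  | _ :: _, [] => Pl.zero 8
  | a :: l, b :: m => Pl.add 8 (Pl.mul 8 a b) (dotList l m)

/-- The Gram polynomial, accumulated by rows. -/
def gramRows (G : List (List (Pl 8))) (cs : List (ℕ × Pl 8)) :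
    List (List ℤ) → List (ℕ × Pl 8) → Pl 8
  | [], _ => Pl.zero 8
  | _ :: _, [] => Pl.zero 8
  | r :: M, (i, m) :: ks =>
    Pl.add 8 (Pl.mul 8 (swap m) (dotList (G.getD i []) (gather (G.getD i []).length r cs)))
      (gramRows G cs M ks)

/-- A term of the certificate: a block, its monomial vectors and a Gram matrix. -/
structure Term where
  /-- The block. -/
  kind : Kind
  /-- Component and exponents of each index. -/
  keys : List (ℕ × List ℕ)
  /-- The Gram matrix. -/
  gram : List (List ℤ)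

/-- The monomial vectors of a term. -/
def Term.vecs (t : Term) : List (ℕ × Pl 8) := t.keys.map fun k => (k.1, monomial 0 k.2)

/-- The polynomial of a term. -/
def Term.poly (t : Term) : Pl 8 := gramRows t.kind.mat t.vecs t.gram t.vecs

/-- The sum of the terms. -/
def termSum : List Term → Pl 8
  | [] => Pl.zero 8
  | t :: l => Pl.add 8 t.poly (termSum l)

noncomputable section

/-- The kernel of a block at a point. -/
def kernel (k : Kind) (y : ℕ → ℂ) (r s : ℕ × Pl 8) : ℂ :=
  conj (Pl.eval 8 r.2 y) * (Pl.eval 8 (k.entry r.1 s.1) y * Pl.eval 8 s.2 y)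

theorem eval_replicate (y : ℕ → ℂ) : ∀ (w : ℕ) (l : List (Pl 8)),
    Pl.eval 8 (dotList l (List.replicate w (Pl.zero 8))) y = 0
  | 0, l => by cases l <;> simp [dotList, Pl.eval_zero]
  | w + 1, [] => by simp [dotList, Pl.eval_zero]
  | w + 1, a :: l => by
    simp [List.replicate_succ, dotList, Pl.eval_add, Pl.eval_mul, Pl.eval_zero, eval_replicate y w l]

theorem eval_bump (y : ℕ → ℂ) (p : Pl 8) : ∀ (j : ℕ) (g acc : List (Pl 8)),
    g.length = acc.length → Pl.eval 8 (dotList g (bump p j acc)) y =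
      Pl.eval 8 (g.getD j (Pl.zero 8)) y * Pl.eval 8 p y + Pl.eval 8 (dotList g acc) y
  | j, [], [], _ => by simp [dotList, Pl.eval_zero]
  | j, [], _ :: _, h => by simp at h
  | j, _ :: _, [], h => by simp at h
  | 0, a :: g, b :: acc, _ => by
    simp [bump, dotList, Pl.eval_add, Pl.eval_mul]; ring
  | j + 1, a :: g, b :: acc, h => by
    simp only [bump, dotList, Pl.eval_add, Pl.eval_mul, List.getD_cons_succ]
    rw [eval_bump y p j g acc (by simpa using h)]
    ring

theorem length_bump (p : Pl 8) : ∀ (j : ℕ) (l : List (Pl 8)), (bump p j l).length = l.length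
  | j, [] => by simp [bump]
  | 0, a :: l => by simp [bump]
  | j + 1, a :: l => by simp [bump, length_bump p j l]

theorem length_gather (w : ℕ) : ∀ (r : List ℤ) (ks : List (ℕ × Pl 8)), (gather w r ks).length = w
  | [], _ => by simp [gather]
  | _ :: _, [] => by simp [gather]
  | h :: r, (j, m) :: ks => by simp [gather, length_bump, length_gather w r ks]

theorem eval_gather (y : ℕ → ℂ) (g : List (Pl 8)) : ∀ (r : List ℤ) (ks : List (ℕ × Pl 8)),
    Pl.eval 8 (dotList g (gather g.length r ks)) y = Psd.rowVal r ks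
      (fun s => Pl.eval 8 (g.getD s.1 (Pl.zero 8)) y * Pl.eval 8 s.2 y)
  | [], _ => by simp [gather, eval_replicate, Psd.rowVal]
  | _ :: _, [] => by simp [gather, eval_replicate, Psd.rowVal]
  | h :: r, (j, m) :: ks => by
    rw [gather, eval_bump _ _ _ _ _ (length_gather _ _ _).symm, eval_gather y g r ks]
    simp [Psd.rowVal, Pl.eval_smul]
    ring

theorem mul_rowVal {κ : Type} (c : ℂ) (f : κ → ℂ) : ∀ (r : List ℤ) (ks : List κ),
    c * Psd.rowVal r ks f = Psd.rowVal r ks (fun s => c * f s)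
  | [], _ => by simp [Psd.rowVal]
  | _ :: _, [] => by simp [Psd.rowVal]
  | h :: r, k :: ks => by simp [Psd.rowVal, ← mul_rowVal c f r ks]; ring

theorem eval_gramRows (a : ℕ → ℂ) (k : Kind) (cs : List (ℕ × Pl 8)) :
    ∀ (M : List (List ℤ)) (ks : List (ℕ × Pl 8)),
      Pl.eval 8 (gramRows k.mat cs M ks) (point a) = Psd.matVal M ks cs (kernel k (point a))
  | [], _ => by simp [gramRows, Pl.eval_zero, Psd.matVal]
  | _ :: _, [] => by simp [gramRows, Pl.eval_zero, Psd.matVal]
  | r :: M, (i, m) :: ks => by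
    simp only [gramRows, Psd.matVal, Pl.eval_add, Pl.eval_mul, eval_swap, eval_gather,
      eval_gramRows a k cs M ks, mul_rowVal]
    rfl

theorem re_rowVal {κ : Type} (f : κ → ℂ) : ∀ (r : List ℤ) (ks : List κ),
    (Psd.rowVal r ks f).re = Psd.rowVal r ks (fun s => (f s).re)
  | [], _ => by simp [Psd.rowVal]
  | _ :: _, [] => by simp [Psd.rowVal]
  | h :: r, k :: ks => by simp [Psd.rowVal, re_rowVal f r ks]

theorem re_matVal {κ : Type} (B : κ → κ → ℂ) (cs : List κ) : ∀ (M : List (List ℤ)) (ks : List κ),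
    (Psd.matVal M ks cs B).re = Psd.matVal M ks cs (fun r s => (B r s).re)
  | [], _ => by simp [Psd.matVal]
  | _ :: _, [] => by simp [Psd.matVal]
  | r :: M, k :: ks => by simp [Psd.matVal, re_rowVal, re_matVal B cs M ks]

/-- The value of a vector at a component. -/
def comp (y : ℕ → ℂ) : List ℤ → List (ℕ × Pl 8) → ℕ → ℂ
  | [], _, _ => 0
  | _ :: _, [], _ => 0
  | h :: u, (j, m) :: ks, i => (if i = j then (h : ℂ) * Pl.eval 8 m y else 0) + comp y u ks i

theorem rowVal_comp_right (y : ℕ → ℂ) (f : ℕ → ℂ) (n : ℕ) (hf : ∀ j, n ≤ j → f j = 0) :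
    ∀ (u : List ℤ) (ks : List (ℕ × Pl 8)),
      Psd.rowVal u ks (fun s => f s.1 * Pl.eval 8 s.2 y) = ∑ j ∈ range n, f j * comp y u ks j
  | [], _ => by simp [Psd.rowVal, comp]
  | _ :: _, [] => by simp [Psd.rowVal, comp]
  | h :: u, (i, m) :: ks => by
    simp only [Psd.rowVal, comp, mul_add, sum_add_distrib, rowVal_comp_right y f n hf u ks,
      mul_ite, mul_zero, sum_ite_eq', mem_range]
    split_ifs with hi
    · ring
    · rw [hf i (by omega)]; ring

theorem rowVal_comp_left (y : ℕ → ℂ) (f : ℕ → ℂ) (n : ℕ) (hf : ∀ j, n ≤ j → f j = 0) :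
    ∀ (u : List ℤ) (ks : List (ℕ × Pl 8)),
      Psd.rowVal u ks (fun s => conj (Pl.eval 8 s.2 y) * f s.1) =
        ∑ j ∈ range n, conj (comp y u ks j) * f j
  | [], _ => by simp [Psd.rowVal, comp]
  | _ :: _, [] => by simp [Psd.rowVal, comp]
  | h :: u, (i, m) :: ks => by
    simp only [Psd.rowVal, comp, map_add, apply_ite (conj : ℂ → ℂ), map_zero, map_mul, map_intCast,
      add_mul, sum_add_distrib, rowVal_comp_left y f n hf u ks, ite_mul, zero_mul, sum_ite_eq',
      mem_range]
    split_ifs with hi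
    · ring
    · rw [hf i (by omega)]; ring

theorem length_mat (k : Kind) : k.mat.length ≤ 5 ∧ ∀ r ∈ k.mat, r.length ≤ 5 := by
  cases k <;> simp [Kind.mat, Kind.hermitian, List.range_succ]

theorem entry_eq_zero (k : Kind) (i j : ℕ) (h : 5 ≤ i ∨ 5 ≤ j) : k.entry i j = Pl.zero 8 := by
  obtain ⟨h1, h2⟩ := length_mat k
  rcases lt_or_ge i k.mat.length with hi | hi
  · have hm : k.mat.getD i [] ∈ k.mat := by
      rw [List.getD_eq_getElem _ _ hi]; exact List.getElem_mem hi
    exact List.getD_eq_default _ _ ((h2 _ hm).trans (by omega))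
  · rw [Kind.entry, List.getD_eq_default _ _ hi]; simp

theorem form_nonneg {a : ℕ → ℂ} (h : Body a) (k : Kind) (x : ℕ → ℂ) :
    0 ≤ (∑ i ∈ range 5, conj (x i) *
      ∑ j ∈ range 5, Pl.eval 8 (k.entry i j) (point a) * x j).re := by
  obtain ⟨hb, h2, hr, hB, ho⟩ := h
  have hb' : normSq (a 2) ≤ 4 := by
    rw [normSq_eq_norm_sq]
    nlinarith [norm_nonneg (a 2)]
  have hv : ∀ {i}, i < 8 → Pl.eval 8 (Pl.var 8 i) (point a) = point a i :=
    fun h => Pl.eval_var _ h
  have hw : ∀ (w : ℝ), 0 < w → ∀ y z : ℂ,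
      0 ≤ normSq y / w + w * normSq z + 2 * (y.re * z.re + y.im * z.im) := fun w hw y z => by
    have h : normSq y / w + w * normSq z + 2 * (y.re * z.re + y.im * z.im) =
        ((y.re + w * z.re) ^ 2 + (y.im + w * z.im) ^ 2) / w := by
      simp only [normSq_apply]
      field_simp
      ring
    rw [h]
    positivity
  have e13 : Pl.eval 8 Kind.g13x (point a) = 2 * g13 a := by
    simp [Kind.g13x, Kind.z, Pl.eval_add, Pl.eval_smul, Pl.eval_mul, hv (show 1 < 8 by omega),
      hv (show 3 < 8 by omega), point, g11, g22, g13]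
    ring
  have f13 : Pl.eval 8 Kind.o13x (point a) = 8 * o13 a := by
    simp [Kind.o13x, Kind.z, Pl.eval_add, Pl.eval_smul, Pl.eval_mul, hv (show 1 < 8 by omega),
      hv (show 0 < 8 by omega), point, g11, o13]
    ring
  have f33 : Pl.eval 8 Kind.o33x (point a) = 24 * o33 a := by
    simp [Kind.o33x, Kind.z, Pl.eval_add, Pl.eval_smul, Pl.eval_mul, hv (show 2 < 8 by omega),
      hv (show 0 < 8 by omega), point, g12, o33]
    ring
  have f15 : Pl.eval 8 Kind.o15x (point a) = 16 * o15 a := by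
    simp [Kind.o15x, Kind.z, Pl.eval_add, Pl.eval_smul, Pl.eval_mul, hv (show 1 < 8 by omega),
      hv (show 2 < 8 by omega), hv (show 0 < 8 by omega), point, g11, g12, o15]
    ring
  have f35 : Pl.eval 8 Kind.o35x (point a) = 128 * o35 a := by
    simp [Kind.o35x, Kind.z, Pl.eval_add, Pl.eval_smul, Pl.eval_mul, hv (show 1 < 8 by omega),
      hv (show 3 < 8 by omega), hv (show 0 < 8 by omega), point, g11, g22, o35]
    ring
  have f17 : Pl.eval 8 Kind.o17x (point a) = 128 * o17 a := by
    simp [Kind.o17x, Kind.z, Pl.eval_add, Pl.eval_smul, Pl.eval_mul, hv (show 1 < 8 by omega),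
      hv (show 2 < 8 by omega), hv (show 3 < 8 by omega), hv (show 0 < 8 by omega), point, g11,
      g12, g22, o17]
    ring
  cases k <;>
    simp [Kind.entry, Kind.mat, Kind.hermitian, Kind.nsq, List.range_succ, sum_range_succ,
      Pl.eval_add, Pl.eval_sub, Pl.eval_smul, Pl.eval_mul, Pl.eval_const, Pl.eval_zero, eval_swap,
      Kind.z, hv (show 0 < 8 by omega), hv (show 1 < 8 by omega), hv (show 2 < 8 by omega),
      hv (show 3 < 8 by omega), point, e13, f13, f33, f15, f35, f17]
  case one => nlinarith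
  case ball =>
    simp only [normSq_apply] at hb'
    nlinarith [mul_nonneg (add_nonneg (mul_self_nonneg (x 0).re) (mul_self_nonneg (x 0).im))
      (sub_nonneg.2 hb')]
  case ballLin =>
    have e := hw (1 / 2) (by norm_num) (x 1) (a 2 * x 0)
    rw [normSq_mul] at e
    have := mul_le_mul_of_nonneg_right hb' (normSq_nonneg (x 0))
    simp [normSq_apply] at e this
    linarith
  case row =>
    have := mul_le_mul_of_nonneg_right hr (normSq_nonneg (x 0))
    simp [normSq_apply] at this
    linarith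
  case oddRow =>
    have := mul_le_mul_of_nonneg_right ho (normSq_nonneg (x 0))
    simp [normSq_apply, o11] at this
    linarith
  case pair =>
    have e := h2 (x 0) (x 1)
    have e1 := hw 1 one_pos (x 2) (g11 a * x 0 + g12 a * x 1)
    have e2 := hw 2 two_pos (x 3) (g12 a * x 0 + g22 a * x 1)
    simp [normSq_apply] at e e1 e2
    linarith
  case rowLin =>
    have e := mul_le_mul_of_nonneg_right hr (normSq_nonneg (x 0))
    have e1 := hw 1 one_pos (x 1) (g11 a * x 0)
    have e2 := hw 2 two_pos (x 2) (g12 a * x 0)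
    have e3 := hw 3 (by norm_num) (x 3) (g13 a * x 0)
    rw [normSq_mul] at e1 e2 e3
    simp [normSq_apply] at e e1 e2 e3
    linarith
  case block =>
    have e := hB (x 0) (x 1)
    have e1 := hw 1 one_pos (x 2) (o11 a * x 0 + o13 a * x 1)
    have e2 := hw 3 (by norm_num) (x 3) (o13 a * x 0 + o33 a * x 1)
    have e3 := hw 5 (by norm_num) (x 4) (o15 a * x 0 + o35 a * x 1)
    simp [normSq_apply, o11] at e e1 e2 e3
    linarith
  case oddRowLin =>
    have e := mul_le_mul_of_nonneg_right ho (normSq_nonneg (x 0))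
    have e1 := hw 1 one_pos (x 1) (o11 a * x 0)
    have e2 := hw 3 (by norm_num) (x 2) (o13 a * x 0)
    have e3 := hw 5 (by norm_num) (x 3) (o15 a * x 0)
    have e4 := hw 7 (by norm_num) (x 4) (o17 a * x 0)
    rw [normSq_mul] at e1 e2 e3 e4
    simp [normSq_apply, o11] at e e1 e2 e3 e4
    linarith

theorem entry_hermitian (a : ℕ → ℂ) (k : Kind) (i j : ℕ) :
    Pl.eval 8 (k.entry j i) (point a) = conj (Pl.eval 8 (k.entry i j) (point a)) := by
  by_cases h : i < 5 ∧ j < 5
  · have hk : ∀ i < 5, ∀ j < 5,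
        Pl.isZero 8 (Pl.sub 8 (k.entry j i) (swap (k.entry i j))) = true := by
      cases k <;> decide +kernel
    rw [Pl.eval_eq_of_check (point a) (hk i h.1 j h.2), eval_swap]
  · rw [entry_eq_zero _ j i (by omega), entry_eq_zero _ i j (by omega)]
    simp [Pl.eval_zero]

theorem term_nonneg {a : ℕ → ℂ} (h : Body a) (t : Term) {W s : ℕ} {L : List Psd.Sq}
    {O : List (List ℤ)} {D : List ℤ} (hc : Psd.check W s t.gram L O D = true) :
    0 ≤ (Pl.eval 8 t.poly (point a)).re := by
  rw [Term.poly, eval_gramRows, re_matVal]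
  refine Psd.matVal_nonneg hc _ (fun u ks => ?_) (fun r v => ?_) _
  swap
  · show (kernel t.kind (point a) r v).re = (kernel t.kind (point a) v r).re
    rw [← conj_re (kernel t.kind (point a) v r)]
    congr 1
    simp only [kernel, map_mul, conj_conj, ← entry_hermitian a t.kind]
    ring
  rw [show (fun k => Psd.rowVal u ks fun s => (kernel t.kind (point a) k s).re) =
    fun k => (Psd.rowVal u ks (kernel t.kind (point a) k)).re from
      funext fun k => (re_rowVal _ u ks).symm, ← re_rowVal]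
  have e : (fun k => Psd.rowVal u ks (kernel t.kind (point a) k)) = fun k : ℕ × Pl 8 =>
      conj (Pl.eval 8 k.2 (point a)) *
        ∑ j ∈ range 5, Pl.eval 8 (t.kind.entry k.1 j) (point a) * comp (point a) u ks j :=
    funext fun k => by
      rw [← rowVal_comp_right (point a) (fun j => Pl.eval 8 (t.kind.entry k.1 j) (point a)) 5
        (fun j hj => by rw [entry_eq_zero _ _ _ (Or.inr hj), Pl.eval_zero]), mul_rowVal]
      rfl
  rw [e, rowVal_comp_left (point a) (fun i => ∑ j ∈ range 5,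
    Pl.eval 8 (t.kind.entry i j) (point a) * comp (point a) u ks j) 5
    (fun i hi => sum_eq_zero fun j _ => by
      rw [entry_eq_zero _ _ _ (Or.inl hi), Pl.eval_zero, zero_mul])]
  exact form_nonneg h t.kind _

theorem termSum_nonneg {a : ℕ → ℂ} (h : Body a) :
    ∀ l : List Term, (∀ t ∈ l, ∃ W s L O D, Psd.check W s t.gram L O D = true) →
      0 ≤ (Pl.eval 8 (termSum l) (point a)).re
  | [], _ => by simp [termSum, Pl.eval_zero]
  | t :: l, hl => by
    obtain ⟨W, s, L, O, D, hc⟩ := hl t (by simp)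
    simp only [termSum, Pl.eval_add, add_re]
    exact add_nonneg (term_nonneg h t hc)
      (termSum_nonneg h l fun u hu => hl u (List.mem_cons_of_mem _ hu))

/-- The real part of the certificate's defect, doubled. -/
def defect (bn : ℤ) (bd M C : ℕ) (p q : Pl 6) (l : List Term) : Pl 8 :=
  let x := Pl.sub 8 (Pl.smul 8 M (Pl.sub 8 (density bn bd p q) (Pl.const 8 C))) (termSum l)
  Pl.add 8 x (swap x)

/-- A checked identity with checked Gram matrices gives the pointwise certificate. -/
theorem cert_of_check (bn : ℤ) (bd K M C : ℕ) (hbd : 0 < bd) (hK : 0 < K) (hM : 0 < M) (hC : 0 < C)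
    (p q : Pl 6) (l : List Term) (h : Pl.isZero 8 (defect bn bd M C p q l) = true)
    (hl : ∀ t ∈ l, ∃ W s L O D, Psd.check W s t.gram L O D = true) :
    Cert ((bn : ℝ) / bd) ((C : ℝ) / (4 * bd * K)) (ofPoly K 1 p) (ofPoly K I q) := by
  refine ⟨contDiff_ofPoly K 1 p, contDiff_ofPoly K I q, by positivity, fun a ha => ?_⟩
  have e := congrArg Complex.re (Pl.eval_isZero (point a) 8 _ h)
  simp only [defect, Pl.eval_add, eval_swap, Pl.eval_sub, Pl.eval_smul, Pl.eval_const, add_re,
    conj_re, sub_re, mul_re, zero_re, re_eval_density bn bd K hbd hK] at e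
  norm_num at e
  have hn := termSum_nonneg ha l hl
  have hMr : (0 : ℝ) < M := by exact_mod_cast hM
  have h4 : (0 : ℝ) < 4 * bd * K := by positivity
  rw [div_le_iff₀ h4]
  nlinarith

end

end Vale.Agent.P142.Flux
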