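import Vale.Agent.P142.Flux.Domain

/-!
Both certificates put together: a bound for the integral means spectrum at `-2` and a range of
integrable powers, for functions on the disk and for conformal bijections onto the disk.
-/

open Complex Set Metric MeasureTheory Filter Topology

namespace Vale.Agent.P142.Flux

noncomputable section

/-- A certificate at weight `1` and exponent `β`, and one at weight `τ` and exponent `1`, give the
spectrum bound at `-2` and integrability of the powers `s` in `[2, 2 + 2 τ)`. -/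
theorem bundle {β τ c c' : ℝ} {P Q P' Q' : ℂ × ℂ × ℂ → ℝ} (hβ : 0 < β) (hτ : 0 < τ)
    (h₁ : CertT 1 β c P Q) (h₂ : CertT τ 1 c' P' Q') :
    (∀ f : ℂ → ℂ, DifferentiableOn ℂ f (ball 0 1) → InjOn f (ball 0 1) →
      limsup (fun r : ℝ => ((Real.log ((2 * Real.pi)⁻¹ *
          ∫ x in (-Real.pi)..Real.pi, ‖deriv f ((r : ℂ) * exp (x * I))‖ ^ (-2 : ℝ)) /
        Real.log (1 / (1 - r)) : ℝ) : EReal)) (𝓝[<] 1) ≤ (β : EReal)) ∧
    (∀ f : ℂ → ℂ, DifferentiableOn ℂ f (ball 0 1) → InjOn f (ball 0 1) → ∀ t : ℝ,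
      -(2 * τ) < t → t ≤ 0 →
      (∀ z ∈ ball (0 : ℂ) 1, deriv f z ≠ 0) ∧
        IntegrableOn (fun z => ‖deriv f z‖ ^ t) (ball (0 : ℂ) 1)) ∧
    ∀ (W : Set ℂ) (φ : ℂ → ℂ), IsOpen W → DifferentiableOn ℂ φ W →
      BijOn φ W (ball (0 : ℂ) 1) → ∀ s : ℝ, 2 ≤ s → s < 2 + 2 * τ →
      IntegrableOn (fun z => ‖deriv φ z‖ ^ s) W := by
  refine ⟨fun f hf hi => ?_, fun f hf hi t ht ht0 => ⟨fun z hz => deriv_ne_zero hf hi hz, ?_⟩,
    fun W φ hW hφ hb s hs hs' => ?_⟩
  · have h := spectrum_le zero_le_one hβ h₁ hf hi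
    norm_num at h ⊢
    exact h
  · exact integrable_power hτ le_rfl h₂ hf hi (by rwa [div_one]) ht0
  · exact integrable_domain hτ le_rfl h₂ hW hφ hb hs (by rwa [div_one])

end

end Vale.Agent.P142.Flux
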