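import Mathlib

/-!
Signed contributions to indexed slots, compared through their packed sums: two packed sums of
natural numbers agree only if every slot agrees, provided the totals are below the base.
-/

namespace Vale.Agent.P142.Flux

namespace Items

/-- A contribution: positive part, negative part, slot. -/
abbrev Item : Type := ℕ × ℕ × ℕ

/-- The packed positive parts. -/
def sumPos (W : ℕ) : List Item → ℕ
  | [] => 0
  | x :: L => Nat.add (Nat.shiftLeft x.1 (Nat.mul W x.2.2)) (sumPos W L)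

/-- The packed negative parts. -/
def sumNeg (W : ℕ) : List Item → ℕ
  | [] => 0
  | x :: L => Nat.add (Nat.shiftLeft x.2.1 (Nat.mul W x.2.2)) (sumNeg W L)

/-- The total of the positive parts. -/
def totPos : List Item → ℕ
  | [] => 0
  | x :: L => Nat.add x.1 (totPos L)

/-- The total of the negative parts. -/
def totNeg : List Item → ℕ
  | [] => 0
  | x :: L => Nat.add x.2.1 (totNeg L)

/-- The value of contributions under a weight on slots. -/
noncomputable def val (φ : ℕ → ℝ) : List Item → ℝ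
  | [] => 0
  | x :: L => ((x.1 : ℝ) - x.2.1) * φ x.2.2 + val φ L

/-- The contributions above the first slot, moved down by one slot. -/
def lower : List Item → List Item
  | [] => []
  | (_, _, 0) :: L => (0, 0, 0) :: lower L
  | (p, q, i + 1) :: L => (p, q, i) :: lower L

/-- Positive parts in the first slot. -/
def firstPos : List Item → ℕ
  | [] => 0
  | (p, _, 0) :: L => p + firstPos L
  | (_, _, _ + 1) :: L => firstPos L

/-- Negative parts in the first slot. -/
def firstNeg : List Item → ℕ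
  | [] => 0
  | (_, q, 0) :: L => q + firstNeg L
  | (_, _, _ + 1) :: L => firstNeg L

theorem shift_eq (a b : ℕ) : Nat.shiftLeft a b = a * 2 ^ b := Nat.shiftLeft_eq a b

theorem split (W : ℕ) : ∀ L : List Item,
    sumPos W L = firstPos L + 2 ^ W * sumPos W (lower L) ∧
    sumNeg W L = firstNeg L + 2 ^ W * sumNeg W (lower L) ∧
    totPos L = firstPos L + totPos (lower L) ∧ totNeg L = firstNeg L + totNeg (lower L)
  | [] => by simp [sumPos, sumNeg, totPos, totNeg, firstPos, firstNeg, lower]
  | (p, q, 0) :: L => by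
    obtain ⟨h1, h2, h3, h4⟩ := split W L
    simp only [sumPos, sumNeg, totPos, totNeg, firstPos, firstNeg, lower, shift_eq, Nat.add_eq,
      Nat.mul_eq, Nat.mul_zero, pow_zero, Nat.mul_one, h1, h2, h3, h4]
    refine ⟨?_, ?_, ?_, ?_⟩ <;> simp <;> ring
  | (p, q, i + 1) :: L => by
    obtain ⟨h1, h2, h3, h4⟩ := split W L
    simp only [sumPos, sumNeg, totPos, totNeg, firstPos, firstNeg, lower, shift_eq, Nat.add_eq,
      Nat.mul_eq, h1, h2, h3, h4, Nat.mul_succ, pow_add]
    refine ⟨?_, ?_, ?_, ?_⟩ <;> ring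

theorem val_split (φ : ℕ → ℝ) : ∀ L : List Item, val φ L =
    ((firstPos L : ℝ) - firstNeg L) * φ 0 + val (fun i => φ (i + 1)) (lower L)
  | [] => by simp [val, firstPos, firstNeg, lower]
  | (p, q, 0) :: L => by
    simp [val, firstPos, firstNeg, lower, val_split φ L]
    ring
  | (p, q, i + 1) :: L => by
    simp [val, firstPos, firstNeg, lower, val_split φ L]
    ring

theorem lower_lt (N : ℕ) : ∀ L : List Item, (∀ x ∈ L, x.2.2 < N + 1 ∨ (x.1 = 0 ∧ x.2.1 = 0)) →
    ∀ x ∈ lower L, x.2.2 < N ∨ (x.1 = 0 ∧ x.2.1 = 0)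
  | [], _, x, hx => by simp [lower] at hx
  | (p, q, 0) :: L, h, x, hx => by
    simp only [lower, List.mem_cons] at hx
    rcases hx with rfl | hx
    · exact Or.inr ⟨rfl, rfl⟩
    · exact lower_lt N L (fun y hy => h y (List.mem_cons_of_mem _ hy)) x hx
  | (p, q, i + 1) :: L, h, x, hx => by
    simp only [lower, List.mem_cons] at hx
    rcases hx with rfl | hx
    · rcases h (p, q, i + 1) (List.mem_cons_self ..) with h | h
      · exact Or.inl (by simpa using h)
      · exact Or.inr h
    · exact lower_lt N L (fun y hy => h y (List.mem_cons_of_mem _ hy)) x hx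

/-- Equal packed sums with totals below the base have value zero. -/
theorem val_eq_zero (W : ℕ) : ∀ (N : ℕ) (φ : ℕ → ℝ) (L : List Item),
    (∀ x ∈ L, x.2.2 < N ∨ (x.1 = 0 ∧ x.2.1 = 0)) → sumPos W L = sumNeg W L →
    totPos L < 2 ^ W → totNeg L < 2 ^ W → val φ L = 0
  | 0, φ, L, h, _, _, _ => by
    have e : ∀ M : List Item, (∀ x ∈ M, x.1 = 0 ∧ x.2.1 = 0) → val φ M = 0 := fun M => by
      induction M with
      | nil => intro _; rfl
      | cons x M ih =>
        intro hM
        simp [val, hM x (List.mem_cons_self ..), ih fun y hy => hM y (List.mem_cons_of_mem _ hy)]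
    exact e L fun x hx => (h x hx).resolve_left (Nat.not_lt_zero _)
  | N + 1, φ, L, h, he, hp, hq => by
    obtain ⟨h1, h2, h3, h4⟩ := split W L
    rw [h1, h2] at he
    have e0 : firstPos L = firstNeg L := by
      have := congrArg (fun m => m % 2 ^ W) he
      simpa [Nat.add_mul_mod_self_left, Nat.mod_eq_of_lt (show firstPos L < 2 ^ W by omega),
        Nat.mod_eq_of_lt (show firstNeg L < 2 ^ W by omega)] using this
    have e1 : sumPos W (lower L) = sumNeg W (lower L) := by
      rw [e0, Nat.add_left_cancel_iff] at he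
      exact Nat.eq_of_mul_eq_mul_left (Nat.two_pow_pos W) he
    rw [val_split, e0, sub_self, zero_mul, zero_add]
    exact val_eq_zero W N _ (lower L) (lower_lt N L h) e1 (by omega) (by omega)

/-- A real number is represented by contributions with the given packed sums and totals. -/
def Rep (W : ℕ) (φ : ℕ → ℝ) (v : ℝ) (P Q tp tq : ℕ) : Prop :=
  ∃ L : List Item, sumPos W L = P ∧ sumNeg W L = Q ∧ totPos L = tp ∧ totNeg L = tq ∧ val φ L = v

theorem Rep.add {W : ℕ} {φ : ℕ → ℝ} {v v' : ℝ} {P Q tp tq P' Q' tp' tq' : ℕ}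
    (h : Rep W φ v P Q tp tq) (h' : Rep W φ v' P' Q' tp' tq') :
    Rep W φ (v + v') (Nat.add P P') (Nat.add Q Q') (Nat.add tp tp') (Nat.add tq tq') := by
  obtain ⟨L, rfl, rfl, rfl, rfl, rfl⟩ := h
  obtain ⟨M, rfl, rfl, rfl, rfl, rfl⟩ := h'
  refine ⟨L ++ M, ?_, ?_, ?_, ?_, ?_⟩ <;> induction L with
    | nil => simp [sumPos, sumNeg, totPos, totNeg, val]
    | cons x L ih =>
      simp only [List.cons_append, sumPos, sumNeg, totPos, totNeg, val, ih, Nat.add_eq]
      ring

theorem rep_nil (W : ℕ) (φ : ℕ → ℝ) : Rep W φ 0 0 0 0 0 := ⟨[], rfl, rfl, rfl, rfl, rfl⟩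

theorem Rep.neg {W : ℕ} {φ : ℕ → ℝ} {v : ℝ} {P Q tp tq : ℕ} (h : Rep W φ v P Q tp tq) :
    Rep W φ (-v) Q P tq tp := by
  obtain ⟨L, rfl, rfl, rfl, rfl, rfl⟩ := h
  refine ⟨L.map fun x => (x.2.1, x.1, x.2.2), ?_, ?_, ?_, ?_, ?_⟩ <;> induction L with
    | nil => simp [sumPos, sumNeg, totPos, totNeg, val]
    | cons x L ih => simp [sumPos, sumNeg, totPos, totNeg, val, ih]; try ring

/-- Balanced packed sums force the represented number to vanish. -/
theorem Rep.eq_zero {W : ℕ} {φ : ℕ → ℝ} {v : ℝ} {P Q tp tq : ℕ} (h : Rep W φ v P Q tp tq)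
    (he : P = Q) (hp : tp < 2 ^ W) (hq : tq < 2 ^ W) : v = 0 := by
  obtain ⟨L, rfl, rfl, rfl, rfl, rfl⟩ := h
  refine val_eq_zero W ((L.map fun x => x.2.2 + 1).sum) φ L (fun x hx => Or.inl ?_) he hp hq
  exact Nat.lt_of_succ_le (List.le_sum_of_mem (List.mem_map.2 ⟨x, hx, rfl⟩))

end Items

end Vale.Agent.P142.Flux
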