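import Vale.Agent.P142.Flux.Psd

/-!
The decomposition test on matrices stored as packed rows: a quadratic number of operations on
natural numbers, implying the test of `Psd`.
-/

namespace Vale.Agent.P142.Flux

namespace Packed

/-- A slot of a packed number. -/
def fld (W N k : ℕ) : ℕ := Nat.mod (Nat.shiftRight N (Nat.mul W k)) (Nat.pow 2 W)

/-- The row stored in a packed number with offset `2 ^ b`. -/
def row (W b n N : ℕ) : List ℤ :=
  (List.range n).map fun k => (fld W N k : ℤ) - (2 ^ b : ℕ)

/-- The packed all-ones row. -/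
def ones (W : ℕ) : ℕ → ℕ
  | 0 => 0
  | n + 1 => Nat.add 1 (Nat.mul (Nat.pow 2 W) (ones W n))

/-- All slots lie below `2 ^ (b + 1)` and nothing lies above them. -/
def fits (W b n N : ℕ) : Bool :=
  Nat.ble (Nat.add N 1) (Nat.pow 2 (Nat.mul W n)) &&
    Nat.beq (Nat.land N (Nat.mul (ones W n) (Nat.sub (Nat.pow 2 W) (Nat.pow 2 (Nat.add b 1))))) 0

/-- All listed rows fit. -/
def allFit (W b n : ℕ) : List ℕ → Bool
  | [] => true
  | N :: l => fits W b n N && allFit W b n l

/-- The sum of the packed vectors. -/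
def sumAll : List ℕ → ℕ
  | [] => 0
  | U :: l => Nat.add U (sumAll l)

/-- The sum of the entries in position `r`. -/
def sumAt (W r : ℕ) : List ℕ → ℕ
  | [] => 0
  | U :: l => Nat.add (fld W U r) (sumAt W r l)

/-- The sum of the packed vectors weighted by their entries in position `r`. -/
def dotAt (W r : ℕ) : List ℕ → ℕ
  | [] => 0
  | U :: l => Nat.add (Nat.mul (fld W U r) U) (dotAt W r l)

/-- The row tests. -/
def rows (W s bH b bO n : ℕ) (U : List ℕ) (su one : ℕ) : ℕ → List ℕ → List ℕ → List ℕ → Bool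
  | _, [], O, _ => O.isEmpty
  | r, h :: H, O, D =>
    Nat.beq
        (Nat.add (Nat.mul s h) (Nat.add (Nat.mul (Nat.pow 2 b) su)
          (Nat.mul one (Nat.add (Nat.mul (Nat.pow 2 b) (sumAt W r U)) (Nat.pow 2 bO)))))
        (Nat.add (dotAt W r U) (Nat.add (O.headD 0) (Nat.add
          (Nat.mul (D.headD 0) (Nat.pow 2 (Nat.mul W r)))
          (Nat.mul one (Nat.add (Nat.mul (Nat.pow 2 b) (Nat.mul (Nat.pow 2 b) U.length))
            (Nat.mul s (Nat.pow 2 bH))))))) &&
      Nat.ble
        (Nat.add (Nat.add (Nat.mul s (Nat.pow 2 bH))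
          (Nat.mul U.length (Nat.mul (Nat.pow 2 b) (Nat.pow 2 b))))
          (Nat.add (Nat.pow 2 bO) (Nat.add (D.headD 0) 1))) (Nat.pow 2 W) &&
      Nat.ble (Nat.mul n (Nat.pow 2 bO)) (D.headD 0) &&
      rows W s bH b bO n U su one (r + 1) H O.tail D.tail

/-- The test of a packed symmetric matrix `H` against packed vectors `U`, an off-diagonal part
`O` and a diagonal `D`. -/
def check (W s bH b bO n su : ℕ) (H U O D : List ℕ) : Bool :=
  Nat.ble 1 s && Nat.beq su (sumAll U) && Nat.beq H.length n && Nat.beq O.length n &&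
    allFit W bH n H && allFit W b n U && allFit W bO n O &&
    rows W s bH b bO n U su (ones W n) 0 H O D

/-- The matrix stored in packed rows. -/
def matrix (W b n : ℕ) (H : List ℕ) : List (List ℤ) := H.map (row W b n)

theorem fld_eq (W N k : ℕ) : fld W N k = N / 2 ^ (W * k) % 2 ^ W := by
  show (N >>> (W * k)) % 2 ^ W = _
  rw [Nat.shiftRight_eq_div_pow]

theorem fld_succ (W N k : ℕ) : fld W N (k + 1) = fld W (N / 2 ^ W) k := by
  rw [fld_eq, fld_eq, Nat.div_div_eq_div_mul, ← pow_add, Nat.mul_succ, Nat.add_comm (W * k) W]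

theorem fld_ones_mul (W c : ℕ) (hc : c < 2 ^ W) :
    ∀ n k : ℕ, k < n → fld W (ones W n * c) k = c
  | 0, _, h => absurd h (Nat.not_lt_zero _)
  | n + 1, 0, _ => by
    rw [fld_eq, Nat.mul_zero, pow_zero, Nat.div_one]
    show (1 + 2 ^ W * ones W n) * c % 2 ^ W = c
    rw [add_mul, one_mul, mul_assoc, Nat.add_mul_mod_self_left, Nat.mod_eq_of_lt hc]
  | n + 1, k + 1, h => by
    rw [fld_succ]
    show fld W ((1 + 2 ^ W * ones W n) * c / 2 ^ W) k = c
    rw [add_mul, one_mul, mul_assoc, Nat.add_mul_div_left _ _ (Nat.two_pow_pos W),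
      Nat.div_eq_of_lt hc, zero_add]
    exact fld_ones_mul W c hc n k (by omega)

theorem fld_and (W M N k : ℕ) : fld W (M &&& N) k = fld W M k &&& fld W N k := by
  rw [fld_eq, fld_eq, fld_eq, ← Nat.shiftRight_eq_div_pow, ← Nat.shiftRight_eq_div_pow,
    ← Nat.shiftRight_eq_div_pow]
  apply Nat.eq_of_testBit_eq
  intro i
  simp only [Nat.testBit_mod_two_pow, Nat.testBit_shiftRight, Nat.testBit_and]
  cases decide (i < W) <;> simp

theorem lt_of_and_eq_zero {W b e : ℕ} (he : e < 2 ^ W)
    (h : e &&& (2 ^ W - 2 ^ b) = 0) : e < 2 ^ b := by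
  rcases Nat.lt_or_ge W b with hb | hb
  · exact he.trans_le (Nat.pow_le_pow_right two_pos hb.le)
  refine Nat.lt_pow_two_of_testBit _ fun i hi => ?_
  rcases Nat.lt_or_ge i W with hiW | hiW
  · have h1 : 2 ^ W - 2 ^ b = 2 ^ W - (2 ^ b - 1 + 1) := by
      rw [Nat.sub_add_cancel (Nat.two_pow_pos b)]
    have h2 := congrArg (fun m => Nat.testBit m i) h
    simp only [Nat.testBit_and, Nat.zero_testBit] at h2
    rw [h1, Nat.testBit_two_pow_sub_succ (by
      calc 2 ^ b - 1 < 2 ^ b := Nat.sub_lt (Nat.two_pow_pos b) one_pos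
        _ ≤ 2 ^ W := Nat.pow_le_pow_right two_pos hb)] at h2
    have h3 : Nat.testBit (2 ^ b - 1) i = false := by
      rw [Nat.testBit_two_pow_sub_one]; simp; omega
    simpa [hiW, h3] using h2
  · exact Nat.testBit_lt_two_pow (he.trans_le (Nat.pow_le_pow_right two_pos hiW))

theorem fits_bound {W b n N : ℕ} (h : fits W b n N = true) :
    N < 2 ^ (W * n) ∧ ∀ a ∈ row W b n N, a.natAbs ≤ 2 ^ b := by
  simp only [fits, Bool.and_eq_true, Nat.ble_eq, Nat.beq_eq] at h
  obtain ⟨h1, h2⟩ := h
  refine ⟨h1, fun a ha => ?_⟩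
  obtain ⟨k, hk, rfl⟩ := List.mem_map.1 ha
  rw [List.mem_range] at hk
  have he : fld W N k < 2 ^ W := by rw [fld_eq]; exact Nat.mod_lt _ (Nat.two_pow_pos W)
  have h3 : fld W N k < 2 ^ (b + 1) := by
    refine lt_of_and_eq_zero he ?_
    have h4 : N &&& ones W n * (2 ^ W - 2 ^ (b + 1)) = 0 := h2
    have := congrArg (fun m => fld W m k) h4
    simp only [fld_and] at this
    rw [fld_ones_mul W _ (Nat.sub_lt (Nat.two_pow_pos W) (Nat.two_pow_pos _)) n k hk] at this
    simpa [fld_eq] using this
  rw [pow_succ] at h3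
  omega

theorem allFit_iff (W b n : ℕ) : ∀ l, allFit W b n l = true → ∀ N ∈ l, fits W b n N = true
  | [], _, N, h => by simp at h
  | M :: l, h, N, hN => by
    simp only [allFit, Bool.and_eq_true] at h
    rcases List.mem_cons.1 hN with rfl | hN
    · exact h.1
    · exact allFit_iff W b n l h.2 N hN

theorem row_succ (W b n N : ℕ) :
    row W b (n + 1) N = ((fld W N 0 : ℤ) - (2 ^ b : ℕ)) :: row W b n (N / 2 ^ W) := by
  simp [row, List.range_succ_eq_map, List.map_map, Function.comp_def, fld_succ]

theorem pack_row (W b : ℕ) : ∀ n N : ℕ, N < 2 ^ (W * n) →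
    Psd.pack (2 ^ W) (row W b n N) = (N : ℤ) - (2 ^ b : ℕ) * (ones W n : ℕ)
  | 0, N, h => by
    simp at h
    simp [row, Psd.pack_nil, ones, h]
  | n + 1, N, h => by
    have h' : N / 2 ^ W < 2 ^ (W * n) := by
      rw [Nat.div_lt_iff_lt_mul (Nat.two_pow_pos W), ← pow_add]
      rwa [Nat.mul_succ] at h
    rw [row_succ, Psd.pack_cons, pack_row W b n _ h',
      show ones W (n + 1) = 1 + 2 ^ W * ones W n from rfl, fld_eq, Nat.mul_zero, pow_zero,
      Nat.div_one]
    have e : ((N % 2 ^ W : ℕ) : ℤ) + ((2 ^ W : ℕ) : ℤ) * ((N / 2 ^ W : ℕ) : ℤ) = (N : ℤ) := by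
      exact_mod_cast Nat.mod_add_div N (2 ^ W)
    push_cast at e ⊢
    linear_combination e

theorem headD_drop_row (W b n r U : ℕ) (hr : r < n) :
    ((row W b n U).drop r).headD 0 = (fld W U r : ℤ) - (2 ^ b : ℕ) := by
  rw [List.drop_eq_getElem_cons (by simpa [row] using hr)]
  simp [row]

/-- The vectors of the decomposition in the form of `Psd`, after `r` rows have been read. -/
def vecs (W b n : ℕ) (U : List ℕ) (r : ℕ) : List Psd.Vec :=
  U.map fun N => (1, (row W b n N).drop r,
    (Psd.packPos (2 ^ W) (row W b n N), Psd.packNeg (2 ^ W) (row W b n N)), 2 ^ b, row W b n N)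

theorem packComb_vecs (W b n r : ℕ) (hr : r < n) : ∀ U : List ℕ,
    (∀ N ∈ U, N < 2 ^ (W * n)) →
    Psd.packComb (vecs W b n U r) =
      (dotAt W r U : ℤ) - (2 ^ b : ℕ) * (sumAll U : ℕ) -
        (2 ^ b : ℕ) * (ones W n : ℕ) * (sumAt W r U : ℕ) +
        (2 ^ b : ℕ) * (2 ^ b : ℕ) * (ones W n : ℕ) * (U.length : ℕ)
  | [], _ => by simp [vecs, Psd.packComb, dotAt, sumAll, sumAt, Int.subNatNat_eq_coe]
  | N :: U, h => by
    have ih := packComb_vecs W b n r hr U fun M hM => h M (List.mem_cons_of_mem _ hM)
    have hp := pack_row W b n N (h N (by simp))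
    simp only [Psd.pack, Int.subNatNat_eq_coe] at hp
    have ht := Int.toNat_sub_toNat_neg ((fld W N r : ℤ) - (2 ^ b : ℕ))
    simp only [vecs, Psd.packComb, Int.subNatNat_eq_coe] at ih
    simp only [vecs, Psd.packComb, List.map_cons, List.foldr_cons, dotAt, sumAll, sumAt,
      List.length_cons, headD_drop_row W b n r N hr, Int.subNatNat_eq_coe, Nat.add_eq, Nat.mul_eq]
    generalize ((fld W N r : ℤ) - (2 ^ b : ℕ)).toNat = xp at ht ⊢
    generalize (-((fld W N r : ℤ) - (2 ^ b : ℕ))).toNat = xn at ht ⊢
    push_cast at ih hp ht ⊢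
    linear_combination ih + ((xp : ℤ) - xn) * hp + ((N : ℤ) - 2 ^ b * (ones W n : ℤ)) * ht

theorem boundComb_vecs (W b n r : ℕ) : ∀ U : List ℕ, (∀ N ∈ U, fits W b n N = true) →
    Psd.boundComb (vecs W b n U r) ≤ U.length * (2 ^ b * 2 ^ b)
  | [], _ => by simp [vecs, Psd.boundComb]
  | N :: U, h => by
    have ih := boundComb_vecs W b n r U fun M hM => h M (List.mem_cons_of_mem _ hM)
    simp only [vecs, Psd.boundComb, List.map_cons, List.foldr_cons, List.length_cons] at ih ⊢
    have hx : (((row W b n N).drop r).headD 0).natAbs ≤ 2 ^ b := by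
      rcases hd : (row W b n N).drop r with _ | ⟨a, l⟩
      · simp
      · exact (fits_bound (h N (by simp))).2 a
          (List.mem_of_mem_drop (by rw [hd]; exact List.mem_cons_self ..))
    rw [Nat.one_mul, Nat.add_mul, Nat.one_mul]
    have := Nat.mul_le_mul_right (2 ^ b) hx
    omega

theorem absList_sum_le (B : ℕ) : ∀ l : List ℤ, (∀ a ∈ l, a.natAbs ≤ B) →
    (Psd.absList l).sum ≤ ((l.length * B : ℕ) : ℤ)
  | [], _ => by simp [Psd.absList]
  | a :: l, h => by
    have h1 := absList_sum_le B l fun x hx => h x (List.mem_cons_of_mem _ hx)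
    have h2 := h a (by simp)
    simp only [Psd.absList, List.map_cons, List.sum_cons, List.length_cons] at h1 ⊢
    push_cast at h1 ⊢
    have h3 : |a| ≤ (B : ℤ) := by rw [Int.abs_eq_natAbs]; exact_mod_cast h2
    linarith

theorem colAbs_le (W b n : ℕ) : ∀ O : List ℕ, (∀ N ∈ O, fits W b n N = true) →
    ∀ a ∈ Psd.colAbs (matrix W b n O), a.natAbs ≤ O.length * 2 ^ b
  | [], _, a, ha => by simp [matrix, Psd.colAbs] at ha
  | N :: O, h, a, ha => by
    have ih := colAbs_le W b n O fun M hM => h M (List.mem_cons_of_mem _ hM)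
    have h1 : ∀ a ∈ Psd.absList (row W b n N), a.natAbs ≤ 2 ^ b := fun a ha => by
      obtain ⟨x, hx, rfl⟩ := List.mem_map.1 ha
      rw [Int.natAbs_natCast]
      exact (fits_bound (h N (by simp))).2 x hx
    have := Psd.bound_addL _ (Psd.colAbs (matrix W b n O)) h1 ih a ha
    rw [List.length_cons, Nat.add_mul, Nat.one_mul]
    omega

theorem length_colAbs (W b n : ℕ) : ∀ O : List ℕ,
    (Psd.colAbs (matrix W b n O)).length = if O = [] then 0 else n
  | [] => by simp [matrix, Psd.colAbs]
  | N :: O => by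
    have ih := length_colAbs W b n O
    have hadd : ∀ l m : List ℤ,
        (Pl.addL Int.add l m).length = max l.length m.length := fun l => by
      induction l with
      | nil => intro m; simp [Pl.addL]
      | cons a l ih =>
        intro m
        cases m with
        | nil => simp [Pl.addL]
        | cons c m => simp [Pl.addL, ih]
    show (Pl.addL Int.add (Psd.absList (row W b n N)) _).length = _
    rw [hadd, show (Psd.absList (row W b n N)).length = n by simp [Psd.absList, row], if_neg (by simp)]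
    rw [show List.foldr _ _ (List.map (row W b n) O) = Psd.colAbs (matrix W b n O) from rfl, ih]
    split_ifs <;> omega

theorem rows_ok (W s bH b bO n su : ℕ) (U : List ℕ)
    (hU : ∀ N ∈ U, fits W b n N = true) (hsu : su = sumAll U) :
    ∀ (H O D : List ℕ) (col : List ℤ) (r : ℕ),
      r + H.length = n → O.length = H.length → (∀ N ∈ H, fits W bH n N = true) → (∀ N ∈ O, fits W bO n N = true) →
      (∀ a ∈ col, a.natAbs ≤ n * 2 ^ bO) → col.length ≤ H.length →
      rows W s bH b bO n U su (ones W n) r H O D = true →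
      Psd.rowsOk (2 ^ W) s r (matrix W bH n H) (matrix W bO n O) (D.map fun d : ℕ => (d : ℤ))
        col (vecs W b n U r) = true
  | [], O, D, col, r, hr, _, _, _, _, hl, h => by
    simp only [rows, List.isEmpty_iff] at h
    subst h
    simp only [List.length_nil, Nat.le_zero, List.length_eq_zero_iff] at hl
    subst hl
    simp only [List.length_nil, Nat.add_zero] at hr
    simp [matrix, Psd.rowsOk, Psd.finished, vecs, row, hr]
  | N :: H, O, D, col, r, hr, hOl, hH, hO, hc, hl, h => by
    simp only [rows, Bool.and_eq_true, Nat.beq_eq, Nat.ble_eq, Nat.add_eq, Nat.mul_eq] at h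
    obtain ⟨⟨⟨h1, h2⟩, h3⟩, h4⟩ := h
    simp only [List.length_cons] at hr hl
    have hrn : r < n := by omega
    cases O with
    | nil => simp at hOl
    | cons M O =>
      simp only [List.headD_cons, List.tail_cons] at h1 h2 h3 h4
      have hN := fits_bound (hH N (by simp))
      have hM := fits_bound (hO M (by simp))
      have e1 := pack_row W bH n N hN.1
      have e2 := pack_row W bO n M hM.1
      have e3 := packComb_vecs W b n r hrn U fun K hK => (fits_bound (hU K hK)).1
      simp only [matrix, List.map_cons, Psd.rowsOk, Bool.and_eq_true]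
      refine ⟨⟨⟨decide_eq_true ?_, decide_eq_true ?_⟩, decide_eq_true ?_⟩, ?_⟩ <;>
        simp only [List.headD_cons, List.tail_cons]
      · rw [e1, e2, e3]
        have h1' : ((_ : ℕ) : ℤ) = ((_ : ℕ) : ℤ) := congrArg Nat.cast h1
        rw [hsu] at h1'
        cases D <;>
        · simp only [List.map_nil, List.map_cons, List.headD_cons, List.headD_nil] at h1' ⊢
          push_cast [Nat.pow_eq] at h1' ⊢
          rw [pow_mul] at h1'
          linear_combination h1'
      · have b1 : Psd.absMax (row W bH n N) ≤ 2 ^ bH := by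
          generalize row W bH n N = l at hN
          induction l with
          | nil => simp [Psd.absMax]
          | cons a l ih =>
            simp only [Psd.absMax, List.foldr_cons]
            exact max_le (hN.2 a (by simp))
              (ih ⟨hN.1, fun x hx => hN.2 x (List.mem_cons_of_mem _ hx)⟩)
        have b2 : Psd.absMax (row W bO n M) ≤ 2 ^ bO := by
          generalize row W bO n M = l at hM
          induction l with
          | nil => simp [Psd.absMax]
          | cons a l ih =>
            simp only [Psd.absMax, List.foldr_cons]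
            exact max_le (hM.2 a (by simp))
              (ih ⟨hM.1, fun x hx => hM.2 x (List.mem_cons_of_mem _ hx)⟩)
        have b3 := boundComb_vecs W b n r U hU
        have b4 := Nat.mul_le_mul_left s b1
        cases D <;> simp [Nat.pow_eq] at h2 ⊢ <;> omega
      · have b5 := absList_sum_le _ _ hM.2
        have b6 : col.headD 0 ≤ ((n * 2 ^ bO : ℕ) : ℤ) := by
          cases col with
          | nil => rw [List.headD_nil]; exact Int.natCast_nonneg _
          | cons a l =>
            have := hc a (by simp)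
            simp only [List.headD_cons]
            omega
        rw [show (row W bO n M).length = n by simp [row]] at b5
        generalize col.headD 0 = cv at b6 ⊢
        cases D <;> simp [Nat.pow_eq] at h3 ⊢ <;> push_cast at b5 b6 <;>
          (zify at h3; linarith)
      · have e : Psd.advance (vecs W b n U r) = vecs W b n U (r + 1) := by
          simp [Psd.advance, vecs, List.map_map, Function.comp_def, List.tail_drop]
        rw [e, ← List.map_tail]
        exact rows_ok W s bH b bO n su U hU hsu H O D.tail col.tail (r + 1) (by omega)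
          (by simpa using hOl)
          (fun K hK => hH K (List.mem_cons_of_mem _ hK))
          (fun K hK => hO K (List.mem_cons_of_mem _ hK))
          (fun a ha => hc a (List.mem_of_mem_tail ha)) (by simp; omega) h4

/-- The packed test implies the decomposition test for the unpacked rows. -/
theorem check_ok {W s bH b bO n su : ℕ} {H U O D : List ℕ}
    (h : check W s bH b bO n su H U O D = true) :
    ∃ L : List Psd.Sq,
      Psd.check W s (matrix W bH n H) L (matrix W bO n O) (D.map fun d : ℕ => (d : ℤ)) = true := by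
  simp only [check, Bool.and_eq_true, Nat.beq_eq, Nat.ble_eq] at h
  obtain ⟨⟨⟨⟨⟨⟨⟨hs, hsu⟩, hHn⟩, hOn⟩, hfH⟩, hfU⟩, hfO⟩, hrows⟩ := h
  refine ⟨U.map fun N => (1, row W b n N, Psd.packPos (2 ^ W) (row W b n N),
    Psd.packNeg (2 ^ W) (row W b n N), 2 ^ b), ?_⟩
  simp only [Psd.check, Bool.and_eq_true]
  refine ⟨decide_eq_true hs, ?_, ?_⟩
  · simp only [Psd.sqOk, List.all_map, List.all_eq_true]
    intro N hN
    simp only [Function.comp_apply, decide_true, Bool.true_and, List.all_eq_true, decide_eq_true_eq]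
    exact (fits_bound (allFit_iff _ _ _ _ hfU N hN)).2
  · have hO := allFit_iff _ _ _ _ hfO
    have h1 := rows_ok W s bH b bO n su U (allFit_iff _ _ _ _ hfU) hsu H O D
      (Psd.colAbs (matrix W bO n O)) 0 (by omega) (by omega) (allFit_iff _ _ _ _ hfH) hO
      (fun a ha => hOn ▸ colAbs_le W bO n O hO a ha)
      (by rw [length_colAbs]; split_ifs <;> omega) hrows
    rw [show Psd.prepare (U.map fun N => (1, row W b n N, Psd.packPos (2 ^ W) (row W b n N),
        Psd.packNeg (2 ^ W) (row W b n N), 2 ^ b)) = vecs W b n U 0 by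
      simp [Psd.prepare, vecs, List.map_map, Function.comp_def]]
    exact h1

end Packed

end Vale.Agent.P142.Flux
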