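import Vale.Agent.P142.Flux.Sparse
import Vale.Agent.P142.Flux.Packed
import Vale.Agent.P142.Flux.Items

/-!
The contributions of a Gram block to the packed slots of monomials, computed from packed rows.
-/

open Complex ComplexConjugate Finset

namespace Vale.Agent.P142.Flux

namespace Contrib

/-- A term of an entry: positive part, negative part, code. -/
abbrev Tm : Type := ℕ × ℕ × ℕ

/-- A block in packed form: slot width and offset exponent of the rows, size, packed codes and
components of the keys, hints per key, the entries as term lists. -/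
structure Blk where
  /-- The block. -/
  kind : Kind
  /-- Slot width of the rows. -/
  width : ℕ
  /-- Offset exponent of the rows. -/
  off : ℕ
  /-- Size. -/
  size : ℕ
  /-- Packed codes of the keys. -/
  codes : ℕ
  /-- Packed components of the keys. -/
  comps : ℕ
  /-- Hints per key. -/
  stride : ℕ
  /-- Entries as term lists. -/
  table : List (List (List Tm))

/-- A row: component, code, packed row, packed hints. -/
abbrev Row : Type := ℕ × ℕ × ℕ × ℕ

/-- The terms of an entry. -/
def entryTm (T : List (List (List Tm))) (i j : ℕ) : List Tm := (T.getD i []).getD j []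

variable {α : Type} (z : α) (op : α → α → α) (f : ℕ → ℕ → ℕ → ℕ → α)

/-- Combine over the terms of an entry. -/
def overTerms (B e g hint : ℕ) : List Tm → ℕ → α
  | [], _ => z
  | (cp, cn, c) :: T, h =>
    op (f (Nat.add (Nat.mul e cp) (Nat.mul B cn)) (Nat.add (Nat.mul e cn) (Nat.mul B cp))
        (Nat.add g c) (Packed.fld 12 hint h))
      (overTerms B e g hint T (Nat.add h 1))

/-- Combine over the first `k` entries of a row. -/
def overRow (b : Blk) (T : List (List Tm)) (B gr H hint : ℕ) : ℕ → α
  | 0 => z
  | k + 1 =>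
    op (overTerms z op f B (Packed.fld b.width H k) (Nat.add gr (Packed.fld 40 b.codes k)) hint
        (T.getD (Packed.fld 4 b.comps k) []) (Nat.mul b.stride k))
      (overRow b T B gr H hint k)

/-- Combine over rows. -/
def overRows (b : Blk) : List Row → α
  | [] => z
  | (i, c, H, hint) :: l =>
    op (overRow z op f b (b.table.getD i []) (Nat.pow 2 b.off) (Sparse.cswap c) H hint b.size)
      (overRows b l)

end Contrib

/-- The slot test of one contribution. -/
def slotOk (codes c i : ℕ) : Bool :=
  Nat.blt c 1099511627776 &&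
    (Nat.beq (Packed.fld 40 codes i) c || Nat.beq (Packed.fld 40 codes i) (Sparse.cswap c))

namespace Contrib

/-- The component and code of the rows are in range. -/
def rowsOk : List Row → Bool
  | [] => true
  | (i, c, _, _) :: l => Nat.blt i 5 && Sparse.small c && rowsOk l

/-- The test of a piece of rows with claimed packed sums and totals. -/
def pieceOk (b : Blk) (codes W : ℕ) (rows : List Row) (P Q tp tq : ℕ) : Bool :=
  rowsOk rows &&
  overRows true (fun x y => x && y) (fun _ _ c i => slotOk codes c i) b rows &&
    Nat.beq P (overRows 0 Nat.add (fun p _ _ i => Nat.shiftLeft p (Nat.mul W i)) b rows) &&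
    Nat.beq Q (overRows 0 Nat.add (fun _ q _ i => Nat.shiftLeft q (Nat.mul W i)) b rows) &&
    Nat.beq tp (overRows 0 Nat.add (fun p _ _ _ => p) b rows) &&
    Nat.beq tq (overRows 0 Nat.add (fun _ q _ _ => q) b rows)

/-- The entries agree with the table, whose codes are small. -/
noncomputable def tableOk (b : Blk) : Bool :=
  (List.range 5).all fun i => (List.range 5).all fun j =>
    (entryTm b.table i j).all (fun t => Sparse.small t.2.2) &&
      Pl.isZero 8 (Pl.sub 8 (b.kind.entry i j)
        (Sparse.toP ((entryTm b.table i j).map fun t => (t.2.2, Int.subNatNat t.1 t.2.1))))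

/-- The packed keys are in range. -/
def keysOk (b : Blk) : ℕ → Bool
  | 0 => true
  | k + 1 => Nat.blt (Packed.fld 4 b.comps k) 5 && Sparse.small (Packed.fld 40 b.codes k) &&
      keysOk b k

/-- The rows list the keys in order. -/
def sameKeys (b : Blk) : ℕ → List Row → Bool
  | r, [] => Nat.beq r b.size
  | r, (i, c, _, _) :: l =>
    Nat.beq (Packed.fld 4 b.comps r) i && Nat.beq (Packed.fld 40 b.codes r) c && sameKeys b (r + 1) l

noncomputable section

/-- The real part of the monomial of a slot. -/
def slotVal (codes : ℕ) (y : ℕ → ℂ) (i : ℕ) : ℝ := (Sparse.mon y (Packed.fld 40 codes i)).re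

/-- The keys. -/
def keys (b : Blk) : List (ℕ × Pl 8) :=
  (List.range b.size).map fun k =>
    (Packed.fld 4 b.comps k, monomial 0 (Sparse.digits 8 (Packed.fld 40 b.codes k)))

/-- The vectors of a list of rows. -/
def rowKeys (rows : List Row) : List (ℕ × Pl 8) :=
  rows.map fun r => (r.1, monomial 0 (Sparse.digits 8 r.2.1))

/-- The Gram matrix of a list of rows. -/
def gram (b : Blk) (rows : List Row) : List (List ℤ) :=
  Packed.matrix b.width b.off b.size (rows.map fun r => r.2.2.1)

section hom

variable {α β : Type} {z : α} {z' : β} {op : α → α → α} {op' : β → β → β}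
  {f : ℕ → ℕ → ℕ → ℕ → α} {f' : ℕ → ℕ → ℕ → ℕ → β} (φ : α → β) (hz : φ z = z')
  (hop : ∀ x y, φ (op x y) = op' (φ x) (φ y)) (hf : ∀ p q c i, φ (f p q c i) = f' p q c i)

include hz hop hf

theorem hom_terms (B e g hint : ℕ) : ∀ T h,
    φ (overTerms z op f B e g hint T h) = overTerms z' op' f' B e g hint T h
  | [], _ => hz
  | (cp, cn, c) :: T, h => by simp only [overTerms, hop, hf, hom_terms B e g hint T]

theorem hom_row (b : Blk) (T : List (List Tm)) (B gr H hint : ℕ) : ∀ k,
    φ (overRow z op f b T B gr H hint k) = overRow z' op' f' b T B gr H hint k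
  | 0 => hz
  | k + 1 => by
    simp only [overRow, hop, hom_terms φ hz hop hf, hom_row b T B gr H hint k]

theorem hom_rows (b : Blk) : ∀ rows, φ (overRows z op f b rows) = overRows z' op' f' b rows
  | [] => hz
  | (i, c, H, hint) :: l => by
    simp only [overRows, hop, hom_row φ hz hop hf, hom_rows b l]

end hom

/-- The contributions as a list. -/
def flat (b : Blk) (rows : List Row) : List (ℕ × ℕ × ℕ × ℕ) :=
  overRows [] (· ++ ·) (fun p q c i => [(p, q, c, i)]) b rows

theorem overRows_all (g : ℕ → ℕ → ℕ → ℕ → Bool) (b : Blk) (rows : List Row) :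
    overRows true (fun x y => x && y) g b rows =
      (flat b rows).all fun x => g x.1 x.2.1 x.2.2.1 x.2.2.2 :=
  (hom_rows (z := ([] : List (ℕ × ℕ × ℕ × ℕ))) (op := (· ++ ·))
    (f := fun p q c i => [(p, q, c, i)])
    (fun l : List (ℕ × ℕ × ℕ × ℕ) => l.all fun x => g x.1 x.2.1 x.2.2.1 x.2.2.2) rfl
    (fun x y => List.all_append) (fun p q c i => by simp) b rows).symm

theorem overRows_sum {M : Type} [AddCommMonoid M] (op : M → M → M) (hop : ∀ x y, op x y = x + y)
    (g : ℕ → ℕ → ℕ → ℕ → M) (b : Blk) (rows : List Row) :
    overRows 0 op g b rows = ((flat b rows).map fun x => g x.1 x.2.1 x.2.2.1 x.2.2.2).sum :=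
  (hom_rows (z := ([] : List (ℕ × ℕ × ℕ × ℕ))) (op := (· ++ ·))
    (f := fun p q c i => [(p, q, c, i)])
    (fun l : List (ℕ × ℕ × ℕ × ℕ) => (l.map fun x => g x.1 x.2.1 x.2.2.1 x.2.2.2).sum)
    (by simp) (fun x y => by simp [hop]) (fun p q c i => by simp) b rows).symm

/-- The complex weight of one contribution. -/
def weight (y : ℕ → ℂ) (p q c : ℕ) : ℂ := ((p : ℂ) - q) * Sparse.mon y c

variable (y : ℕ → ℂ)

theorem value_terms {B e g k hint : ℕ} (hg : Sparse.small g = true)
    (hk : Sparse.small k = true) : ∀ (T : List Tm) (h : ℕ),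
      (∀ t ∈ T, Sparse.small t.2.2 = true) →
      overTerms 0 (· + ·) (fun p q c _ => weight y p q c) B e (g + k) hint T h =
        ((e : ℂ) - B) * (Sparse.mon y g * Sparse.mon y k *
          Sparse.ev y (T.map fun t => (t.2.2, Int.subNatNat t.1 t.2.1)))
  | [], _, _ => by simp [overTerms, Sparse.ev]
  | (cp, cn, c) :: T, h, hT => by
    simp only [overTerms, List.map_cons, Sparse.ev]
    rw [value_terms hg hk T _ fun t ht => hT t (List.mem_cons_of_mem _ ht)]
    simp only [weight, Nat.add_eq, Nat.mul_eq, Int.subNatNat_eq_coe]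
    rw [Sparse.mon_add y hg hk (hT _ (List.mem_cons_self ..))]
    push_cast
    ring

theorem keysOk_spec (b : Blk) : ∀ n, keysOk b n = true → ∀ k < n,
    Packed.fld 4 b.comps k < 5 ∧ Sparse.small (Packed.fld 40 b.codes k) = true
  | 0, _, k, hk => absurd hk (Nat.not_lt_zero k)
  | n + 1, h, k, hk => by
    simp only [keysOk, Bool.and_eq_true, Nat.blt_eq] at h
    rcases Nat.lt_succ_iff_lt_or_eq.1 hk with hk | rfl
    · exact keysOk_spec b n h.2 k hk
    · exact h.1

theorem tableOk_spec {b : Blk} (h : tableOk b = true) {i j : ℕ} (hi : i < 5) (hj : j < 5) :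
    (∀ t ∈ entryTm b.table i j, Sparse.small t.2.2 = true) ∧
      Sparse.ev y ((entryTm b.table i j).map fun t => (t.2.2, Int.subNatNat t.1 t.2.1)) =
        Pl.eval 8 (b.kind.entry i j) y := by
  simp only [tableOk, List.all_eq_true, List.mem_range, Bool.and_eq_true] at h
  obtain ⟨h1, h2⟩ := h i hi j hj
  refine ⟨h1, ?_⟩
  rw [Pl.eval_eq_of_check y h2, Sparse.eval_toP]

theorem rowVal_range {R : Type} [CommRing R] {κ : Type} (g : ℕ → ℤ) (k : ℕ → κ) (F : κ → R) :
    ∀ n, Psd.rowVal ((List.range n).map g) ((List.range n).map k) F =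
      ∑ j ∈ Finset.range n, (g j : R) * F (k j)
  | 0 => by simp [Psd.rowVal]
  | n + 1 => by
    have e : ∀ (l : List ℤ) (ks : List κ), l.length = ks.length → ∀ (a : ℤ) (s : κ),
        Psd.rowVal (l ++ [a]) (ks ++ [s]) F = Psd.rowVal l ks F + (a : R) * F s := by
      intro l
      induction l with
      | nil =>
        intro ks h a s
        cases ks with
        | nil => simp [Psd.rowVal]
        | cons => simp at h
      | cons x l ih =>
        intro ks h a s
        cases ks with
        | nil => simp at h
        | cons t ks => simp [Psd.rowVal, ih ks (by simpa using h)]; ring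
    rw [List.range_succ, List.map_append, List.map_append, List.map_singleton, List.map_singleton,
      e _ _ (by simp), rowVal_range g k F n, Finset.sum_range_succ]

theorem value_row (a : ℕ → ℂ) {b : Blk} (ht : tableOk b = true) (hk : keysOk b b.size = true)
    {i c : ℕ} (hi : i < 5) (hc : Sparse.small c = true) (H hint : ℕ) :
    overRow 0 (· + ·) (fun p q c _ => weight (point a) p q c) b (b.table.getD i [])
        (Nat.pow 2 b.off) (Sparse.cswap c) H hint b.size =
      Psd.rowVal (Packed.row b.width b.off b.size H) (keys b)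
        (kernel b.kind (point a) (i, monomial 0 (Sparse.digits 8 c))) := by
  rw [Packed.row, keys, rowVal_range]
  have step : ∀ n ≤ b.size,
      overRow 0 (· + ·) (fun p q c _ => weight (point a) p q c) b (b.table.getD i [])
          (Nat.pow 2 b.off) (Sparse.cswap c) H hint n =
        ∑ j ∈ Finset.range n, (((Packed.fld b.width H j : ℤ) - (2 ^ b.off : ℕ) : ℤ) : ℂ) *
          kernel b.kind (point a) (i, monomial 0 (Sparse.digits 8 c))
            (Packed.fld 4 b.comps j, monomial 0 (Sparse.digits 8 (Packed.fld 40 b.codes j))) := by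
    intro n
    induction n with
    | zero => intro _; simp [overRow]
    | succ n ih =>
      intro hn
      obtain ⟨h1, h2⟩ := keysOk_spec b b.size hk n (by omega)
      obtain ⟨h3, h4⟩ := tableOk_spec (point a) ht hi h1
      have e := value_terms (point a) (B := Nat.pow 2 b.off) (e := Packed.fld b.width H n)
        (hint := hint) (Sparse.small_cswap hc) h2 (entryTm b.table i (Packed.fld 4 b.comps n))
        (b.stride * n) h3
      show overTerms 0 (· + ·) _ _ _ (Sparse.cswap c + Packed.fld 40 b.codes n) hint
          (entryTm b.table i (Packed.fld 4 b.comps n)) (b.stride * n) + _ = _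
      rw [e, h4, ih (by omega), Finset.sum_range_succ, add_comm]
      simp only [kernel, Sparse.eval_monomial, Sparse.mon_cswap a (Sparse.lt_top hc)]
      rw [show Nat.pow 2 b.off = 2 ^ b.off from rfl]
      push_cast
      ring
  exact step b.size le_rfl

theorem value_rows (a : ℕ → ℂ) {b : Blk} (ht : tableOk b = true) (hk : keysOk b b.size = true) :
    ∀ rows, rowsOk rows = true →
      overRows 0 (· + ·) (fun p q c _ => weight (point a) p q c) b rows =
        Psd.matVal (gram b rows) (rowKeys rows) (keys b) (kernel b.kind (point a))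
  | [], _ => by simp [overRows, gram, Packed.matrix, rowKeys, Psd.matVal]
  | (i, c, H, hint) :: l, h => by
    simp only [rowsOk, Bool.and_eq_true, Nat.blt_eq] at h
    simp only [overRows, gram, Packed.matrix, rowKeys, List.map_cons, Psd.matVal]
    rw [value_row a ht hk h.1.1 h.1.2, value_rows a ht hk l h.2]
    rfl

theorem slot_re (a : ℕ → ℂ) {codes c i : ℕ} (h : slotOk codes c i = true) :
    (Sparse.mon (point a) c).re = slotVal codes (point a) i := by
  simp only [slotOk, Bool.and_eq_true, Bool.or_eq_true, Nat.blt_eq, Nat.beq_eq] at h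
  obtain ⟨h1, h2 | h2⟩ := h
  · rw [slotVal, h2]
  · rw [slotVal, h2, Sparse.mon_cswap a (h1.trans_le (le_of_eq (by norm_num))), Complex.conj_re]

/-- A checked piece represents the real part of its value. -/
theorem piece_rep (a : ℕ → ℂ) {b : Blk} {codes W P Q tp tq : ℕ} {rows : List Row}
    (ht : tableOk b = true) (hk : keysOk b b.size = true)
    (h : pieceOk b codes W rows P Q tp tq = true) :
    Items.Rep W (slotVal codes (point a))
      (Psd.matVal (gram b rows) (rowKeys rows) (keys b) (kernel b.kind (point a))).re P Q tp tq := by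
  simp only [pieceOk, Bool.and_eq_true, Nat.beq_eq] at h
  obtain ⟨⟨⟨⟨⟨hr, hok⟩, hP⟩, hQ⟩, htp⟩, htq⟩ := h
  rw [overRows_all, List.all_eq_true] at hok
  rw [← value_rows a ht hk rows hr, overRows_sum (· + ·) (fun _ _ => rfl), hP, hQ, htp, htq,
    overRows_sum Nat.add (fun _ _ => rfl), overRows_sum Nat.add (fun _ _ => rfl),
    overRows_sum Nat.add (fun _ _ => rfl), overRows_sum Nat.add (fun _ _ => rfl)]
  generalize flat b rows = L at hok
  refine ⟨L.map fun x => (x.1, x.2.1, x.2.2.2), ?_, ?_, ?_, ?_, ?_⟩ <;> induction L with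
    | nil => simp [Items.sumPos, Items.sumNeg, Items.totPos, Items.totNeg, Items.val]
    | cons x L ih =>
      have ih' := ih fun y hy => hok y (List.mem_cons_of_mem _ hy)
      simp [Items.sumPos, Items.sumNeg, Items.totPos, Items.totNeg, Items.val, ih', weight,
        slot_re a (hok x (List.mem_cons_self ..))]

theorem sameKeys_spec (b : Blk) : ∀ (rows : List Row) (r : ℕ), sameKeys b r rows = true →
    r ≤ b.size ∧ rowKeys rows = (keys b).drop r
  | [], r, h => by
    simp only [sameKeys, Nat.beq_eq] at h
    subst h
    exact ⟨le_rfl, by simp [rowKeys, keys]⟩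
  | (i, c, H, hint) :: l, r, h => by
    simp only [sameKeys, Bool.and_eq_true, Nat.beq_eq] at h
    obtain ⟨⟨h1, h2⟩, h3⟩ := h
    obtain ⟨hr, e⟩ := sameKeys_spec b l (r + 1) h3
    refine ⟨by omega, ?_⟩
    have e' : rowKeys ((i, c, H, hint) :: l) =
        (i, monomial 0 (Sparse.digits 8 c)) :: rowKeys l := rfl
    rw [e', e, List.drop_eq_getElem_cons (i := r) (by simp [keys]; omega)]
    simp [keys, ← h1, ← h2]

/-- A block with a checked Gram matrix has nonnegative value on the body. -/
theorem gram_nonneg {a : ℕ → ℂ} (ha : Body a) {b : Blk} {rows : List Row}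
    (hs : sameKeys b 0 rows = true)
    (hc : ∃ W s L O D, Psd.check W s (gram b rows) L O D = true) :
    0 ≤ (Psd.matVal (gram b rows) (rowKeys rows) (keys b) (kernel b.kind (point a))).re := by
  obtain ⟨-, e⟩ := sameKeys_spec b rows 0 hs
  rw [List.drop_zero] at e
  obtain ⟨W, s, L, O, D, hc⟩ := hc
  let t : Term := ⟨b.kind, (List.range b.size).map fun k =>
    (Packed.fld 4 b.comps k, Sparse.digits 8 (Packed.fld 40 b.codes k)), gram b rows⟩
  have h := term_nonneg ha t hc
  have ev : t.vecs = keys b := by simp [t, Term.vecs, keys, List.map_map, Function.comp_def]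
  rw [Term.poly, eval_gramRows, ev] at h
  rw [e]
  exact h

theorem matVal_append {κ R : Type} [CommRing R] (cs : List κ) (B : κ → κ → R) :
    ∀ (M N : List (List ℤ)) (ks ls : List κ), M.length = ks.length →
      Psd.matVal (M ++ N) (ks ++ ls) cs B = Psd.matVal M ks cs B + Psd.matVal N ls cs B
  | [], N, [], ls, _ => by simp [Psd.matVal]
  | [], N, _ :: _, ls, h => by simp at h
  | _ :: _, N, [], ls, h => by simp at h
  | r :: M, N, k :: ks, ls, h => by
    simp [Psd.matVal, matVal_append cs B M N ks ls (by simpa using h)]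
    ring

/-- A piece: rows with claimed sums. -/
abbrev Piece : Type := List Row × ℕ × ℕ × ℕ × ℕ

/-- Sum of the claimed values. -/
def pieceSum (g : Piece → ℕ) : List Piece → ℕ
  | [] => 0
  | p :: l => Nat.add (g p) (pieceSum g l)

/-- The pieces of a block together represent its value. -/
theorem block_rep (a : ℕ → ℂ) {b : Blk} {codes W : ℕ} (ht : tableOk b = true)
    (hk : keysOk b b.size = true) : ∀ ps : List Piece,
      (∀ p ∈ ps, pieceOk b codes W p.1 p.2.1 p.2.2.1 p.2.2.2.1 p.2.2.2.2 = true) →
      Items.Rep W (slotVal codes (point a))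
        (Psd.matVal (gram b (ps.map Prod.fst).flatten) (rowKeys (ps.map Prod.fst).flatten) (keys b)
          (kernel b.kind (point a))).re
        (pieceSum (fun p => p.2.1) ps) (pieceSum (fun p => p.2.2.1) ps)
        (pieceSum (fun p => p.2.2.2.1) ps) (pieceSum (fun p => p.2.2.2.2) ps)
  | [], _ => by
    simpa [gram, Packed.matrix, rowKeys, Psd.matVal, pieceSum] using Items.rep_nil W _
  | p :: ps, h => by
    have e : Psd.matVal (gram b (p.1 ++ (ps.map Prod.fst).flatten))
        (rowKeys (p.1 ++ (ps.map Prod.fst).flatten)) (keys b) (kernel b.kind (point a)) =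
        Psd.matVal (gram b p.1) (rowKeys p.1) (keys b) (kernel b.kind (point a)) +
          Psd.matVal (gram b (ps.map Prod.fst).flatten) (rowKeys (ps.map Prod.fst).flatten)
            (keys b) (kernel b.kind (point a)) := by
      simp only [gram, rowKeys, List.map_append, Packed.matrix]
      exact matVal_append _ _ _ _ _ _ (by simp)
    rw [List.map_cons, List.flatten_cons, e, Complex.add_re]
    exact (piece_rep a ht hk (h p (List.mem_cons_self ..))).add
      (block_rep a ht hk ps fun q hq => h q (List.mem_cons_of_mem _ hq))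

end

end Contrib

end Vale.Agent.P142.Flux
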