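import Vale.Agent.P142.Flux.Blocks

/-!
Polynomials in the jets from lists of terms.
-/

namespace Vale.Agent.P142.Flux

/-- A monomial in the six jet variables from its list of exponents. -/
def monomial6 : ℕ → List ℕ → Pl 6
  | _, [] => Pl.const 6 1
  | i, e :: l => Pl.mul 6 (Pl.pow 6 (Pl.var 6 i) e) (monomial6 (i + 1) l)

/-- A polynomial in the six jet variables from coefficients and exponents. -/
def poly6 : List (ℤ × List ℕ) → Pl 6
  | [] => Pl.zero 6
  | (k, e) :: l => Pl.add 6 (Pl.smul 6 k (monomial6 0 e)) (poly6 l)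

end Vale.Agent.P142.Flux
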