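import Vale.Agent.P142.Flux.ModelT
import Vale.Agent.P142.Flux.Terms
import Vale.Agent.P142.Flux.Contrib

/-!
The flux density in pieces of the jet polynomials, as slot contributions, and the certificate from
balanced slots.
-/

open Complex ComplexConjugate

namespace Vale.Agent.P142.Flux

namespace Chunk

/-- A listed contribution: positive part, negative part, code, slot. -/
abbrev Entry : Type := ℕ × ℕ × ℕ × ℕ

/-- The slots of a list of entries are right. -/
def entriesOk (codes : ℕ) : List Entry → Bool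
  | [] => true
  | (_, _, c, i) :: l => slotOk codes c i && entriesOk codes l

/-- The contributions of a list of entries. -/
def items : List Entry → List Items.Item
  | [] => []
  | (p, q, _, i) :: l => (p, q, i) :: items l

/-- The sparse polynomial of a list of entries. -/
def sparse (E : List Entry) : Sparse.SP := E.map fun e => (e.2.2.1, Int.subNatNat e.1 e.2.1)

noncomputable section

/-- The test of one piece: its density, scaled, agrees with the entries, which have the claimed
packed sums and totals. -/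
def ok (bn tn : ℤ) (bd M codes W : ℕ) (lp lq : List (ℤ × List ℕ)) (E : List Entry)
    (P Q tp tq : ℕ) : Bool :=
  Pl.isZero 8 (Pl.sub 8 (Pl.smul 8 M (densityT bn tn bd (poly6 lp) (poly6 lq)))
      (Sparse.toP (sparse E))) &&
    entriesOk codes E && Nat.beq P (Items.sumPos W (items E)) &&
    Nat.beq Q (Items.sumNeg W (items E)) && Nat.beq tp (Items.totPos (items E)) &&
    Nat.beq tq (Items.totNeg (items E))

theorem val_items {codes : ℕ} (a : ℕ → ℂ) : ∀ E : List Entry, entriesOk codes E = true →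
    Items.val (Contrib.slotVal codes (point a)) (items E) = (Sparse.ev (point a) (sparse E)).re
  | [], _ => by simp [items, Items.val, sparse, Sparse.ev]
  | (p, q, c, i) :: l, h => by
    simp only [entriesOk, Bool.and_eq_true] at h
    simp only [items, Items.val, sparse, List.map_cons, Sparse.ev, Complex.add_re]
    rw [val_items a l h.2, ← Contrib.slot_re a h.1, Int.subNatNat_eq_coe]
    simp [sparse]

theorem rep {bn tn : ℤ} {bd M codes W P Q tp tq : ℕ} {lp lq : List (ℤ × List ℕ)}
    {E : List Entry} (a : ℕ → ℂ) (h : ok bn tn bd M codes W lp lq E P Q tp tq = true) :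
    Items.Rep W (Contrib.slotVal codes (point a))
      ((M : ℝ) * (Pl.eval 8 (densityT bn tn bd (poly6 lp) (poly6 lq)) (point a)).re)
      P Q tp tq := by
  simp only [ok, Bool.and_eq_true, Nat.beq_eq] at h
  obtain ⟨⟨⟨⟨⟨h1, h2⟩, hP⟩, hQ⟩, htp⟩, htq⟩ := h
  refine ⟨items E, hP.symm, hQ.symm, htp.symm, htq.symm, ?_⟩
  rw [val_items a E h2, ← Sparse.eval_toP, ← Pl.eval_eq_of_check (point a) h1, Pl.eval_smul]
  simp

theorem eval_poly6_append (x : ℕ → ℂ) : ∀ l m : List (ℤ × List ℕ),
    Pl.eval 6 (poly6 (l ++ m)) x = Pl.eval 6 (poly6 l) x + Pl.eval 6 (poly6 m) x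
  | [], m => by simp [poly6, Pl.eval_zero]
  | (k, e) :: l, m => by
    simp [poly6, Pl.eval_add, Pl.eval_smul, eval_poly6_append x l m]; ring

theorem ofPoly_append (K : ℕ) (u : ℂ) (l m : List (ℤ × List ℕ)) :
    ofPoly K u (poly6 (l ++ m)) = fun v => ofPoly K u (poly6 l) v + ofPoly K u (poly6 m) v := by
  funext v
  simp only [ofPoly, eval_poly6_append, mul_add, Complex.add_re, add_div]

theorem re_density_append (bn tn : ℤ) (bd : ℕ) (hbd : 0 < bd)
    (lp lp' lq lq' : List (ℤ × List ℕ)) (a : ℕ → ℂ) :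
    (Pl.eval 8 (densityT bn tn bd (poly6 (lp ++ lp')) (poly6 (lq ++ lq'))) (point a)).re =
      (Pl.eval 8 (densityT bn tn bd (poly6 lp) (poly6 lq)) (point a)).re +
        (Pl.eval 8 (densityT bn tn bd (poly6 lp') (poly6 lq')) (point a)).re := by
  have hd : ∀ (u : ℂ) (r : Pl 6), DifferentiableAt ℝ (ofPoly 1 u r) (jetv a) := fun u r =>
    (contDiff_ofPoly 1 u r).differentiable one_ne_zero _
  simp only [re_eval_densityT bn tn bd 1 hbd one_pos, energyT, ofPoly_append,
    fderiv_fun_add (hd _ _) (hd _ _), add_apply]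
  ring

/-- A piece of the jet polynomials with its entries and sums. -/
abbrev Piece : Type :=
  List (ℤ × List ℕ) × List (ℤ × List ℕ) × List Entry × ℕ × ℕ × ℕ × ℕ

/-- Sum of claimed values. -/
def pieceSum (g : Piece → ℕ) : List Piece → ℕ
  | [] => 0
  | p :: l => Nat.add (g p) (pieceSum g l)

/-- All terms of `P`. -/
def allP (ps : List Piece) : List (ℤ × List ℕ) := (ps.map fun p => p.1).flatten

/-- All terms of `Q`. -/
def allQ (ps : List Piece) : List (ℤ × List ℕ) := (ps.map fun p => p.2.1).flatten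

theorem pieces_rep {bn tn : ℤ} {bd M codes W : ℕ} (hbd : 0 < bd) (a : ℕ → ℂ) : ∀ ps : List Piece,
    (∀ p ∈ ps, ok bn tn bd M codes W p.1 p.2.1 p.2.2.1 p.2.2.2.1 p.2.2.2.2.1 p.2.2.2.2.2.1
      p.2.2.2.2.2.2 = true) →
    Items.Rep W (Contrib.slotVal codes (point a))
      ((M : ℝ) * (Pl.eval 8 (densityT bn tn bd (poly6 (allP ps)) (poly6 (allQ ps))) (point a)).re)
      (pieceSum (fun p => p.2.2.2.1) ps) (pieceSum (fun p => p.2.2.2.2.1) ps)
      (pieceSum (fun p => p.2.2.2.2.2.1) ps) (pieceSum (fun p => p.2.2.2.2.2.2) ps)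
  | [], _ => by
    have h0 : (Pl.eval 8 (densityT bn tn bd (poly6 []) (poly6 [])) (point a)).re = 0 := by
      have := re_density_append bn tn bd hbd [] [] [] [] a
      simp only [List.append_nil] at this
      linarith
    simpa [allP, allQ, h0, pieceSum] using Items.rep_nil W _
  | p :: ps, h => by
    simp only [allP, allQ, List.map_cons, List.flatten_cons, re_density_append bn tn bd hbd, mul_add]
    exact (rep a (h p (List.mem_cons_self ..))).add
      (pieces_rep hbd a ps fun q hq => h q (List.mem_cons_of_mem _ hq))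

/-- The constant of the certificate in slot `i₀`. -/
theorem const_rep {M C codes W i₀ : ℕ} (a : ℕ → ℂ) (h : slotOk codes 0 i₀ = true) :
    Items.Rep W (Contrib.slotVal codes (point a)) (-((M : ℝ) * C)) 0
      (Nat.shiftLeft (Nat.mul M C) (Nat.mul W i₀)) 0 (Nat.mul M C) := by
  refine ⟨[(0, M * C, i₀)], ?_, ?_, ?_, ?_, ?_⟩
  · simp [Items.sumPos]
  · simp [Items.sumNeg]
  · simp [Items.totPos]
  · simp [Items.totNeg]
  · rw [Items.val, Items.val, ← Contrib.slot_re a h]
    simp [Sparse.mon]

/-- Balanced slots give the certificate. -/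
theorem certT_of_balance {bn tn : ℤ} {bd K M C codes W P Q tp tq : ℕ} (hbd : 0 < bd) (hK : 0 < K)
    (hM : 0 < M) (hC : 0 < C) (lp lq : List (ℤ × List ℕ))
    (h : ∀ a, Body a → ∃ v : ℝ, 0 ≤ v ∧ Items.Rep W (Contrib.slotVal codes (point a))
      ((M : ℝ) * (Pl.eval 8 (densityT bn tn bd (poly6 lp) (poly6 lq)) (point a)).re +
        -((M : ℝ) * C) + -v) P Q tp tq)
    (he : (Nat.beq P Q && Nat.blt tp (2 ^ W) && Nat.blt tq (2 ^ W)) = true) :
    CertT ((tn : ℝ) / bd) ((bn : ℝ) / bd) ((C : ℝ) / (4 * bd * K)) (ofPoly K 1 (poly6 lp))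
      (ofPoly K I (poly6 lq)) := by
  refine ⟨contDiff_ofPoly K 1 _, contDiff_ofPoly K I _, by positivity, fun a ha => ?_⟩
  simp only [Bool.and_eq_true, Nat.beq_eq, Nat.blt_eq] at he
  obtain ⟨v, hv, hr⟩ := h a ha
  have e := hr.eq_zero he.1.1 he.1.2 he.2
  rw [re_eval_densityT bn tn bd K hbd hK] at e
  have hMr : (0 : ℝ) < M := by exact_mod_cast hM
  have h4 : (0 : ℝ) < 4 * bd * K := by positivity
  rw [div_le_iff₀ h4]
  nlinarith

end

end Chunk

end Vale.Agent.P142.Flux
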