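import Vale.Agent.P142.Flux.Disc

/-!
Consequences of a certificate at `β`: the integral means spectrum at `-2` is at most `β`, and the
powers of the modulus of the derivative between `-2 / β` and `0` are area integrable.
-/

open Complex Set Metric MeasureTheory Filter Topology

namespace Vale.Agent.P142.Flux

noncomputable section

theorem rpow_neg_two_mul (w : ℂ) (τ : ℝ) : ‖w‖ ^ (-(2 * τ)) = (normSq w)⁻¹ ^ τ := by
  rw [← neg_mul, Real.rpow_mul (norm_nonneg w), Real.rpow_neg (norm_nonneg w), normSq_eq_norm_sq,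
    show (2 : ℝ) = ((2 : ℕ) : ℝ) by norm_num, Real.rpow_natCast]

/-- The integral means spectrum at `-2 τ` is at most `β`. -/
theorem spectrum_le {τ β c : ℝ} {P Q : ℂ × ℂ × ℂ → ℝ} (hτ : 0 ≤ τ) (hβ : 0 < β) (hC : CertT τ β c P Q)
    {f : ℂ → ℂ} (hf : DifferentiableOn ℂ f (ball 0 1)) (hinj : InjOn f (ball 0 1)) :
    limsup (fun r : ℝ => ((Real.log ((2 * Real.pi)⁻¹ *
        ∫ x in (-Real.pi)..Real.pi, ‖deriv f ((r : ℂ) * exp (x * I))‖ ^ (-(2 * τ))) /
      Real.log (1 / (1 - r)) : ℝ) : EReal)) (𝓝[<] 1) ≤ (β : EReal) := by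
  obtain ⟨hd0, K, hK⟩ := means_bound hτ hβ hC hf hinj
  simp only [rpow_neg_two_mul]
  set K' := max ((2 * Real.pi)⁻¹ * K) 1 with hK'
  have hK'0 : 0 < K' := lt_max_of_lt_right one_pos
  have hlim : Tendsto (fun r : ℝ => Real.log (1 / (1 - r))) (𝓝[<] 1) atTop := by
    refine Real.tendsto_log_atTop.comp ?_
    simp only [one_div]
    refine tendsto_inv_nhdsGT_zero.comp (tendsto_nhdsWithin_iff.2 ⟨?_, ?_⟩)
    · have h : Tendsto (fun r : ℝ => 1 - r) (𝓝 1) (𝓝 0) := by
        simpa using (show Continuous fun r : ℝ => 1 - r by fun_prop).tendsto 1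
      exact h.mono_left nhdsWithin_le_nhds
    · filter_upwards [self_mem_nhdsWithin] with r hr
      exact sub_pos.2 (Set.mem_Iio.1 hr)
  have hup : Tendsto (fun r : ℝ => ((Real.log K' / Real.log (1 / (1 - r)) + β : ℝ) : EReal))
      (𝓝[<] 1) (𝓝 (β : EReal)) := by
    refine (continuous_coe_real_ereal.tendsto β).comp ?_
    simpa using (tendsto_const_nhds.div_atTop hlim).add (tendsto_const_nhds (x := β))
  refine (limsup_le_limsup ?_).trans hup.limsup_eq.le
  filter_upwards [Ioo_mem_nhdsLT (show (0 : ℝ) < 1 by norm_num)] with r hr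
  have hcirc := circle_mem (r := r) ⟨hr.1.le, hr.2⟩
  have hcont : Continuous fun x : ℝ => (normSq (deriv f ((r : ℂ) * exp (x * I))))⁻¹ ^ τ :=
    ((continuous_normSq.comp ((hf.deriv isOpen_ball).continuousOn.comp_continuous (by fun_prop)
      hcirc)).inv₀ fun x => (normSq_pos.2 (hd0 _ (hcirc x))).ne').rpow_const fun _ => Or.inr hτ
  have hpos : 0 < (2 * Real.pi)⁻¹ *
      ∫ x in (-Real.pi)..Real.pi, (normSq (deriv f ((r : ℂ) * exp (x * I))))⁻¹ ^ τ :=
    mul_pos (by positivity) (intervalIntegral.intervalIntegral_pos_of_pos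
      (hcont.intervalIntegrable _ _) (fun x => Real.rpow_pos_of_pos (inv_pos.2 (normSq_pos.2 (hd0 _ (hcirc x)))) τ)
      (by linarith [Real.pi_pos]))
  have h1r : 0 < 1 - r := by linarith [hr.2]
  have hL : 0 < Real.log (1 / (1 - r)) :=
    Real.log_pos (by rw [lt_div_iff₀ h1r, one_mul]; linarith [hr.1])
  have hb : (2 * Real.pi)⁻¹ *
      ∫ x in (-Real.pi)..Real.pi, (normSq (deriv f ((r : ℂ) * exp (x * I))))⁻¹ ^ τ ≤
        K' * (1 - r) ^ (-β) := by
    refine (mul_le_mul_of_nonneg_left (hK r hr.1.le hr.2) (by positivity)).trans ?_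
    rw [← mul_assoc]
    exact mul_le_mul_of_nonneg_right (le_max_left _ _) (Real.rpow_nonneg h1r.le _)
  refine EReal.coe_le_coe_iff.2 ?_
  rw [div_le_iff₀ hL, add_mul, div_mul_cancel₀ _ hL.ne']
  refine (Real.log_le_log hpos hb).trans_eq ?_
  rw [Real.log_mul hK'0.ne' (Real.rpow_pos_of_pos h1r _).ne', Real.log_rpow h1r, one_div,
    Real.log_inv]
  ring

/-- Powers of the derivative between `-2 / β` and `0` are area integrable. -/
theorem integrable_power {τ β c : ℝ} {P Q : ℂ × ℂ × ℂ → ℝ} (hτ : 0 < τ) (hβ : 1 ≤ β) (hC : CertT τ β c P Q)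
    {f : ℂ → ℂ} (hf : DifferentiableOn ℂ f (ball 0 1)) (hinj : InjOn f (ball 0 1))
    {t : ℝ} (ht : -(2 * τ / β) < t) (ht0 : t ≤ 0) :
    IntegrableOn (fun z => ‖deriv f z‖ ^ t) (ball (0 : ℂ) 1) := by
  obtain ⟨hd0, K, hK⟩ := means_bound hτ.le (zero_lt_one.trans_le hβ) hC hf hinj
  set p : ℝ := -t / (2 * τ) with hp
  have hp0 : 0 ≤ p := div_nonneg (by linarith) (by linarith)
  have hβ0 : 0 < β := by linarith
  have hpβ : p * β < 1 := by
    have h := mul_lt_mul_of_pos_right ht hβ0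
    rw [neg_mul, div_mul_cancel₀ _ hβ0.ne'] at h
    rw [hp, div_mul_eq_mul_div, div_lt_one (by linarith)]
    linarith
  have hp1 : p < 1 := by nlinarith
  set M : ℂ → ℝ := fun z => ‖deriv f z‖ ^ t with hM
  have hMc : ContinuousOn M (ball 0 1) :=
    (hf.deriv isOpen_ball).continuousOn.norm.rpow_const fun z hz =>
      Or.inl (norm_ne_zero_iff.2 (hd0 z hz))
  have hM0 : ∀ z, 0 ≤ M z := fun z => Real.rpow_nonneg (norm_nonneg _) _
  have hcirc : ∀ ρ : ℝ, ρ ∈ Ioo (0 : ℝ) 1 →
      ∫ θ in (-Real.pi)..Real.pi, M ((ρ : ℂ) * exp (θ * I)) ≤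
        (p * |K| + 2 * Real.pi) * (1 - ρ) ^ (-(p * β)) := by
    intro ρ hρ
    have hc := circle_mem (r := ρ) ⟨hρ.1.le, hρ.2⟩
    have h1 : 0 < 1 - ρ := by linarith [hρ.2]
    have hdc : Continuous fun x : ℝ => deriv f ((ρ : ℂ) * exp (x * I)) :=
      (hf.deriv isOpen_ball).continuousOn.comp_continuous (by fun_prop) hc
    have hic : Continuous fun x : ℝ => (normSq (deriv f ((ρ : ℂ) * exp (x * I))))⁻¹ ^ τ :=
      ((continuous_normSq.comp hdc).inv₀ fun x => (normSq_pos.2 (hd0 _ (hc x))).ne').rpow_const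
        fun _ => Or.inr hτ.le
    set A := (1 - ρ) ^ (β * (1 - p)) with hA
    set B := (1 - ρ) ^ (-(p * β)) with hB
    have hA0 : 0 < A := Real.rpow_pos_of_pos h1 _
    have hB0 : 0 < B := Real.rpow_pos_of_pos h1 _
    have hpt : ∀ x : ℝ, M ((ρ : ℂ) * exp (x * I)) ≤
        p * A * (normSq (deriv f ((ρ : ℂ) * exp (x * I))))⁻¹ ^ τ + B := by
      intro x
      set w := deriv f ((ρ : ℂ) * exp (x * I))
      have hw : 0 < ‖w‖ := norm_pos_iff.2 (hd0 _ (hc x))
      have hg := Real.geom_mean_le_arith_mean2_weighted (w₁ := p) (w₂ := 1 - p)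
        (p₁ := A * (normSq w)⁻¹ ^ τ) (p₂ := B) hp0 (by linarith)
        (mul_nonneg hA0.le (Real.rpow_nonneg (inv_nonneg.2 (normSq_nonneg w)) τ)) hB0.le (by ring)
      have e1 : (A * (normSq w)⁻¹ ^ τ) ^ p * B ^ (1 - p) = ‖w‖ ^ t := by
        rw [← rpow_neg_two_mul, Real.mul_rpow hA0.le (Real.rpow_nonneg (norm_nonneg w) _),
          ← Real.rpow_mul (norm_nonneg w), hA, hB, ← Real.rpow_mul h1.le, ← Real.rpow_mul h1.le,
          mul_right_comm, ← Real.rpow_add h1,
          show β * (1 - p) * p + -(p * β) * (1 - p) = 0 by ring,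
          Real.rpow_zero, one_mul]
        congr 1
        rw [hp]; field_simp
      rw [e1] at hg
      refine hg.trans ?_
      rw [← mul_assoc]
      have h2 := mul_nonneg hp0 hB0.le
      linarith
    refine (intervalIntegral.integral_mono_on
      (g := fun x : ℝ => p * A * (normSq (deriv f ((ρ : ℂ) * exp (x * I))))⁻¹ ^ τ + B)
      (by linarith [Real.pi_pos])
      ((hMc.comp_continuous (by fun_prop) hc).intervalIntegrable _ _)
      (((continuous_const.mul hic).add continuous_const).intervalIntegrable _ _)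
      fun x _ => hpt x).trans ?_
    rw [intervalIntegral.integral_add ((continuous_const.fun_mul hic).intervalIntegrable _ _)
      (intervalIntegrable_const), intervalIntegral.integral_const_mul,
      intervalIntegral.integral_const, smul_eq_mul, add_mul]
    refine add_le_add ?_ (le_of_eq (by ring))
    refine (mul_le_mul_of_nonneg_left ((hK ρ hρ.1.le hρ.2).trans
      (mul_le_mul_of_nonneg_right (le_abs_self K) (Real.rpow_nonneg h1.le _)))
      (mul_nonneg hp0 hA0.le)).trans_eq ?_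
    rw [hA, hB, show (-(p * β)) = β * (1 - p) + -β by ring, Real.rpow_add h1]
    ring
  refine ⟨hMc.aestronglyMeasurable measurableSet_ball, ?_⟩
  rw [hasFiniteIntegral_iff_ofReal (Eventually.of_forall fun z => hM0 z)]
  rw [← lintegral_indicator measurableSet_ball, ← Complex.lintegral_comp_polarCoord_symm]
  set R : Set (ℝ × ℝ) := Ioo 0 1 ×ˢ Ioo (-Real.pi) Real.pi with hR
  have hcm : ∀ p : ℝ × ℝ, Complex.polarCoord.symm p = (p.1 : ℂ) * exp (p.2 * I) := fun p => by
    rw [Complex.polarCoord_symm_apply, Complex.exp_mul_I]; push_cast; rfl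
  have hmem : ∀ p : ℝ × ℝ, 0 < p.1 →
      ((p.1 : ℂ) * exp (p.2 * I) ∈ ball (0 : ℂ) 1 ↔ p.1 < 1) := fun p hp => by
    rw [mem_ball_zero_iff, norm_mul, norm_exp_ofReal_mul_I, mul_one, Complex.norm_real,
      Real.norm_eq_abs, abs_of_pos hp]
  have hle : ∫⁻ p in polarCoord.target, ENNReal.ofReal p.1 •
        (ball (0 : ℂ) 1).indicator (fun z => ENNReal.ofReal (M z)) (Complex.polarCoord.symm p) ≤
      ∫⁻ p in R, ENNReal.ofReal (M ((p.1 : ℂ) * exp (p.2 * I))) := by
    rw [← lintegral_indicator polarCoord.open_target.measurableSet,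
      ← lintegral_indicator (measurableSet_Ioo.prod measurableSet_Ioo)]
    refine lintegral_mono fun p => Set.indicator_le' (fun p hp => ?_) (fun _ _ => bot_le) p
    rw [polarCoord_target] at hp
    obtain ⟨h1, h2⟩ := hp
    rw [hcm]
    by_cases h : p.1 < 1
    · rw [Set.indicator_of_mem ((hmem p h1).2 h),
        Set.indicator_of_mem (show p ∈ R from ⟨⟨h1, h⟩, h2⟩)]
      exact mul_le_of_le_one_left' (ENNReal.ofReal_le_one.2 h.le)
    · rw [Set.indicator_of_notMem fun hc => h ((hmem p h1).1 hc)]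
      simp
  refine lt_of_le_of_lt hle ?_
  have hRc : ContinuousOn (fun p : ℝ × ℝ => M ((p.1 : ℂ) * exp (p.2 * I))) R :=
    hMc.comp (f := fun p : ℝ × ℝ => (p.1 : ℂ) * exp (p.2 * I)) (by fun_prop)
      fun p hp => (hmem p hp.1.1).2 hp.1.2
  rw [Measure.volume_eq_prod, ← Measure.prod_restrict,
    lintegral_prod _ (by
      rw [Measure.prod_restrict, ← Measure.volume_eq_prod]
      exact (hRc.aemeasurable (measurableSet_Ioo.prod measurableSet_Ioo)).ennreal_ofReal)]
  have hin : ∀ ρ ∈ Ioo (0 : ℝ) 1,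
      ∫⁻ θ in Ioo (-Real.pi) Real.pi, ENNReal.ofReal (M ((ρ : ℂ) * exp (θ * I))) ≤
        ENNReal.ofReal ((p * |K| + 2 * Real.pi) * (1 - ρ) ^ (-(p * β))) := by
    intro ρ hρ
    have hcont : Continuous fun θ : ℝ => M ((ρ : ℂ) * exp (θ * I)) :=
      hMc.comp_continuous (by fun_prop) (circle_mem ⟨hρ.1.le, hρ.2⟩)
    rw [← ofReal_integral_eq_lintegral_ofReal
      ((hcont.integrableOn_Icc (a := -Real.pi) (b := Real.pi)).mono_set Ioo_subset_Icc_self)
      (Eventually.of_forall fun θ => hM0 _)]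
    refine ENNReal.ofReal_le_ofReal ?_
    rw [← integral_Ioc_eq_integral_Ioo,
      ← intervalIntegral.integral_of_le (by linarith [Real.pi_pos])]
    exact hcirc ρ hρ
  refine lt_of_le_of_lt (setLIntegral_mono' measurableSet_Ioo hin) ?_
  have hint : IntegrableOn
      (fun ρ : ℝ => (p * |K| + 2 * Real.pi) * (1 - ρ) ^ (-(p * β))) (Ioo 0 1) := by
    have h := ((intervalIntegral.intervalIntegrable_rpow' (a := 1) (b := 0) (r := -(p * β))
      (by linarith)).comp_sub_left 1).const_mul (p * |K| + 2 * Real.pi)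
    simp only [sub_self, sub_zero] at h
    exact (intervalIntegrable_iff_integrableOn_Ioo_of_le zero_le_one).1 h
  exact hint.lintegral_lt_top

end

end Vale.Agent.P142.Flux
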