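import Vale.Agent.P142.Flux.Jets

/-!
The flux criterion on the half plane: a pointwise certificate bounds the horizontal means of
`1 / |G'| ^ 2`.
-/

open Complex Set Metric MeasureTheory Filter Topology Vale.Agent.P142.Area

namespace Vale.Agent.P142.Flux

noncomputable section

/-- The power `2 τ` of the modulus of `1 / G'`. -/
def gs (τ : ℝ) (G : ℂ → ℂ) (ξ : ℂ) : ℝ := normSq (deriv G ξ)⁻¹ ^ τ

theorem gs_nonneg (τ : ℝ) (G : ℂ → ℂ) (ξ : ℂ) : 0 ≤ gs τ G ξ :=
  Real.rpow_nonneg (normSq_nonneg _) τ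

/-- The horizontal mean. -/
def hm (τ : ℝ) (G : ℂ → ℂ) (y : ℝ) : ℝ := ∫ x in (-Real.pi)..Real.pi, gs τ G (x + y * I)

/-- A lift: injective, without critical points, commuting with the translation by the period. -/
def IsLift (G : ℂ → ℂ) : Prop :=
  DifferentiableOn ℂ G Hp ∧ InjOn G Hp ∧ (∀ ξ ∈ Hp, deriv G ξ ≠ 0) ∧
    ∀ ξ ∈ Hp, G (ξ + (2 * Real.pi : ℝ)) = G ξ + (2 * Real.pi : ℝ)

theorem shift_mem {ξ : ℂ} (hξ : ξ ∈ Hp) (t : ℝ) : ξ + (t : ℂ) ∈ Hp := by
  simpa [Hp] using hξ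

theorem deriv_periodic {F : ℂ → ℂ} {t : ℝ} {k : ℂ} (hF : DifferentiableOn ℂ F Hp)
    (h : ∀ ξ ∈ Hp, F (ξ + t) = F ξ + k) {ξ : ℂ} (hξ : ξ ∈ Hp) :
    deriv F (ξ + t) = deriv F ξ := by
  have h1 := (hasDerivAt_of_diff hF (shift_mem hξ t)).comp_add_const ξ (t : ℂ)
  have h2 := ((hasDerivAt_of_diff hF hξ).add_const k).congr_of_eventuallyEq
    (eventually_of_mem (isOpen_Hp.mem_nhds hξ) fun η hη => h η hη)
  exact h1.unique h2

theorem mem_line (x : ℝ) {y : ℝ} (hy : 0 < y) : (x : ℂ) + y * I ∈ Hp := by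
  simpa [Hp] using hy

theorem hasDerivAt_normSq_comp {g : ℝ → ℂ} {g' : ℂ} {t : ℝ} (h : HasDerivAt g g' t) :
    HasDerivAt (fun s => normSq (g s)) (2 * ((starRingEnd ℂ) (g t) * g').re) t := by
  have hre := (reCLM.hasFDerivAt.comp_hasDerivAt t h)
  have him := (imCLM.hasFDerivAt.comp_hasDerivAt t h)
  simp only [Function.comp_def, reCLM_apply, imCLM_apply] at hre him
  have h2 := (hre.fun_mul hre).fun_add (him.fun_mul him)
  simp only [← normSq_apply] at h2
  refine h2.congr_deriv ?_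
  simp [mul_re]
  ring

/-- The weighted function of the jets. -/
def wt (τ : ℝ) (G : ℂ → ℂ) (P : ℂ × ℂ × ℂ → ℝ) (ξ : ℂ) : ℝ := gs τ G ξ * P (Vj G ξ)

/-- Horizontal derivative of the weighted function. -/
def wtx (τ : ℝ) (G : ℂ → ℂ) (P : ℂ × ℂ × ℂ → ℝ) (ξ : ℂ) : ℝ :=
  gs τ G ξ * (fderiv ℝ P (Vj G ξ) (Vjx G ξ) - 2 * τ * (psi G ξ).re * P (Vj G ξ))

/-- Vertical derivative of the weighted function. -/
def wty (τ : ℝ) (G : ℂ → ℂ) (P : ℂ × ℂ × ℂ → ℝ) (ξ : ℂ) : ℝ :=
  gs τ G ξ * (fderiv ℝ P (Vj G ξ) (Vjy G ξ) - 2 * τ * (I * psi G ξ).re * P (Vj G ξ))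

variable {G : ℂ → ℂ} {τ : ℝ}

theorem hasDerivAt_inv_deriv (hG : IsLift G) {ξ : ℂ} (hξ : ξ ∈ Hp) :
    HasDerivAt (fun η => (deriv G η)⁻¹) (-(psi G ξ) * (deriv G ξ)⁻¹) ξ := by
  refine ((hasDerivAt_of_diff (diff_deriv hG.1) hξ).fun_inv (hG.2.2.1 ξ hξ)).congr_deriv ?_
  have := hG.2.2.1 ξ hξ
  rw [psi]
  field_simp

theorem hasDerivAt_wt_x (hG : IsLift G) {P : ℂ × ℂ × ℂ → ℝ} (hP : ContDiff ℝ 1 P) (x : ℝ) {y : ℝ}
    (hy : 0 < y) :
    HasDerivAt (fun s : ℝ => wt τ G P (s + y * I)) (wtx τ G P (x + y * I)) x := by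
  set ξ : ℂ := x + y * I with hξd
  have hξ : ξ ∈ Hp := mem_line x hy
  obtain ⟨hd, _, h1, _⟩ := hG
  have hγ : HasDerivAt (fun s : ℝ => (s : ℂ) + y * I) 1 x := by
    simpa using ((hasDerivAt_id x).ofReal_comp).add_const ((y : ℂ) * I)
  have cline : ∀ {F : ℂ → ℂ} {F' : ℂ}, HasDerivAt F F' ξ →
      HasDerivAt (fun s : ℝ => F (s + y * I)) F' x := fun hF => by
    simpa [Function.comp_def] using hF.scomp x hγ
  have hp := cline (hasDerivAt_of_diff (diff_psi hd h1) hξ)
  have hs := cline (hasDerivAt_of_diff (diff_sch hd h1) hξ)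
  have hs1 := cline (hasDerivAt_of_diff ((diff_sch hd h1).deriv isOpen_Hp) hξ)
  have him : ∀ s : ℝ, ((s : ℂ) + y * I).im = y := fun s => by simp
  have hV : HasDerivAt (fun s : ℝ => Vj G (s + y * I)) (Vjx G ξ) x := by
    simp only [Vj, him]
    have e : Vjx G ξ = (I * y * deriv (psi G) ξ, -2 / 3 * (y : ℂ) ^ 2 * deriv (sch G) ξ,
        -2 / 3 * (y : ℂ) ^ 2 * deriv (sch G) ξ -
          I / 3 * (y : ℂ) ^ 3 * deriv (deriv (sch G)) ξ) := by
      simp [Vjx, hξd]
    rw [e]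
    exact (hp.const_mul _).prodMk ((hs.const_mul _).prodMk ((hs.const_mul _).fun_sub (hs1.const_mul _)))
  have hPV := ((hP.differentiable one_ne_zero _).hasFDerivAt).comp_hasDerivAt x hV
  have hgs := hasDerivAt_normSq_comp (cline (hasDerivAt_inv_deriv ⟨hd, by assumption, h1, by assumption⟩ hξ))
  have hne : normSq (deriv G ξ)⁻¹ ≠ 0 := (normSq_pos.2 (inv_ne_zero (h1 ξ hξ))).ne'
  refine ((hgs.rpow_const (p := τ) (Or.inl hne)).fun_mul hPV).congr_deriv ?_
  simp only [wtx, gs, Function.comp_apply, ← hξd]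
  rw [Real.rpow_sub_one hne]
  rw [show (starRingEnd ℂ) (deriv G ξ)⁻¹ * (-psi G ξ * (deriv G ξ)⁻¹) =
    -((normSq (deriv G ξ)⁻¹ : ℂ) * psi G ξ) by rw [normSq_eq_conj_mul_self]; ring,
    neg_re, re_ofReal_mul]
  generalize normSq (deriv G ξ)⁻¹ = N at hne ⊢
  field_simp
  ring

theorem hasDerivAt_wt_y (hG : IsLift G) {P : ℂ × ℂ × ℂ → ℝ} (hP : ContDiff ℝ 1 P) (x : ℝ) {y : ℝ}
    (hy : 0 < y) :
    HasDerivAt (fun s : ℝ => wt τ G P (x + s * I)) (wty τ G P (x + y * I)) y := by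
  set ξ : ℂ := x + y * I with hξd
  have hξ : ξ ∈ Hp := mem_line x hy
  obtain ⟨hd, hi, h1, hper⟩ := hG
  have hγ : HasDerivAt (fun s : ℝ => (x : ℂ) + s * I) I y := by
    simpa using (((hasDerivAt_id y).ofReal_comp).mul_const I).const_add (x : ℂ)
  have cline : ∀ {F : ℂ → ℂ} {F' : ℂ}, HasDerivAt F F' ξ →
      HasDerivAt (fun s : ℝ => F (x + s * I)) (I * F') y := fun hF => by
    simpa [Function.comp_def] using hF.scomp y hγ
  have hp := cline (hasDerivAt_of_diff (diff_psi hd h1) hξ)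
  have hs := cline (hasDerivAt_of_diff (diff_sch hd h1) hξ)
  have hs1 := cline (hasDerivAt_of_diff ((diff_sch hd h1).deriv isOpen_Hp) hξ)
  have him : ∀ s : ℝ, ((x : ℂ) + s * I).im = s := fun s => by simp
  have ho : HasDerivAt (fun s : ℝ => (s : ℂ)) 1 y := by
    simpa using (hasDerivAt_id y).ofReal_comp
  have hV : HasDerivAt (fun s : ℝ => Vj G (x + s * I)) (Vjy G ξ) y := by
    simp only [Vj, him]
    have c1 := (ho.const_mul I).fun_mul hp
    have c2 := ((ho.fun_pow 2).const_mul (-2 / 3 : ℂ)).fun_mul hs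
    have c3 := ((ho.fun_pow 3).const_mul (I / 3)).fun_mul hs1
    refine (c1.prodMk (c2.prodMk (c2.fun_sub c3))).congr_deriv ?_
    have hyi : ξ.im = y := him y
    simp only [Vjy, hyi, ← hξd, Prod.mk.injEq]
    refine ⟨?_, ?_, ?_⟩ <;> push_cast <;> ring_nf <;> (try simp only [Complex.I_sq]) <;> ring
  have hPV := ((hP.differentiable one_ne_zero _).hasFDerivAt).comp_hasDerivAt y hV
  have hgs := hasDerivAt_normSq_comp (cline (hasDerivAt_inv_deriv ⟨hd, hi, h1, hper⟩ hξ))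
  have hne : normSq (deriv G ξ)⁻¹ ≠ 0 := (normSq_pos.2 (inv_ne_zero (h1 ξ hξ))).ne'
  refine ((hgs.rpow_const (p := τ) (Or.inl hne)).fun_mul hPV).congr_deriv ?_
  simp only [wty, gs, Function.comp_apply, ← hξd]
  rw [Real.rpow_sub_one hne]
  rw [show (starRingEnd ℂ) (deriv G ξ)⁻¹ * (I * (-psi G ξ * (deriv G ξ)⁻¹)) =
    -((normSq (deriv G ξ)⁻¹ : ℂ) * (I * psi G ξ)) by rw [normSq_eq_conj_mul_self]; ring,
    neg_re, re_ofReal_mul]
  generalize normSq (deriv G ξ)⁻¹ = N at hne ⊢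
  field_simp
  ring

theorem continuousOn_gs (hG : IsLift G) : ContinuousOn (gs τ G) Hp :=
  (continuous_normSq.comp_continuousOn
    (((diff_deriv hG.1).continuousOn).inv₀ hG.2.2.1)).rpow_const fun ξ hξ =>
      Or.inl (normSq_pos.2 (inv_ne_zero (hG.2.2.1 ξ hξ))).ne'

theorem continuousOn_jets (hG : IsLift G) :
    ContinuousOn (Vj G) Hp ∧ ContinuousOn (Vjx G) Hp ∧ ContinuousOn (Vjy G) Hp := by
  have p0 := diff_psi hG.1 hG.2.2.1
  have p1 := (p0.deriv isOpen_Hp).continuousOn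
  have s0 := diff_sch hG.1 hG.2.2.1
  have s1 := s0.deriv isOpen_Hp
  have a := p0.continuousOn
  have b := s0.continuousOn
  have c := s1.continuousOn
  have d := (s1.deriv isOpen_Hp).continuousOn
  have hy : ContinuousOn (fun ξ : ℂ => (ξ.im : ℂ)) Hp := by fun_prop
  refine ⟨?_, ?_, ?_⟩
  · unfold Vj; fun_prop
  · unfold Vjx; fun_prop
  · unfold Vjy; fun_prop

theorem continuousOn_wt (hG : IsLift G) {P : ℂ × ℂ × ℂ → ℝ} (hP : ContDiff ℝ 1 P) :
    ContinuousOn (wt τ G P) Hp ∧ ContinuousOn (wtx τ G P) Hp ∧ ContinuousOn (wty τ G P) Hp := by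
  obtain ⟨hv, hvx, hvy⟩ := continuousOn_jets hG
  have hg := continuousOn_gs (τ := τ) hG
  have hPv : ContinuousOn (fun ξ => P (Vj G ξ)) Hp := hP.continuous.comp_continuousOn hv
  have hdP : ContinuousOn (fun ξ => fderiv ℝ P (Vj G ξ)) Hp :=
    (hP.continuous_fderiv one_ne_zero).comp_continuousOn hv
  have hp := (diff_psi hG.1 hG.2.2.1).continuousOn
  refine ⟨hg.mul hPv, hg.mul ((hdP.clm_apply hvx).sub
    (((continuousOn_const.mul (continuous_re.comp_continuousOn hp))).mul hPv)),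
    hg.mul ((hdP.clm_apply hvy).sub ((continuousOn_const.mul
      (continuous_re.comp_continuousOn (continuousOn_const.mul hp))).mul hPv))⟩

theorem continuousOn_param {f : ℝ → ℝ → ℝ} {a b c d : ℝ}
    (hf : ContinuousOn (Function.uncurry f) (Set.Icc a b ×ˢ Set.univ)) :
    ContinuousOn (fun t => ∫ x in c..d, f t x) (Set.Icc a b) := by
  rw [continuousOn_iff_continuous_restrict]
  exact intervalIntegral.continuous_parametric_intervalIntegral_of_continuous'
    (f := fun (t : Set.Icc a b) x => f t x)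
    (hf.comp_continuous (f := fun p : Set.Icc a b × ℝ => ((p.1 : ℝ), p.2)) (by fun_prop)
      fun p => ⟨p.1.2, trivial⟩) c d

theorem periodic_wt (hG : IsLift G) (P : ℂ × ℂ × ℂ → ℝ) {ξ : ℂ} (hξ : ξ ∈ Hp) :
    wt τ G P (ξ + (2 * Real.pi : ℝ)) = wt τ G P ξ := by
  obtain ⟨hd, _, h1, hper⟩ := hG
  set t : ℝ := 2 * Real.pi
  have e1 : ∀ η ∈ Hp, deriv G (η + t) = deriv G η := fun η hη => deriv_periodic hd hper hη
  have e2 : ∀ η ∈ Hp, deriv (deriv G) (η + t) = deriv (deriv G) η := fun η hη =>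
    deriv_periodic (k := 0) (diff_deriv hd) (fun ζ hζ => by rw [e1 ζ hζ, add_zero]) hη
  have e3 : ∀ η ∈ Hp, psi G (η + t) = psi G η := fun η hη => by
    rw [psi, psi, e1 η hη, e2 η hη]
  have e4 : ∀ η ∈ Hp, deriv (psi G) (η + t) = deriv (psi G) η := fun η hη =>
    deriv_periodic (k := 0) (diff_psi hd h1) (fun ζ hζ => by rw [e3 ζ hζ, add_zero]) hη
  have e5 : ∀ η ∈ Hp, sch G (η + t) = sch G η := fun η hη => by
    rw [sch, sch, e3 η hη, e4 η hη]
  have e6 : ∀ η ∈ Hp, deriv (sch G) (η + t) = deriv (sch G) η := fun η hη =>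
    deriv_periodic (k := 0) (diff_sch hd h1) (fun ζ hζ => by rw [e5 ζ hζ, add_zero]) hη
  have him : (ξ + t).im = ξ.im := by simp
  simp only [wt, gs, Vj, e1 ξ hξ, e3 ξ hξ, e5 ξ hξ, e6 ξ hξ, him]

/-- The pointwise flux inequality. -/
theorem pointwise (hG : IsLift G) {β c : ℝ} {P Q : ℂ × ℂ × ℂ → ℝ} (hC : CertT τ β c P Q) {ξ : ℂ}
    (hξ : ξ ∈ Hp) :
    c * gs τ G ξ ≤ β * wt τ G P ξ + ξ.im * wty τ G P ξ + ξ.im * wtx τ G Q ξ := by
  obtain ⟨hd, hi, h1, _⟩ := hG
  obtain ⟨a, hB, hv, hy, hx⟩ := exists_body hd hi h1 hξ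
  have h := hC.2.2.2 a hB
  have ha2 : a 2 = 1 + I * ξ.im * psi G ξ := by
    have e : a 2 - 1 = I * ξ.im * psi G ξ := congrArg Prod.fst hv
    linear_combination e
  rw [energyT, hv, hy, hx, map_smul, map_smul, smul_eq_mul, smul_eq_mul, ha2] at h
  have hg : 0 ≤ gs τ G ξ := gs_nonneg τ G ξ
  refine (mul_comm c _).trans_le ((mul_le_mul_of_nonneg_left h hg).trans_eq ?_)
  simp only [wt, wty, wtx, add_sub_cancel_left, add_im, one_im, mul_re, mul_im, I_re, I_im,
    ofReal_re, ofReal_im]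
  ring

/-- The integrated flux inequality. -/
theorem flux (hG : IsLift G) {β c : ℝ} {P Q : ℂ × ℂ × ℂ → ℝ} (hC : CertT τ β c P Q) {a b : ℝ}
    (ha : 0 < a) (hab : a ≤ b) :
    c * ∫ y in a..b, y ^ (β - 1) * hm τ G y ≤
      b ^ β * (∫ x in (-Real.pi)..Real.pi, wt τ G P (x + b * I)) -
      a ^ β * ∫ x in (-Real.pi)..Real.pi, wt τ G P (x + a * I) := by
  have hpi : -Real.pi ≤ Real.pi := by linarith [Real.pi_pos]
  obtain ⟨cP, _, cPy⟩ := continuousOn_wt hG hC.1
  obtain ⟨_, cQx, _⟩ := continuousOn_wt hG hC.2.1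
  set S : Set (ℝ × ℝ) := Set.Icc (-Real.pi) Real.pi ×ˢ Set.Icc a b
  have hline : ContinuousOn (fun p : ℝ × ℝ => (p.1 : ℂ) + p.2 * I) S := by fun_prop
  have hmaps : MapsTo (fun p : ℝ × ℝ => (p.1 : ℂ) + p.2 * I) S Hp := fun p hp =>
    mem_line _ (ha.trans_le hp.2.1)
  have hrp : ∀ γ : ℝ, ContinuousOn (fun p : ℝ × ℝ => p.2 ^ γ) S := fun γ =>
    continuousOn_snd.rpow_const fun p hp => Or.inl (ha.trans_le hp.2.1).ne'
  set D : ℝ → ℝ → ℝ := fun x y => β * y ^ (β - 1) * wt τ G P (x + y * I) +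
    y ^ β * wty τ G P (x + y * I) with hD
  have hDc : ContinuousOn (Function.uncurry D) S := by
    simp only [hD, Function.uncurry_def]
    exact ((continuousOn_const.mul (hrp _)).mul (cP.comp hline hmaps)).add
      ((hrp _).mul (cPy.comp hline hmaps))
  have hI : IntegrableOn (Function.uncurry D) (uIoc (-Real.pi) Real.pi ×ˢ uIoc a b)
      (volume : Measure (ℝ × ℝ)) := by
    rw [uIoc_of_le hpi, uIoc_of_le hab]
    exact (hDc.integrableOn_compact (isCompact_Icc.prod isCompact_Icc)).mono_set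
      (prod_mono Ioc_subset_Icc_self Ioc_subset_Icc_self)
  have hswap := intervalIntegral_intervalIntegral_swap (F := D)
    (a := -Real.pi) (b := Real.pi) (c := a) (d := b) hI
  have hftc : ∀ x ∈ uIcc (-Real.pi) Real.pi, ∫ y in a..b, D x y =
      b ^ β * wt τ G P (x + b * I) - a ^ β * wt τ G P (x + a * I) := by
    intro x hx
    rw [uIcc_of_le hpi] at hx
    refine intervalIntegral.integral_eq_sub_of_hasDerivAt (f := fun y : ℝ => y ^ β * wt τ G P (x + y * I))
      (fun y hy => ?_) ?_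
    · rw [uIcc_of_le hab] at hy
      exact (Real.hasDerivAt_rpow_const (Or.inl (ha.trans_le hy.1).ne')).fun_mul
        (hasDerivAt_wt_y hG hC.1 x (ha.trans_le hy.1))
    · refine ContinuousOn.intervalIntegrable ?_
      rw [uIcc_of_le hab]
      exact hDc.comp (f := fun y => (x, y)) (by fun_prop) fun y hy => ⟨hx, hy⟩
  rw [intervalIntegral.integral_congr hftc] at hswap
  have hyline : ∀ y : ℝ, 0 < y → Continuous fun x : ℝ => wt τ G P (x + y * I) := fun y hy =>
    cP.comp_continuous (by fun_prop) fun x => mem_line x hy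
  rw [intervalIntegral.integral_sub
      (((hyline b (ha.trans_le hab)).const_mul _).intervalIntegrable _ _)
      (((hyline a ha).const_mul _).intervalIntegrable _ _),
    intervalIntegral.integral_const_mul, intervalIntegral.integral_const_mul] at hswap
  rw [hswap, ← intervalIntegral.integral_const_mul]
  -- compare the inner integrals
  have hgsc : ContinuousOn (fun p : ℝ × ℝ => p.2 ^ (β - 1) * gs τ G (p.1 + p.2 * I)) S :=
    (hrp _).mul ((continuousOn_gs hG).comp hline hmaps)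
  have hmi : ContinuousOn (fun y => c * (y ^ (β - 1) * hm τ G y)) (Set.Icc a b) := by
    refine continuousOn_const.mul ((continuousOn_id.rpow_const fun y hy =>
      Or.inl (ha.trans_le hy.1).ne').mul ?_)
    exact continuousOn_param (f := fun y x => gs τ G (x + y * I))
      ((continuousOn_gs hG).comp (f := fun p : ℝ × ℝ => (p.2 : ℂ) + p.1 * I) (by fun_prop)
        fun p hp => mem_line _ (ha.trans_le hp.1.1))
  have hDi : ContinuousOn (fun y => ∫ x in (-Real.pi)..Real.pi, D x y) (Set.Icc a b) := by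
    refine continuousOn_param (f := fun y x => D x y) ?_
    have hl : ContinuousOn (fun p : ℝ × ℝ => (p.2 : ℂ) + p.1 * I) (Set.Icc a b ×ˢ Set.univ) := by
      fun_prop
    have hm' : MapsTo (fun p : ℝ × ℝ => (p.2 : ℂ) + p.1 * I) (Set.Icc a b ×ˢ Set.univ) Hp :=
      fun p hp => mem_line _ (ha.trans_le hp.1.1)
    have hr : ∀ γ : ℝ, ContinuousOn (fun p : ℝ × ℝ => p.1 ^ γ) (Set.Icc a b ×ˢ Set.univ) := fun γ =>
      continuousOn_fst.rpow_const fun p hp => Or.inl (ha.trans_le hp.1.1).ne'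
    simp only [hD, Function.uncurry_def]
    exact ((continuousOn_const.mul (hr _)).mul (cP.comp hl hm')).add
      ((hr _).mul (cPy.comp hl hm'))
  refine intervalIntegral.integral_mono_on hab
    (hmi.intervalIntegrable_of_Icc hab) (hDi.intervalIntegrable_of_Icc hab) fun y hy => ?_
  have hy0 : 0 < y := ha.trans_le hy.1
  have hQ : ∫ x in (-Real.pi)..Real.pi, wtx τ G Q (x + y * I) = 0 := by
    rw [intervalIntegral.integral_eq_sub_of_hasDerivAt (f := fun x : ℝ => wt τ G Q (x + y * I))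
      (fun x _ => hasDerivAt_wt_x hG hC.2.1 x hy0)
      ((cQx.comp_continuous (by fun_prop) fun x => mem_line x hy0).intervalIntegrable _ _),
      sub_eq_zero]
    have h := periodic_wt (τ := τ) hG Q (mem_line (-Real.pi) hy0)
    have e : ((-Real.pi : ℝ) : ℂ) + y * I + ((2 * Real.pi : ℝ) : ℂ) = (Real.pi : ℂ) + y * I := by
      push_cast; ring
    rw [e] at h
    exact h
  have iD : IntervalIntegrable (fun x => D x y) volume (-Real.pi) Real.pi :=
    (hDc.comp (f := fun x => (x, y)) (by fun_prop) fun x hx => ⟨hx, hy⟩).intervalIntegrable_of_Icc hpi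
  have iQ : IntervalIntegrable (fun x : ℝ => y ^ β * wtx τ G Q (x + y * I)) volume (-Real.pi) Real.pi :=
    (continuous_const.mul (cQx.comp_continuous (by fun_prop) fun x => mem_line x hy0)).intervalIntegrable _ _
  have hsum : ∫ x in (-Real.pi)..Real.pi, D x y =
      ∫ x in (-Real.pi)..Real.pi, (D x y + y ^ β * wtx τ G Q (x + y * I)) := by
    rw [intervalIntegral.integral_add iD iQ, intervalIntegral.integral_const_mul, hQ, mul_zero,
      add_zero]
  rw [hsum, hm, ← mul_assoc, ← intervalIntegral.integral_const_mul]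
  refine intervalIntegral.integral_mono_on hpi ?_ (iD.add iQ) fun x _ => ?_
  · exact (continuous_const.mul ((continuousOn_gs hG).comp_continuous (by fun_prop)
      fun x => mem_line x hy0)).intervalIntegrable _ _
  have hp := mul_le_mul_of_nonneg_left (pointwise hG hC (mem_line x hy0))
    (Real.rpow_nonneg hy0.le (β - 1))
  have him : ((x : ℂ) + y * I).im = y := by simp
  rw [him] at hp
  have e : y ^ β = y ^ (β - 1) * y := by
    rw [Real.rpow_sub_one hy0.ne', div_mul_cancel₀ _ hy0.ne']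
  simp only [hD, e]
  linarith

theorem isLift_shift (hG : IsLift G) {δ : ℝ} (hδ : 0 ≤ δ) :
    IsLift (fun ξ => G (ξ + δ * I)) ∧ ∀ y, 0 < y →
      hm τ (fun ξ => G (ξ + δ * I)) y = hm τ G (y + δ) := by
  obtain ⟨hd, hi, h1, hper⟩ := hG
  have hmem : ∀ ξ ∈ Hp, ξ + δ * I ∈ Hp := fun ξ hξ => by
    have h : 0 < ξ.im := hξ
    change 0 < (ξ + δ * I).im
    simp
    linarith
  have hdd : ∀ ξ, deriv (fun η => G (η + δ * I)) ξ = deriv G (ξ + δ * I) := fun ξ =>
    deriv_comp_add_const G _ ξ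
  refine ⟨⟨hd.comp ((differentiable_id.add_const _).differentiableOn) hmem,
    fun x hx y hy h => add_right_cancel (hi (hmem x hx) (hmem y hy) h),
    fun ξ hξ => by rw [hdd]; exact h1 _ (hmem ξ hξ), fun ξ hξ => ?_⟩, fun y _ => ?_⟩
  · change G (ξ + ((2 * Real.pi : ℝ) : ℂ) + δ * I) = G (ξ + δ * I) + _
    rw [add_right_comm]
    exact hper _ (hmem ξ hξ)
  · simp only [hm, gs, hdd]
    refine intervalIntegral.integral_congr fun x _ => ?_
    push_cast
    ring_nf

/-- The criterion on the half plane. -/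
theorem half_plane {β c : ℝ} {P Q : ℂ × ℂ × ℂ → ℝ} (hβ : 0 < β) (hC : CertT τ β c P Q) :
    ∃ K : ℝ, ∀ G : ℂ → ℂ, IsLift G → AntitoneOn (hm τ G) (Set.Ioi 0) →
      ∀ y, 0 < y → y ≤ 2 → hm τ G y ≤ K * hm τ G 1 * y ^ (-β) := by
  obtain ⟨C, hC0, hCb⟩ : ∃ C, 0 ≤ C ∧ ∀ v ∈ closedBall (0 : ℂ × ℂ × ℂ) 4, |P v| ≤ C := by
    obtain ⟨C, hC'⟩ := (isCompact_closedBall (0 : ℂ × ℂ × ℂ) 4).exists_bound_of_continuousOn
      hC.1.continuous.continuousOn
    exact ⟨max C 0, le_max_right _ _, fun v hv => (hC' v hv).trans (le_max_left _ _)⟩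
  have hc : 0 < c := hC.2.2.1
  refine ⟨β * C / c * 2 ^ β, fun G hG hanti y hy0 hy2 => ?_⟩
  set δ := y / 2 with hδ
  have hδ0 : 0 < δ := by positivity
  have hδ1 : δ ≤ 1 := by rw [hδ]; linarith
  obtain ⟨hGs, hms⟩ := isLift_shift hG hδ0.le
  set F : ℂ → ℂ := fun ξ => G (ξ + δ * I) with hF
  have hpi : -Real.pi ≤ Real.pi := by linarith [Real.pi_pos]
  have hbd : ∀ s : ℝ, 0 < s → |∫ x in (-Real.pi)..Real.pi, wt τ F P (x + s * I)| ≤ C * hm τ F s := by
    intro s hs
    rw [hm, ← intervalIntegral.integral_const_mul]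
    refine (intervalIntegral.abs_integral_le_integral_abs hpi).trans
      (intervalIntegral.integral_mono_on hpi ?_ ?_ fun x _ => ?_)
    · exact ((continuousOn_wt hGs hC.1).1.comp_continuous (by fun_prop)
        fun x => mem_line x hs).abs.intervalIntegrable _ _
    · exact (continuous_const.mul ((continuousOn_gs hGs).comp_continuous (by fun_prop)
        fun x => mem_line x hs)).intervalIntegrable _ _
    · obtain ⟨a, hB, hv, -, -⟩ := exists_body hGs.1 hGs.2.1 hGs.2.2.1 (mem_line x hs)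
      have hn : ∀ z : ℂ, normSq z ≤ 1 → ‖z‖ ≤ 4 := fun z hz => by
        rw [normSq_eq_norm_sq] at hz; nlinarith [norm_nonneg z]
      have h1 := hB.2.2.1
      have hball : Vj F (x + s * I) ∈ closedBall (0 : ℂ × ℂ × ℂ) 4 := by
        rw [← hv, mem_closedBall_zero_iff]
        refine max_le ?_ (max_le ?_ ?_)
        · have := (norm_sub_le (a 2) 1)
          simp only [norm_one] at this
          simp only [jetv]
          linarith [hB.1]
        · exact hn (g11 a) (by linarith [normSq_nonneg (g12 a), normSq_nonneg (g13 a)])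
        · exact hn (g12 a) (by
            linarith [normSq_nonneg (g11 a), normSq_nonneg (g12 a), normSq_nonneg (g13 a)])
      have hgnn : 0 ≤ gs τ F (x + s * I) := gs_nonneg _ _ _
      rw [wt, abs_mul, abs_of_nonneg hgnn, mul_comm]
      exact mul_le_mul_of_nonneg_right (hCb _ hball) (gs_nonneg _ _ _)
  have hnn : ∀ s : ℝ, 0 ≤ hm τ G s := fun s =>
    intervalIntegral.integral_nonneg hpi fun x _ => gs_nonneg _ _ _
  have key : ∀ a : ℝ, 0 < a → a < δ →
      c * hm τ G y * ((δ ^ β - a ^ β) / β) ≤ C * hm τ G 1 + C * hm τ G δ * a ^ β := by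
    intro a ha haδ
    have h1 : c * hm τ G y * ((δ ^ β - a ^ β) / β) ≤ c * ∫ t in a..1, t ^ (β - 1) * hm τ F t := by
      rw [mul_assoc]
      refine mul_le_mul_of_nonneg_left ?_ hc.le
      have hcont : ContinuousOn (fun t => t ^ (β - 1) * hm τ F t) (Set.Icc a 1) := by
        refine (continuousOn_id.rpow_const fun t ht => Or.inl (ha.trans_le ht.1).ne').mul ?_
        exact continuousOn_param (f := fun t x => gs τ F (x + t * I))
          ((continuousOn_gs hGs).comp (f := fun p : ℝ × ℝ => (p.2 : ℂ) + p.1 * I) (by fun_prop)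
            fun p hp => mem_line _ (ha.trans_le hp.1.1))
      calc hm τ G y * ((δ ^ β - a ^ β) / β)
          = ∫ t in a..δ, t ^ (β - 1) * hm τ G y := by
            rw [intervalIntegral.integral_mul_const, integral_rpow (Or.inl (by linarith)),
              sub_add_cancel]
            ring
        _ ≤ ∫ t in a..δ, t ^ (β - 1) * hm τ F t := by
            refine intervalIntegral.integral_mono_on haδ.le ?_ ?_ fun t ht => ?_
            · exact ((continuousOn_id.rpow_const fun t ht => Or.inl (ha.trans_le ht.1).ne').mul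
                continuousOn_const).intervalIntegrable_of_Icc haδ.le
            · exact (hcont.mono (Set.Icc_subset_Icc le_rfl hδ1)).intervalIntegrable_of_Icc haδ.le
            · have ht0 : 0 < t := ha.trans_le ht.1
              rw [hms t ht0]
              exact mul_le_mul_of_nonneg_left
                (hanti (add_pos ht0 hδ0) hy0 (by rw [hδ] at ht ⊢; linarith [ht.2]))
                (Real.rpow_nonneg ht0.le _)
        _ ≤ ∫ t in a..1, t ^ (β - 1) * hm τ F t := by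
            refine intervalIntegral.integral_mono_interval le_rfl haδ.le hδ1 ?_
              (hcont.intervalIntegrable_of_Icc (haδ.le.trans hδ1))
            refine (ae_restrict_mem measurableSet_Ioc).mono fun t ht => ?_
            exact mul_nonneg (Real.rpow_nonneg (ha.trans ht.1).le _)
              (intervalIntegral.integral_nonneg hpi fun x _ => gs_nonneg _ _ _)
    have h2 := flux hGs hC ha (haδ.le.trans hδ1)
    rw [Real.one_rpow, one_mul] at h2
    have h3 := (abs_le.1 (hbd 1 one_pos)).2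
    have h4 := (abs_le.1 (hbd a ha)).1
    rw [hms 1 one_pos] at h3
    rw [hms a ha] at h4
    have h5 : hm τ G (1 + δ) ≤ hm τ G 1 :=
      hanti (Set.mem_Ioi.2 one_pos) (Set.mem_Ioi.2 (by linarith)) (by linarith)
    have h6 : hm τ G (a + δ) ≤ hm τ G δ :=
      hanti (Set.mem_Ioi.2 hδ0) (Set.mem_Ioi.2 (by linarith)) (by linarith)
    have hap : 0 ≤ a ^ β := Real.rpow_nonneg ha.le β
    have h7 := mul_le_mul_of_nonneg_left h4 hap
    have h8 := mul_le_mul_of_nonneg_left h6 (mul_nonneg hap hC0)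
    have h9 := mul_le_mul_of_nonneg_left h5 hC0
    linarith
  have hlim : c * hm τ G y * (δ ^ β / β) ≤ C * hm τ G 1 := by
    have hz : Tendsto (fun a : ℝ => a ^ β) (𝓝[>] 0) (𝓝 0) := by
      have h := (Real.continuousAt_rpow_const (0 : ℝ) β (Or.inr hβ.le)).tendsto
      rw [Real.zero_rpow hβ.ne'] at h
      exact h.mono_left nhdsWithin_le_nhds
    have hL : Tendsto (fun a : ℝ => c * hm τ G y * ((δ ^ β - a ^ β) / β)) (𝓝[>] 0)
        (𝓝 (c * hm τ G y * (δ ^ β / β))) := by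
      simpa using ((tendsto_const_nhds (x := δ ^ β)).sub hz |>.div_const β).const_mul (c * hm τ G y)
    have hR : Tendsto (fun a : ℝ => C * hm τ G 1 + C * hm τ G δ * a ^ β) (𝓝[>] 0)
        (𝓝 (C * hm τ G 1)) := by
      simpa using (tendsto_const_nhds (x := C * hm τ G 1)).add (hz.const_mul (C * hm τ G δ))
    refine le_of_tendsto_of_tendsto hL hR ?_
    filter_upwards [Ioo_mem_nhdsGT hδ0] with a ha using key a ha.1 ha.2
  have hyb : 0 < y ^ β := Real.rpow_pos_of_pos hy0 β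
  have h2b : 0 < (2 : ℝ) ^ β := Real.rpow_pos_of_pos two_pos β
  rw [hδ, Real.div_rpow hy0.le two_pos.le] at hlim
  rw [Real.rpow_neg hy0.le]
  have e : β * C / c * 2 ^ β * hm τ G 1 * (y ^ β)⁻¹ = C * hm τ G 1 / (c * (y ^ β / 2 ^ β / β)) := by
    field_simp
  rw [e, le_div_iff₀ (by positivity)]
  linarith

end

end Vale.Agent.P142.Flux
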