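import Vale.Agent.P142.Flux.Criterion

/-!
From the half plane to the disk: a pointwise certificate bounds the integral means of
`1 / |f'| ^ 2` of every univalent function.
-/

open Complex Set Metric MeasureTheory Filter Topology Vale.Agent.P142.Area

namespace Vale.Agent.P142.Flux

noncomputable section

theorem deriv_ne_zero_center {F : ℂ → ℂ} (hF : DifferentiableOn ℂ F (ball 0 1))
    (hinj : InjOn F (ball 0 1)) (hF0 : F 0 = 0) : deriv F 0 ≠ 0 := by
  intro hd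
  have han : AnalyticAt ℂ F 0 := hF.analyticAt (isOpen_ball.mem_nhds (mem_ball_self one_pos))
  have hne : analyticOrderAt F 0 ≠ ⊤ := by
    rw [Ne, analyticOrderAt_eq_top, Metric.eventually_nhds_iff]
    rintro ⟨ε, hε, h⟩
    set t : ℂ := ((min (ε / 2) (1 / 2) : ℝ) : ℂ) with ht
    have hpos : 0 < min (ε / 2) (1 / 2) := by positivity
    have hn : ‖t‖ = min (ε / 2) (1 / 2) := by
      rw [ht, Complex.norm_real, Real.norm_eq_abs, abs_of_pos hpos]
    have h1 : F t = 0 := h (by rw [dist_zero_right, hn]; linarith [min_le_left (ε / 2) (1 / 2)])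
    have h2 := hinj (mem_ball_zero_iff.2 (by rw [hn]; linarith [min_le_right (ε / 2) (1 / 2)]))
      (mem_ball_self one_pos) (h1.trans hF0.symm)
    rw [h2, norm_zero] at hn
    linarith
  obtain ⟨n, hn⟩ := ENat.ne_top_iff_exists.1 hne
  obtain ⟨g, hg, hg0, heq⟩ := han.analyticOrderAt_eq_natCast.1 hn.symm
  simp only [sub_zero, smul_eq_mul] at heq
  have hn2 : 2 ≤ n := by
    rcases n with _ | _ | n
    · have h := heq.self_of_nhds
      simp [hF0] at h
      exact absurd h.symm hg0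
    · exfalso
      have h : HasDerivAt (fun z => z ^ 1 * g z) (g 0) 0 := by
        have h' := (hasDerivAt_pow 1 (0 : ℂ)).fun_mul hg.differentiableAt.hasDerivAt
        simpa using h'
      exact hg0 ((h.congr_of_eventuallyEq heq).deriv.symm.trans hd)
    · omega
  obtain ⟨ε, hε, hball⟩ : ∃ ε > 0, ∀ z, ‖z‖ < ε →
      F z = z ^ n * g z ∧ AnalyticAt ℂ g z ∧ g z ≠ 0 ∧ ‖z‖ < 1 := by
    have h := heq.and (hg.eventually_analyticAt.and
      ((hg.continuousAt.eventually_ne hg0).and (ball_mem_nhds (0 : ℂ) one_pos)))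
    rw [Metric.eventually_nhds_iff] at h
    obtain ⟨ε, hε, h⟩ := h
    refine ⟨ε, hε, fun z hz => ?_⟩
    have := h (y := z) (by rwa [dist_zero_right])
    exact ⟨this.1, this.2.1, this.2.2.1, mem_ball_zero_iff.1 this.2.2.2⟩
  have hεC : (ε : ℂ) ≠ 0 := ofReal_ne_zero.2 hε.ne'
  have hin : ∀ w ∈ ball (0 : ℂ) 1, ‖(ε : ℂ) * w‖ < ε := fun w hw => by
    rw [norm_mul, Complex.norm_real, Real.norm_eq_abs, abs_of_pos hε]
    exact mul_lt_of_lt_one_right hε (mem_ball_zero_iff.1 hw)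
  set q : ℂ → ℂ := fun w => g ((ε : ℂ) * w) / g 0 with hq
  have hqd : DifferentiableOn ℂ q (ball 0 1) := fun w hw =>
    (((hball _ (hin w hw)).2.1.differentiableAt.comp w
      (differentiableAt_id.const_mul (ε : ℂ))).div_const _).differentiableWithinAt
  obtain ⟨L, hLd, hL0, hL⟩ := exists_log hqd
    (fun w hw => div_ne_zero (hball _ (hin w hw)).2.2.1 hg0) (by simp [hq, hg0])
  set φ : ℂ → ℂ := fun w => w * exp (L w / n) with hφ
  have hφd : DifferentiableOn ℂ φ (ball 0 1) :=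
    differentiable_fun_id.differentiableOn.mul (hLd.div_const _).cexp
  have hnC : (n : ℂ) ≠ 0 := Nat.cast_ne_zero.2 (by omega)
  have hpow : ∀ w ∈ ball (0 : ℂ) 1, F ((ε : ℂ) * w) = (ε : ℂ) ^ n * g 0 * φ w ^ n := fun w hw => by
    rw [(hball _ (hin w hw)).1, hφ, mul_pow, mul_pow, ← exp_nat_mul, mul_div_cancel₀ _ hnC, hL w hw,
      hq]
    field_simp
  rcases (hφd.analyticOnNhd isOpen_ball).is_constant_or_isOpen
    (convex_ball (0 : ℂ) 1).isPreconnected with ⟨k, hk⟩ | hop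
  · have h0 := hk 0 (mem_ball_self one_pos)
    have h1 := hk (1 / 2 : ℂ) (mem_ball_zero_iff.2 (by norm_num))
    simp only [hφ, zero_mul] at h0
    rw [← h0] at h1
    simp [hφ] at h1
  · obtain ⟨δ, hδ, hsub⟩ := Metric.isOpen_iff.1 (hop _ subset_rfl isOpen_ball) 0
      ⟨0, mem_ball_self one_pos, by simp [hφ]⟩
    have hω := Complex.isPrimitiveRoot_exp n (by omega)
    set ω := exp (2 * Real.pi * I / n) with hωd
    set v : ℂ := ((δ / 2 : ℝ) : ℂ) with hv
    have hvn : ‖v‖ = δ / 2 := by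
      rw [hv, Complex.norm_real, Real.norm_eq_abs, abs_of_pos (by positivity)]
    obtain ⟨w₁, hw₁, e₁⟩ := hsub (mem_ball_zero_iff.2 (by rw [hvn]; linarith))
    obtain ⟨w₂, hw₂, e₂⟩ := hsub (show v * ω ∈ ball 0 δ from mem_ball_zero_iff.2 (by
      rw [norm_mul, Complex.norm_eq_one_of_pow_eq_one hω.pow_eq_one (by omega), mul_one, hvn]
      linarith))
    have e : F ((ε : ℂ) * w₁) = F ((ε : ℂ) * w₂) := by
      rw [hpow w₁ hw₁, hpow w₂ hw₂, e₁, e₂, mul_pow v ω, hω.pow_eq_one, mul_one]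
    have hw := mul_left_cancel₀ hεC (hinj (mem_ball_zero_iff.2 (hball _ (hin w₁ hw₁)).2.2.2)
      (mem_ball_zero_iff.2 (hball _ (hin w₂ hw₂)).2.2.2) e)
    rw [hw, e₂] at e₁
    exact hω.ne_one (by omega) (mul_left_cancel₀
      (norm_pos_iff.1 (by rw [hvn]; positivity)) (e₁.trans (mul_one v).symm))

/-- An injective holomorphic function on the disk has no critical points. -/
theorem deriv_ne_zero {f : ℂ → ℂ} (hf : DifferentiableOn ℂ f (ball 0 1))
    (hinj : InjOn f (ball 0 1)) {z₀ : ℂ} (hz₀ : z₀ ∈ ball (0 : ℂ) 1) : deriv f z₀ ≠ 0 := by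
  have hz1 : ‖z₀‖ < 1 := mem_ball_zero_iff.1 hz₀
  set ρ : ℂ := ((1 - ‖z₀‖ : ℝ) : ℂ) with hρ
  have hρn : ‖ρ‖ = 1 - ‖z₀‖ := by
    rw [hρ, Complex.norm_real, Real.norm_eq_abs, abs_of_pos (by linarith)]
  have hρ0 : ρ ≠ 0 := norm_pos_iff.1 (by rw [hρn]; linarith)
  have hin : ∀ w ∈ ball (0 : ℂ) 1, z₀ + ρ * w ∈ ball (0 : ℂ) 1 := fun w hw => by
    rw [mem_ball_zero_iff] at hw ⊢
    have h := norm_add_le z₀ (ρ * w)
    rw [norm_mul, hρn] at h
    have : (1 - ‖z₀‖) * ‖w‖ < 1 - ‖z₀‖ := mul_lt_of_lt_one_right (by linarith) hw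
    linarith
  set F : ℂ → ℂ := fun w => f (z₀ + ρ * w) - f z₀ with hF
  have hFd : DifferentiableOn ℂ F (ball 0 1) :=
    (hf.comp ((differentiableOn_const _).add
      ((differentiableOn_const _).mul differentiable_fun_id.differentiableOn)) hin).sub_const _
  intro hd
  refine deriv_ne_zero_center hFd (fun x hx y hy e => ?_) (by simp [hF]) ?_
  · exact mul_left_cancel₀ hρ0 (add_left_cancel (hinj (hin x hx) (hin y hy) (sub_left_inj.1 e)))
  · have h1 : HasDerivAt f (deriv f z₀) (z₀ + ρ * 0) := by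
      rw [mul_zero, add_zero]
      exact (hf.differentiableAt (isOpen_ball.mem_nhds hz₀)).hasDerivAt
    have h2 := (h1.comp 0 (((hasDerivAt_id (0 : ℂ)).const_mul ρ).const_add z₀)).sub_const (f z₀)
    rw [hd, zero_mul] at h2
    exact h2.deriv

/-- The circle mean of a squared modulus. -/
def cm (φ : ℂ → ℂ) (r : ℝ) : ℝ :=
  ∫ x in (-Real.pi)..Real.pi, normSq (φ ((r : ℂ) * exp (x * I)))

theorem circle_mem {r : ℝ} (hr : r ∈ Set.Ico (0 : ℝ) 1) (x : ℝ) :
    (r : ℂ) * exp (x * I) ∈ ball (0 : ℂ) 1 := by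
  rw [mem_ball_zero_iff, norm_mul, norm_exp_ofReal_mul_I, mul_one, Complex.norm_real,
    Real.norm_eq_abs, abs_of_nonneg hr.1]
  exact hr.2

theorem cm_hasSum {φ : ℂ → ℂ} (hφ : DifferentiableOn ℂ φ (ball 0 1)) {r : ℝ}
    (hr : r ∈ Set.Ico (0 : ℝ) 1) :
    HasSum (fun n : ℕ => 2 * Real.pi * (normSq (tc φ n) * r ^ (2 * n))) (cm φ r) := by
  set u : ℤ → ℂ := fun n => if 0 ≤ n then tc φ n.toNat * (r : ℂ) ^ n.toNat else 0 with hu
  have hu1 : ∀ n : ℕ, u (n : ℤ) = tc φ n * (r : ℂ) ^ n := fun n => by simp [hu]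
  have hu2 : ∀ n : ℕ, u (-((n : ℤ) + 1)) = 0 := fun n => by
    simp only [hu, if_neg (show ¬ (0 : ℤ) ≤ -((n : ℤ) + 1) by omega)]
  have hus : Summable fun n => ‖u n‖ := by
    refine Summable.of_nat_of_neg_add_one ?_ ?_
    · simp only [hu1]; exact summable_tc hφ hr.1 hr.2
    · simp only [hu2, norm_zero]; exact summable_zero
  have hmode : ∀ (n : ℕ) (y : ℝ), mode (n : ℤ) y = exp (y * I) ^ n := fun n y => by
    rw [mode, ← exp_nat_mul]; simp
  have hU : ∀ y : ℝ, HasSum (fun n => u n * mode n y) (φ ((r : ℂ) * exp (y * I))) := by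
    intro y
    rw [← add_zero (φ ((r : ℂ) * exp (y * I)))]
    refine HasSum.of_nat_of_neg_add_one ?_ ?_
    · refine (hasSum_tc hφ (circle_mem hr y)).congr_fun fun n => ?_
      rw [hu1, hmode, mul_pow]; ring
    · simp only [hu2, zero_mul]; exact hasSum_zero
  have hUc : Continuous fun y : ℝ => φ ((r : ℂ) * exp (y * I)) :=
    hφ.continuousOn.comp_continuous (by fun_prop) (circle_mem hr)
  have h := Complex.hasSum_re (hasSum_pairing hus hus hUc hU hU)
  have e : (∫ y in (-Real.pi)..Real.pi, (starRingEnd ℂ) (φ ((r : ℂ) * exp (y * I))) *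
      φ ((r : ℂ) * exp (y * I))).re = cm φ r := by
    rw [cm]
    simp only [← normSq_eq_conj_mul_self]
    rw [intervalIntegral.integral_ofReal, ofReal_re]
  rw [e] at h
  have hterm : ∀ n : ℤ, (2 * (Real.pi : ℂ) * ((starRingEnd ℂ) (u n) * u n)).re =
      2 * Real.pi * normSq (u n) := fun n => by
    rw [← normSq_eq_conj_mul_self]; simp
  simp only [hterm] at h
  refine ((Nat.cast_injective (R := ℤ)).hasSum_iff (fun n hn => ?_)).2 h |>.congr_fun fun n => ?_
  · rcases Int.eq_nat_or_neg n with ⟨m, rfl | rfl⟩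
    · exact absurd ⟨m, rfl⟩ hn
    · rcases m with _ | m
      · exact absurd ⟨0, by simp⟩ hn
      · rw [show (-((m + 1 : ℕ) : ℤ)) = -((m : ℤ) + 1) by push_cast; ring, hu2]; simp
  · simp only [Function.comp_apply]
    rw [hu1, map_mul, map_pow, normSq_ofReal, pow_mul]; ring

theorem cm_mono {φ : ℂ → ℂ} (hφ : DifferentiableOn ℂ φ (ball 0 1)) {r s : ℝ} (hr : 0 ≤ r)
    (hrs : r ≤ s) (hs : s < 1) : cm φ r ≤ cm φ s := by
  refine hasSum_le (fun n => ?_) (cm_hasSum hφ ⟨hr, hrs.trans_lt hs⟩)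
    (cm_hasSum hφ ⟨hr.trans hrs, hs⟩)
  refine mul_le_mul_of_nonneg_left ?_ (by positivity)
  exact mul_le_mul_of_nonneg_left (pow_le_pow_left₀ hr hrs _) (normSq_nonneg _)

/-- The lift of a normalised univalent function. -/
theorem exists_lift {τ : ℝ} (hτ : 0 ≤ τ) {f : ℂ → ℂ} (hf : DifferentiableOn ℂ f (ball 0 1))
    (hinj : InjOn f (ball 0 1)) (hf0 : f 0 = 0) (hf1 : deriv f 0 = 1) :
    ∃ G φ : ℂ → ℂ, IsLift G ∧ DifferentiableOn ℂ φ (ball 0 1) ∧
      (∀ y, 0 < y → hm τ G y = cm φ (Real.exp (-y))) ∧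
      ∀ z ∈ ball (0 : ℂ) 1, (normSq (deriv f z))⁻¹ ^ τ ≤ 16 ^ τ * normSq (φ z) := by
  obtain ⟨hqd, hq1, hfq, hq0⟩ := dslope_univalent hf hinj hf0 hf1
  obtain ⟨L, hLd, hL0, hL⟩ := exists_log hqd hq0 hq1
  set q := dslope f 0 with hq
  have hd : ∀ z ∈ ball (0 : ℂ) 1, deriv f z = q z * (1 + z * deriv L z) := by
    intro z hz
    have hn := isOpen_ball.mem_nhds hz
    have h1 := ((hasDerivAt_id z).fun_mul ((hqd.differentiableAt hn).hasDerivAt))
    have e1 : f =ᶠ[𝓝 z] fun w => id w * q w := eventually_of_mem hn fun w _ => hfq w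
    have e2 : q =ᶠ[𝓝 z] fun w => exp (L w) := eventually_of_mem hn fun w hw => (hL w hw).symm
    have h2 : deriv q z = q z * deriv L z := by
      rw [(((hLd.differentiableAt hn).hasDerivAt).cexp.congr_of_eventuallyEq e2).deriv, hL z hz]
    rw [(h1.congr_of_eventuallyEq e1).deriv, h2]
    simp only [id]
    ring
  have hd0 : ∀ z ∈ ball (0 : ℂ) 1, deriv f z ≠ 0 := fun z hz => deriv_ne_zero hf hinj hz
  set G : ℂ → ℂ := fun ξ => ξ - I * L (exp (I * ξ)) with hG
  have hexp : ∀ ξ ∈ Hp, exp (I * ξ) ∈ ball (0 : ℂ) 1 := fun ξ hξ => by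
    rw [mem_ball_zero_iff, norm_exp]
    refine Real.exp_lt_one_iff.2 ?_
    simpa [mul_re] using (show 0 < ξ.im from hξ)
  have hGd : ∀ ξ ∈ Hp, HasDerivAt G (deriv f (exp (I * ξ)) / q (exp (I * ξ))) ξ := fun ξ hξ => by
    have hz := hexp ξ hξ
    have h1 := (hLd.differentiableAt (isOpen_ball.mem_nhds hz)).hasDerivAt.comp ξ
      (((hasDerivAt_id ξ).const_mul I).cexp)
    refine ((hasDerivAt_id ξ).fun_sub (h1.const_mul I)).congr_deriv ?_
    simp only [id]
    rw [hd _ hz, mul_div_cancel_left₀ _ (hq0 _ hz)]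
    linear_combination (-(exp (I * ξ) * deriv L (exp (I * ξ)))) * Complex.I_sq
  obtain ⟨Λ, hΛd, -, hΛ⟩ := exists_log (q := fun z => q z / deriv f z)
    (hqd.div (hf.deriv isOpen_ball) hd0) (fun z hz => div_ne_zero (hq0 z hz) (hd0 z hz))
    (by rw [hq1, hf1, div_one])
  have hφ : ∀ z ∈ ball (0 : ℂ) 1,
      normSq (exp ((τ : ℂ) * Λ z)) = normSq (q z / deriv f z) ^ τ := fun z hz => by
    rw [← hΛ z hz, normSq_eq_norm_sq, normSq_eq_norm_sq, norm_exp, norm_exp, ← Real.exp_nat_mul,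
      ← Real.exp_nat_mul, ← Real.exp_mul, re_ofReal_mul]
    congr 1
    ring
  refine ⟨G, fun z => exp ((τ : ℂ) * Λ z), ⟨fun ξ hξ => (hGd ξ hξ).differentiableAt.differentiableWithinAt,
    fun ξ hξ η hη e => ?_, fun ξ hξ => ?_, fun ξ _ => ?_⟩,
    (hΛd.const_mul _).cexp, fun y hy => ?_, fun z hz => ?_⟩
  · have key : ∀ ζ ∈ Hp, exp (I * G ζ) = f (exp (I * ζ)) := fun ζ hζ => by
      rw [hfq (exp (I * ζ)), ← hL _ (hexp ζ hζ), ← exp_add]
      congr 1
      simp only [hG]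
      linear_combination (-(L (exp (I * ζ)))) * Complex.I_sq
    have he := hinj (hexp ξ hξ) (hexp η hη) (by rw [← key ξ hξ, ← key η hη, e])
    simp only [hG, he] at e
    exact sub_left_inj.1 e
  · rw [(hGd ξ hξ).deriv]
    exact div_ne_zero (hd0 _ (hexp ξ hξ)) (hq0 _ (hexp ξ hξ))
  · have e : exp (I * (ξ + (2 * Real.pi : ℝ))) = exp (I * ξ) :=
      exp_eq_exp_iff_exists_int.2 ⟨1, by push_cast; ring⟩
    simp only [hG, e]
    ring
  · rw [hm, cm]
    refine intervalIntegral.integral_congr fun x _ => ?_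
    have e : exp (I * ((x : ℂ) + y * I)) = (Real.exp (-y) : ℂ) * exp (x * I) := by
      rw [ofReal_exp, ← exp_add]
      congr 1
      push_cast
      linear_combination (y : ℂ) * Complex.I_sq
    simp only [gs, (hGd _ (mem_line x hy)).deriv, inv_div, e]
    exact (hφ _ (circle_mem ⟨(Real.exp_pos _).le, Real.exp_lt_one_iff.2 (by linarith)⟩ x)).symm
  · have hq4 : (1 : ℝ) / 16 ≤ normSq (q z) := by
      rw [normSq_eq_norm_sq]
      have h : (1 : ℝ) / 4 ≤ ‖q z‖ := by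
        rcases eq_or_ne z 0 with rfl | hne
        · rw [hq1, norm_one]; norm_num
        · have h := norm_ge_quarter hf hinj hf0 hf1 hz
          rw [hfq z, norm_mul] at h
          have := norm_pos_iff.2 hne
          nlinarith
      nlinarith
    rw [hφ z hz, ← Real.mul_rpow (by norm_num) (normSq_nonneg _)]
    refine Real.rpow_le_rpow (inv_nonneg.2 (normSq_nonneg _)) ?_ hτ
    rw [map_div₀, ← mul_div_assoc, inv_eq_one_div,
      div_le_div_iff_of_pos_right (normSq_pos.2 (hd0 z hz))]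
    linarith

/-- The criterion for normalised functions. -/
theorem means_normalised {τ β c : ℝ} {P Q : ℂ × ℂ × ℂ → ℝ} (hτ : 0 ≤ τ) (hβ : 0 < β) (hC : CertT τ β c P Q)
    {f : ℂ → ℂ} (hf : DifferentiableOn ℂ f (ball 0 1)) (hinj : InjOn f (ball 0 1))
    (hf0 : f 0 = 0) (hf1 : deriv f 0 = 1) :
    ∃ K : ℝ, ∀ r : ℝ, 0 ≤ r → r < 1 →
      ∫ x in (-Real.pi)..Real.pi, (normSq (deriv f ((r : ℂ) * exp (x * I))))⁻¹ ^ τ ≤
        K * (1 - r) ^ (-β) := by
  obtain ⟨K₀, hK⟩ := half_plane hβ hC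
  obtain ⟨G, φ, hG, hφ, hmc, hle⟩ := exists_lift hτ hf hinj hf0 hf1
  have hexp1 : ∀ y : ℝ, 0 < y → Real.exp (-y) < 1 := fun y hy => Real.exp_lt_one_iff.2 (by linarith)
  have hanti : AntitoneOn (hm τ G) (Set.Ioi 0) := fun a ha b hb hab => by
    rw [hmc a ha, hmc b hb]
    exact cm_mono hφ (Real.exp_pos _).le (Real.exp_le_exp.2 (by linarith)) (hexp1 a ha)
  set r₀ := Real.exp (-2) with hr₀
  have hr₀1 : r₀ < 1 := hexp1 2 two_pos
  refine ⟨16 ^ τ * |K₀ * hm τ G 1| * (1 - r₀) ^ (-β), fun r hr0 hr1 => ?_⟩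
  set s := max r r₀ with hs
  have hs0 : 0 < s := lt_of_lt_of_le (Real.exp_pos _) (le_max_right _ _)
  have hs1 : s < 1 := max_lt hr1 hr₀1
  set y := -Real.log s with hy
  have hy0 : 0 < y := neg_pos.2 (Real.log_neg hs0 hs1)
  have hy2 : y ≤ 2 := by
    have h := Real.log_le_log (Real.exp_pos (-2)) (le_max_right r r₀)
    rw [Real.log_exp] at h
    rw [hy, hs]; linarith
  have h1 : cm φ s ≤ K₀ * hm τ G 1 * y ^ (-β) := by
    have h := hK G hG hanti y hy0 hy2
    rwa [hmc y hy0, hy, neg_neg, Real.exp_log hs0] at h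
  have hpi : -Real.pi ≤ Real.pi := by linarith [Real.pi_pos]
  have hcirc := circle_mem (r := r) ⟨hr0, hr1⟩
  have hdc : Continuous fun x : ℝ => deriv f ((r : ℂ) * exp (x * I)) :=
    (hf.deriv isOpen_ball).continuousOn.comp_continuous (by fun_prop) hcirc
  have hφc : Continuous fun x : ℝ => φ ((r : ℂ) * exp (x * I)) :=
    hφ.continuousOn.comp_continuous (by fun_prop) hcirc
  have h2 : ∫ x in (-Real.pi)..Real.pi, (normSq (deriv f ((r : ℂ) * exp (x * I))))⁻¹ ^ τ ≤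
      16 ^ τ * cm φ s := by
    calc _ ≤ ∫ x in (-Real.pi)..Real.pi, 16 ^ τ * normSq (φ ((r : ℂ) * exp (x * I))) := by
          refine intervalIntegral.integral_mono_on hpi ?_ ?_ fun x _ => hle _ (hcirc x)
          · exact (((continuous_normSq.comp hdc).inv₀ fun x => (normSq_pos.2
              (deriv_ne_zero hf hinj (hcirc x))).ne').rpow_const fun _ => Or.inr hτ).intervalIntegrable _ _
          · exact (continuous_const.mul (continuous_normSq.comp hφc)).intervalIntegrable _ _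
      _ = 16 ^ τ * cm φ r := by rw [intervalIntegral.integral_const_mul, cm]
      _ ≤ _ := mul_le_mul_of_nonneg_left (cm_mono hφ hr0 (le_max_left _ _) hs1) (by positivity)
  have hy1 : (1 - r) * (1 - r₀) ≤ y := by
    have h := Real.log_le_sub_one_of_pos hs0
    rcases le_total r r₀ with q | q
    · have : s = r₀ := max_eq_right q
      nlinarith
    · have : s = r := max_eq_left q
      have := (Real.exp_pos (-2) : 0 < r₀)
      nlinarith
  have h3 : y ^ (-β) ≤ (1 - r) ^ (-β) * (1 - r₀) ^ (-β) := by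
    rw [← Real.mul_rpow (by linarith) (by linarith)]
    exact Real.rpow_le_rpow_of_nonpos (mul_pos (by linarith) (by linarith)) hy1 (by linarith)
  calc _ ≤ 16 ^ τ * cm φ s := h2
    _ ≤ 16 ^ τ * (K₀ * hm τ G 1 * y ^ (-β)) := mul_le_mul_of_nonneg_left h1 (by positivity)
    _ ≤ 16 ^ τ * (|K₀ * hm τ G 1| * y ^ (-β)) :=
        mul_le_mul_of_nonneg_left (mul_le_mul_of_nonneg_right (le_abs_self _)
          (Real.rpow_nonneg hy0.le _)) (by positivity)
    _ ≤ 16 ^ τ * (|K₀ * hm τ G 1| * ((1 - r) ^ (-β) * (1 - r₀) ^ (-β))) :=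
        mul_le_mul_of_nonneg_left (mul_le_mul_of_nonneg_left h3 (abs_nonneg _)) (by positivity)
    _ = _ := by ring

/-- The criterion: a certificate at `β` bounds the integral means of `1 / |f'| ^ 2` by
`(1 - r) ^ (-β)` for every univalent function on the disk. -/
theorem means_bound {τ β c : ℝ} {P Q : ℂ × ℂ × ℂ → ℝ} (hτ : 0 ≤ τ) (hβ : 0 < β) (hC : CertT τ β c P Q)
    {f : ℂ → ℂ} (hf : DifferentiableOn ℂ f (ball 0 1)) (hinj : InjOn f (ball 0 1)) :
    (∀ z ∈ ball (0 : ℂ) 1, deriv f z ≠ 0) ∧ ∃ K : ℝ, ∀ r : ℝ, 0 ≤ r → r < 1 →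
      ∫ x in (-Real.pi)..Real.pi, (normSq (deriv f ((r : ℂ) * exp (x * I))))⁻¹ ^ τ ≤
        K * (1 - r) ^ (-β) := by
  have hd0 : ∀ z ∈ ball (0 : ℂ) 1, deriv f z ≠ 0 := fun z hz => deriv_ne_zero hf hinj hz
  refine ⟨hd0, ?_⟩
  have hd : deriv f 0 ≠ 0 := hd0 0 (mem_ball_self one_pos)
  set F : ℂ → ℂ := fun z => (f z - f 0) / deriv f 0 with hF
  have hFd : DifferentiableOn ℂ F (ball 0 1) := (hf.sub_const _).div_const _
  have hFi : InjOn F (ball 0 1) := fun x hx y hy e =>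
    hinj hx hy (sub_left_inj.1 ((div_left_inj' hd).1 e))
  have hFderiv : ∀ z ∈ ball (0 : ℂ) 1, deriv F z = deriv f z / deriv f 0 := fun z hz =>
    (((hf.differentiableAt (isOpen_ball.mem_nhds hz)).hasDerivAt.sub_const _).div_const _).deriv
  obtain ⟨K, hK⟩ := means_normalised hτ hβ hC hFd hFi (by simp [hF])
    (by rw [hFderiv 0 (mem_ball_self one_pos), div_self hd])
  refine ⟨(normSq (deriv f 0))⁻¹ ^ τ * K, fun r hr0 hr1 => ?_⟩
  have h := mul_le_mul_of_nonneg_left (hK r hr0 hr1)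
    (Real.rpow_nonneg (inv_nonneg.2 (normSq_nonneg (deriv f 0))) τ)
  rw [← intervalIntegral.integral_const_mul, ← mul_assoc] at h
  refine le_of_eq_of_le (intervalIntegral.integral_congr fun x _ => ?_) h
  rw [hFderiv _ (circle_mem ⟨hr0, hr1⟩ x), ← Real.mul_rpow (inv_nonneg.2 (normSq_nonneg _))
    (inv_nonneg.2 (normSq_nonneg _)), map_div₀, inv_div, ← mul_div_assoc,
    inv_mul_cancel₀ (normSq_pos.2 hd).ne', one_div]

end

end Vale.Agent.P142.Flux
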