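import Vale.Agent.P142.Flux.Corollary

/-!
The integrability bound in the form of Brennan: powers of the derivative of a conformal bijection
from a domain to the disk.
-/

open Complex Set Metric MeasureTheory Filter Topology Vale.Agent.P142.Area

namespace Vale.Agent.P142.Flux

noncomputable section

theorem deriv_ne_zero_open {W : Set ℂ} (hW : IsOpen W) {φ : ℂ → ℂ} (hφ : DifferentiableOn ℂ φ W)
    (hinj : InjOn φ W) {w : ℂ} (hw : w ∈ W) : deriv φ w ≠ 0 := by
  obtain ⟨δ, hδ, hδW⟩ := Metric.isOpen_iff.1 hW w hw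
  have hin : ∀ u ∈ ball (0 : ℂ) 1, w + (δ : ℂ) * u ∈ W := fun u hu => hδW (by
    rw [mem_ball_zero_iff] at hu
    rw [Metric.mem_ball, dist_eq_norm, add_sub_cancel_left, norm_mul, Complex.norm_real,
      Real.norm_eq_abs, abs_of_pos hδ]
    exact mul_lt_of_lt_one_right hδ hu)
  have hδ0 : (δ : ℂ) ≠ 0 := Complex.ofReal_ne_zero.2 hδ.ne'
  intro hd
  refine deriv_ne_zero (f := fun u => φ (w + (δ : ℂ) * u))
    (hφ.comp ((differentiableOn_const _).add
      ((differentiableOn_const _).mul differentiable_fun_id.differentiableOn)) hin)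
    (fun x hx y hy e => mul_left_cancel₀ hδ0 (add_left_cancel (hinj (hin x hx) (hin y hy) e)))
    (mem_ball_self one_pos) ?_
  have h1 : HasDerivAt φ (deriv φ w) (w + (δ : ℂ) * 0) := by
    rw [mul_zero, add_zero]
    exact (hφ.differentiableAt (hW.mem_nhds hw)).hasDerivAt
  have h2 := h1.comp 0 (((hasDerivAt_id (0 : ℂ)).const_mul (δ : ℂ)).const_add w)
  rw [hd, zero_mul] at h2
  exact h2.deriv

/-- The inverse of a holomorphic bijection of open sets has the reciprocal derivative. -/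
theorem hasDerivAt_invFunOn {W : Set ℂ} (hW : IsOpen W) {φ : ℂ → ℂ} (hφ : DifferentiableOn ℂ φ W)
    (hinj : InjOn φ W) {w : ℂ} (hw : w ∈ W) :
    HasDerivAt (Function.invFunOn φ W) (deriv φ w)⁻¹ (φ w) := by
  have hd := deriv_ne_zero_open hW hφ hinj hw
  have hs : HasStrictDerivAt φ (deriv φ w) w :=
    ((hφ.analyticAt (hW.mem_nhds hw)).contDiffAt).hasStrictDerivAt (n := 1) one_ne_zero
  refine (hs.to_local_left_inverse hd ?_).hasDerivAt
  filter_upwards [hW.mem_nhds hw] with x hx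
  exact hinj.leftInvOn_invFunOn hx

/-- For `2 ≤ s < 2 + 2 τ / β` the power `s` of the derivative of a conformal bijection of an open
set onto the disk is area integrable. -/
theorem integrable_domain {τ β c : ℝ} {P Q : ℂ × ℂ × ℂ → ℝ} (hτ : 0 < τ) (hβ : 1 ≤ β)
    (hC : CertT τ β c P Q) {W : Set ℂ} (hW : IsOpen W) {φ : ℂ → ℂ}
    (hφ : DifferentiableOn ℂ φ W) (hb : BijOn φ W (ball (0 : ℂ) 1)) {s : ℝ} (hs : 2 ≤ s)
    (hs' : s < 2 + 2 * τ / β) :
    IntegrableOn (fun z => ‖deriv φ z‖ ^ s) W := by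
  set g := Function.invFunOn φ W with hg
  have hgW : MapsTo g (ball (0 : ℂ) 1) W := fun z hz => Function.invFunOn_mem (hb.surjOn hz)
  have hφg : ∀ z ∈ ball (0 : ℂ) 1, φ (g z) = z := fun z hz => Function.invFunOn_eq (hb.surjOn hz)
  have hgd : ∀ z ∈ ball (0 : ℂ) 1, HasDerivAt g (deriv φ (g z))⁻¹ z := fun z hz => by
    have h := hasDerivAt_invFunOn hW hφ hb.injOn (hgW hz)
    rwa [hφg z hz] at h
  have hgdiff : DifferentiableOn ℂ g (ball 0 1) := fun z hz =>
    (hgd z hz).differentiableAt.differentiableWithinAt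
  have hginj : InjOn g (ball 0 1) := fun x hx y hy e => by rw [← hφg x hx, ← hφg y hy, e]
  have himg : g '' ball (0 : ℂ) 1 = W :=
    (hgW.image_subset).antisymm fun w hw =>
      ⟨φ w, hb.mapsTo hw, hb.injOn.leftInvOn_invFunOn hw⟩
  rw [← himg, integrableOn_image_iff_integrableOn_abs_det_fderiv_smul volume measurableSet_ball
    (fun z hz => (hgd z hz).hasDerivWithinAt.complexToReal_fderiv) hginj]
  refine (integrable_power hτ hβ hC hgdiff hginj (t := 2 - s) (by linarith) (by linarith)).congr_fun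
    (fun z hz => ?_) measurableSet_ball
  have hne : deriv φ (g z) ≠ 0 := deriv_ne_zero_open hW hφ hb.injOn (hgW hz)
  have hn : 0 < ‖deriv φ (g z)‖ := norm_pos_iff.2 hne
  simp only [det_mul_complex, abs_of_nonneg (normSq_nonneg _), (hgd z hz).deriv, smul_eq_mul,
    normSq_eq_norm_sq, norm_inv]
  rw [Real.inv_rpow hn.le, ← Real.rpow_neg hn.le, inv_pow, ← Real.rpow_natCast _ 2,
    ← Real.rpow_neg hn.le, abs_of_nonneg (Real.rpow_nonneg hn.le _), ← Real.rpow_add hn]
  congr 1
  push_cast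
  ring

end

end Vale.Agent.P142.Flux
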