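import Vale.Agent.P142.Flux.Pins

/-!
Jets of a univalent map of the upper half plane: their values through the Koebe transform and
their derivatives.
-/

open Complex Set Metric Finset Filter Topology Vale.Agent.P142.Area

namespace Vale.Agent.P142.Flux

noncomputable section

/-- The upper half plane as a set. -/
def Hp : Set ℂ := {ξ | 0 < ξ.im}

theorem isOpen_Hp : IsOpen Hp := isOpen_lt continuous_const continuous_im

/-- The pre-Schwarzian. -/
def psi (G : ℂ → ℂ) (ξ : ℂ) : ℂ := deriv (deriv G) ξ / deriv G ξ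

/-- The Schwarzian. -/
def sch (G : ℂ → ℂ) (ξ : ℂ) : ℂ := deriv (psi G) ξ - psi G ξ ^ 2 / 2

/-- The jets of `G` at `ξ`. -/
def Vj (G : ℂ → ℂ) (ξ : ℂ) : ℂ × ℂ × ℂ :=
  (I * ξ.im * psi G ξ, -2 / 3 * (ξ.im : ℂ) ^ 2 * sch G ξ,
    -2 / 3 * (ξ.im : ℂ) ^ 2 * sch G ξ - I / 3 * (ξ.im : ℂ) ^ 3 * deriv (sch G) ξ)

/-- Horizontal derivative of the jets. -/
def Vjx (G : ℂ → ℂ) (ξ : ℂ) : ℂ × ℂ × ℂ :=
  (I * ξ.im * deriv (psi G) ξ, -2 / 3 * (ξ.im : ℂ) ^ 2 * deriv (sch G) ξ,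
    -2 / 3 * (ξ.im : ℂ) ^ 2 * deriv (sch G) ξ - I / 3 * (ξ.im : ℂ) ^ 3 * deriv (deriv (sch G)) ξ)

/-- Vertical derivative of the jets. -/
def Vjy (G : ℂ → ℂ) (ξ : ℂ) : ℂ × ℂ × ℂ :=
  (I * psi G ξ - ξ.im * deriv (psi G) ξ,
    -4 / 3 * (ξ.im : ℂ) * sch G ξ - 2 / 3 * I * (ξ.im : ℂ) ^ 2 * deriv (sch G) ξ,
    -4 / 3 * (ξ.im : ℂ) * sch G ξ - 5 / 3 * I * (ξ.im : ℂ) ^ 2 * deriv (sch G) ξ +
      1 / 3 * (ξ.im : ℂ) ^ 3 * deriv (deriv (sch G)) ξ)

variable {G : ℂ → ℂ}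

theorem diff_deriv (hG : DifferentiableOn ℂ G Hp) : DifferentiableOn ℂ (deriv G) Hp :=
  hG.deriv isOpen_Hp

theorem diff_psi (hG : DifferentiableOn ℂ G Hp) (h1 : ∀ ξ ∈ Hp, deriv G ξ ≠ 0) :
    DifferentiableOn ℂ (psi G) Hp :=
  ((diff_deriv hG).deriv isOpen_Hp).div (diff_deriv hG) h1

theorem diff_sch (hG : DifferentiableOn ℂ G Hp) (h1 : ∀ ξ ∈ Hp, deriv G ξ ≠ 0) :
    DifferentiableOn ℂ (sch G) Hp :=
  ((diff_psi hG h1).deriv isOpen_Hp).sub (((diff_psi hG h1).pow 2).div_const 2)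

theorem hasDerivAt_of_diff {F : ℂ → ℂ} (hF : DifferentiableOn ℂ F Hp) {ξ : ℂ} (hξ : ξ ∈ Hp) :
    HasDerivAt F (deriv F ξ) ξ :=
  (hF.differentiableAt (isOpen_Hp.mem_nhds hξ)).hasDerivAt

theorem deriv_sch (hG : DifferentiableOn ℂ G Hp) (h1 : ∀ ξ ∈ Hp, deriv G ξ ≠ 0) {ξ : ℂ}
    (hξ : ξ ∈ Hp) :
    deriv (sch G) ξ = deriv (deriv (psi G)) ξ - psi G ξ * deriv (psi G) ξ := by
  have a := hasDerivAt_of_diff ((diff_psi hG h1).deriv isOpen_Hp) hξ
  have b := hasDerivAt_of_diff (diff_psi hG h1) hξ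
  refine ((a.fun_sub ((b.fun_pow 2).div_const 2)).congr_deriv ?_).deriv
  push_cast; ring

theorem deriv2_sch (hG : DifferentiableOn ℂ G Hp) (h1 : ∀ ξ ∈ Hp, deriv G ξ ≠ 0) {ξ : ℂ}
    (hξ : ξ ∈ Hp) :
    deriv (deriv (sch G)) ξ = deriv (deriv (deriv (psi G))) ξ -
      (deriv (psi G) ξ * deriv (psi G) ξ + psi G ξ * deriv (deriv (psi G)) ξ) := by
  have hd1 := (diff_psi hG h1).deriv isOpen_Hp
  have a := hasDerivAt_of_diff (hd1.deriv isOpen_Hp) hξ
  have b := hasDerivAt_of_diff (diff_psi hG h1) hξ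
  have c := hasDerivAt_of_diff hd1 hξ
  refine ((a.fun_sub (b.fun_mul c)).congr_of_eventuallyEq ?_).deriv
  exact eventually_of_mem (isOpen_Hp.mem_nhds hξ) fun η hη => deriv_sch hG h1 hη

/-- The higher derivatives in terms of the pre-Schwarzian. -/
theorem higher (hG : DifferentiableOn ℂ G Hp) (h1 : ∀ ξ ∈ Hp, deriv G ξ ≠ 0) {ξ : ℂ}
    (hξ : ξ ∈ Hp) :
    deriv (deriv G) ξ = psi G ξ * deriv G ξ ∧
    deriv (deriv (deriv G)) ξ = (deriv (psi G) ξ + psi G ξ ^ 2) * deriv G ξ ∧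
    deriv (deriv (deriv (deriv G))) ξ = (deriv (deriv (psi G)) ξ + 3 * psi G ξ * deriv (psi G) ξ +
      psi G ξ ^ 3) * deriv G ξ ∧
    deriv (deriv (deriv (deriv (deriv G)))) ξ = (deriv (deriv (deriv (psi G))) ξ +
      4 * psi G ξ * deriv (deriv (psi G)) ξ + 3 * deriv (psi G) ξ ^ 2 +
      6 * psi G ξ ^ 2 * deriv (psi G) ξ + psi G ξ ^ 4) * deriv G ξ := by
  have hp0 := diff_psi hG h1
  have hp1 := hp0.deriv isOpen_Hp
  have hp2 := hp1.deriv isOpen_Hp
  have hd := diff_deriv hG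
  have e2 : ∀ η ∈ Hp, deriv (deriv G) η = psi G η * deriv G η := fun η hη => by
    rw [psi, div_mul_cancel₀ _ (h1 η hη)]
  have e3 : ∀ η ∈ Hp, deriv (deriv (deriv G)) η =
      (deriv (psi G) η + psi G η ^ 2) * deriv G η := fun η hη => by
    have h := ((hasDerivAt_of_diff hp0 hη).fun_mul (hasDerivAt_of_diff hd hη)).congr_of_eventuallyEq
      (eventually_of_mem (isOpen_Hp.mem_nhds hη) e2)
    rw [h.deriv, e2 η hη]; ring
  have e4 : ∀ η ∈ Hp, deriv (deriv (deriv (deriv G))) η =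
      (deriv (deriv (psi G)) η + 3 * psi G η * deriv (psi G) η + psi G η ^ 3) * deriv G η :=
    fun η hη => by
      have h := (((hasDerivAt_of_diff hp1 hη).fun_add ((hasDerivAt_of_diff hp0 hη).fun_pow 2)).fun_mul
        (hasDerivAt_of_diff hd hη)).congr_of_eventuallyEq
        (eventually_of_mem (isOpen_Hp.mem_nhds hη) e3)
      rw [h.deriv, e2 η hη]; push_cast; ring
  refine ⟨e2 ξ hξ, e3 ξ hξ, e4 ξ hξ, ?_⟩
  have h := ((((hasDerivAt_of_diff hp2 hξ).fun_add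
      (((hasDerivAt_of_diff hp0 hξ).const_mul 3).fun_mul (hasDerivAt_of_diff hp1 hξ))).fun_add
      ((hasDerivAt_of_diff hp0 hξ).fun_pow 3)).fun_mul
    (hasDerivAt_of_diff hd hξ)).congr_of_eventuallyEq
    (eventually_of_mem (isOpen_Hp.mem_nhds hξ) e4)
  rw [h.deriv, e2 ξ hξ]; push_cast; ring

theorem tc_cauchy (n : ℕ) : tc (fun z : ℂ => (1 - z)⁻¹) n = 1 := by
  have hu : DifferentiableOn ℂ (fun z : ℂ => (1 - z)⁻¹) (ball 0 1) :=
    ((differentiableOn_const _).sub differentiable_fun_id.differentiableOn).fun_inv fun z hz h => by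
      rw [sub_eq_zero] at h
      rw [mem_ball_zero_iff, ← h] at hz
      simp at hz
  induction n with
  | zero => simp [tc_zero]
  | succ n ih =>
    have h : tc (fun z : ℂ => (1 - z)⁻¹) (n + 1) = tc (fun z => 1 + z * (1 - z)⁻¹) (n + 1) :=
      tc_congr (fun z hz => by
        have : (1 : ℂ) - z ≠ 0 := fun e => by
          rw [sub_eq_zero] at e; rw [mem_ball_zero_iff, ← e] at hz; simp at hz
        field_simp; ring) _
    rw [h, tc_add (differentiableOn_const _) (differentiable_fun_id.differentiableOn.fun_mul hu),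
      tc_const, if_neg n.succ_ne_zero, zero_add,
      tc_mul differentiable_fun_id.differentiableOn hu, sum_eq_single 1]
    · simp [tc_id, ih]
    · intro i _ hi; simp [tc_id, hi]
    · simp

/-- At each point the jets are the coefficients of a normalised univalent function. -/
theorem exists_body (hG : DifferentiableOn ℂ G Hp) (hinj : InjOn G Hp)
    (h1 : ∀ ξ ∈ Hp, deriv G ξ ≠ 0) {ξ : ℂ} (hξ : ξ ∈ Hp) :
    ∃ a : ℕ → ℂ, Body a ∧ jetv a = Vj G ξ ∧ jety a = ξ.im • Vjy G ξ ∧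
      jetx a = ξ.im • Vjx G ξ := by
  set y : ℝ := ξ.im with hy
  have hy0 : 0 < y := hξ
  have hyC : (y : ℂ) ≠ 0 := ofReal_ne_zero.2 hy0.ne'
  set c : ℂ := 2 * I * y with hc
  have hc0 : c ≠ 0 := mul_ne_zero (mul_ne_zero two_ne_zero I_ne_zero) hyC
  have hne : ∀ z ∈ ball (0 : ℂ) 1, (1 : ℂ) - z ≠ 0 := fun z hz e => by
    rw [sub_eq_zero] at e; rw [mem_ball_zero_iff, ← e] at hz; simp at hz
  set u : ℂ → ℂ := fun z => (1 - z)⁻¹ with hu
  have hud : DifferentiableOn ℂ u (ball 0 1) :=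
    ((differentiableOn_const _).sub differentiable_fun_id.differentiableOn).fun_inv hne
  set m : ℂ → ℂ := fun z => ξ + c * (z * u z) with hm
  have hmem : ∀ z ∈ ball (0 : ℂ) 1, m z ∈ Hp := fun z hz => by
    have hz1 : ‖z‖ < 1 := mem_ball_zero_iff.1 hz
    have hn : normSq z < 1 := by
      rw [normSq_eq_norm_sq]; exact pow_lt_one₀ (norm_nonneg z) hz1 two_ne_zero
    have hq : 0 < normSq (1 - z) := normSq_pos.2 (hne z hz)
    have hexp : normSq (1 - z) = 1 - 2 * z.re + normSq z := by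
      simp [normSq_apply]; ring
    have hre : (z * u z).re = (z.re - normSq z) / normSq (1 - z) := by
      simp [hu, mul_re, inv_re, inv_im]
      rw [normSq_apply z]
      ring
    have hval : (m z).im = y * ((1 - normSq z) / normSq (1 - z)) := by
      have e1 : (m z).im = y + 2 * y * (z * u z).re := by
        simp [hm, hc, hy, mul_im, mul_re]
      rw [e1, hre]
      field_simp
      rw [hexp]; ring
    change 0 < (m z).im
    rw [hval]
    exact mul_pos hy0 (div_pos (by linarith) hq)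
  have hmd : ∀ z ∈ ball (0 : ℂ) 1, HasDerivAt m (c * (u z * u z)) z := fun z hz => by
    have h := ((hasDerivAt_id z).fun_mul (((hasDerivAt_id z).const_sub 1).fun_inv (hne z hz)))
    refine ((h.const_mul c).const_add ξ).congr_deriv ?_
    have := hne z hz
    simp only [hu, id]
    field_simp
    ring
  have hmdo : DifferentiableOn ℂ m (ball 0 1) := fun z hz =>
    (hmd z hz).differentiableAt.differentiableWithinAt
  set d : ℂ := c * deriv G ξ with hd
  have hd0 : d ≠ 0 := mul_ne_zero hc0 (h1 ξ hξ)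
  set h : ℂ → ℂ := fun z => d⁻¹ * (G (m z) + -G ξ) with hh
  have hm0 : m 0 = ξ := by simp [hm]
  have hhd : DifferentiableOn ℂ h (ball 0 1) :=
    (differentiableOn_const _).fun_mul
      ((hG.comp hmdo hmem).fun_add (differentiableOn_const _))
  have hhi : InjOn h (ball 0 1) := by
    intro x hx y' hy' e
    have e1 : G (m x) = G (m y') := add_right_cancel (mul_left_cancel₀ (inv_ne_zero hd0) e)
    have e2 := hinj (hmem x hx) (hmem y' hy') e1
    have e3 : x * u x = y' * u y' := mul_left_cancel₀ hc0 (add_left_cancel e2)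
    have := hne x hx; have := hne y' hy'
    simp only [hu] at e3
    field_simp at e3
    linear_combination e3
  have hh0 : h 0 = 0 := by simp [hh, hm0]
  have hG1 := hasDerivAt_of_diff hG hξ
  have hhd1 : deriv h 0 = 1 := by
    have h2 := hmd 0 (mem_ball_self one_pos)
    have h3 : HasDerivAt G (deriv G ξ) (m 0) := by rw [hm0]; exact hG1
    refine ((((h3.comp 0 h2).add_const (-G ξ)).const_mul d⁻¹).congr_deriv ?_).deriv
    simp only [hu, sub_zero, inv_one, mul_one]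
    rw [mul_comm (deriv G ξ) c, ← hd, inv_mul_cancel₀ hd0]
  refine ⟨tc h, body_of_univalent hhd hhi hh0 hhd1, ?_⟩
  -- Taylor coefficients of the compositions
  have htu : ∀ n, tc (fun z => c * (u z * u z)) n = c * ((n : ℂ) + 1) := fun n => by
    rw [tc_const_mul, tc_mul hud hud]
    simp [hu, tc_cauchy]
  have hp2 : DifferentiableOn ℂ (fun z => c * (u z * u z)) (ball 0 1) :=
    (differentiableOn_const _).fun_mul (hud.fun_mul hud)
  have hrec : ∀ {F : ℂ → ℂ}, DifferentiableOn ℂ F Hp → ∀ n : ℕ,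
      ((n : ℂ) + 1) * tc (fun z => F (m z)) (n + 1) =
        ∑ i ∈ range (n + 1), tc (fun z => deriv F (m z)) i * (c * (((n - i : ℕ) : ℂ) + 1)) := by
    intro F hF n
    have hFd : DifferentiableOn ℂ (fun z => deriv F (m z)) (ball 0 1) :=
      (hF.deriv isOpen_Hp).comp hmdo hmem
    have e : ∀ z ∈ ball (0 : ℂ) 1, deriv (fun z => F (m z)) z =
        deriv F (m z) * (c * (u z * u z)) := fun z hz =>
      ((hasDerivAt_of_diff hF (hmem z hz)).comp z (hmd z hz)).deriv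
    have e2 := tc_deriv (fun z => F (m z)) n
    rw [tc_congr e n, tc_mul hFd hp2] at e2
    simp only [htu] at e2
    push_cast at e2
    rw [← e2]
  have hG' := diff_deriv hG
  have hG'' := hG'.deriv isOpen_Hp
  have hG3 := hG''.deriv isOpen_Hp
  have hG4 := hG3.deriv isOpen_Hp
  have z0 : ∀ F : ℂ → ℂ, tc (fun z => F (m z)) 0 = F ξ := fun F => by simp [tc_zero, hm0]
  have one' : ∀ {F : ℂ → ℂ}, DifferentiableOn ℂ F Hp →
      tc (fun z => F (m z)) 1 = c * deriv F ξ := fun hF => by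
    have h := hrec hF 0
    simp [sum_range_succ, z0] at h
    rw [h]; ring
  have two' : ∀ {F : ℂ → ℂ}, DifferentiableOn ℂ F Hp →
      tc (fun z => F (m z)) 2 = c * deriv F ξ + c ^ 2 / 2 * deriv (deriv F) ξ := fun hF => by
    have h := hrec hF 1
    simp [sum_range_succ, z0, one' (hF.deriv isOpen_Hp)] at h
    linear_combination (1 / 2 : ℂ) * h
  have three' : ∀ {F : ℂ → ℂ}, DifferentiableOn ℂ F Hp →
      tc (fun z => F (m z)) 3 = c * deriv F ξ + c ^ 2 * deriv (deriv F) ξ +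
        c ^ 3 / 6 * deriv (deriv (deriv F)) ξ := fun hF => by
    have h := hrec hF 2
    simp [sum_range_succ, z0, one' (hF.deriv isOpen_Hp), two' (hF.deriv isOpen_Hp)] at h
    linear_combination (1 / 3 : ℂ) * h
  have four' : ∀ {F : ℂ → ℂ}, DifferentiableOn ℂ F Hp →
      tc (fun z => F (m z)) 4 = c * deriv F ξ + 3 * c ^ 2 / 2 * deriv (deriv F) ξ +
        c ^ 3 / 2 * deriv (deriv (deriv F)) ξ + c ^ 4 / 24 * deriv (deriv (deriv (deriv F))) ξ :=
    fun hF => by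
      have h := hrec hF 3
      simp [sum_range_succ, z0, one' (hF.deriv isOpen_Hp), two' (hF.deriv isOpen_Hp),
        three' (hF.deriv isOpen_Hp)] at h
      linear_combination (1 / 4 : ℂ) * h
  have five' : ∀ {F : ℂ → ℂ}, DifferentiableOn ℂ F Hp →
      tc (fun z => F (m z)) 5 = c * deriv F ξ + 2 * c ^ 2 * deriv (deriv F) ξ +
        c ^ 3 * deriv (deriv (deriv F)) ξ + c ^ 4 / 6 * deriv (deriv (deriv (deriv F))) ξ +
        c ^ 5 / 120 * deriv (deriv (deriv (deriv (deriv F)))) ξ := fun hF => by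
    have h := hrec hF 4
    simp [sum_range_succ, z0, one' (hF.deriv isOpen_Hp), two' (hF.deriv isOpen_Hp),
      three' (hF.deriv isOpen_Hp), four' (hF.deriv isOpen_Hp)] at h
    linear_combination (1 / 5 : ℂ) * h
  have hth : ∀ n, n ≠ 0 → tc h n = d⁻¹ * tc (fun z => G (m z)) n := fun n hn => by
    have hGm : DifferentiableOn ℂ (fun z => G (m z)) (ball 0 1) := hG.comp hmdo hmem
    simp only [hh]
    rw [tc_const_mul, tc_add hGm (differentiableOn_const _), tc_const, if_neg hn, add_zero]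
  obtain ⟨d2, d3, d4, d5⟩ := higher hG h1 hξ
  set p0 := psi G ξ
  set p1 := deriv (psi G) ξ
  set p2 := deriv (deriv (psi G)) ξ
  set p3 := deriv (deriv (deriv (psi G))) ξ
  have hD : deriv G ξ ≠ 0 := h1 ξ hξ
  have a2 : tc h 2 = 1 + c / 2 * p0 := by
    rw [hth 2 two_ne_zero, two' hG, d2, hd]; field_simp
  have a3 : tc h 3 = 1 + c * p0 + c ^ 2 / 6 * (p1 + p0 ^ 2) := by
    rw [hth 3 (by norm_num), three' hG, d2, d3, hd]; field_simp
  have a4 : tc h 4 = 1 + 3 * c / 2 * p0 + c ^ 2 / 2 * (p1 + p0 ^ 2) +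
      c ^ 3 / 24 * (p2 + 3 * p0 * p1 + p0 ^ 3) := by
    rw [hth 4 (by norm_num), four' hG, d2, d3, d4, hd]; field_simp
  have a5 : tc h 5 = 1 + 2 * c * p0 + c ^ 2 * (p1 + p0 ^ 2) +
      c ^ 3 / 6 * (p2 + 3 * p0 * p1 + p0 ^ 3) +
      c ^ 4 / 120 * (p3 + 4 * p0 * p2 + 3 * p1 ^ 2 + 6 * p0 ^ 2 * p1 + p0 ^ 4) := by
    rw [hth 5 (by norm_num), five' hG, d2, d3, d4, d5, hd]; field_simp
  have s0 : sch G ξ = p1 - p0 ^ 2 / 2 := rfl
  have s1 : deriv (sch G) ξ = p2 - p0 * p1 := deriv_sch hG h1 hξ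
  have s2 : deriv (deriv (sch G)) ξ = p3 - (p1 * p1 + p0 * p2) := deriv2_sch hG h1 hξ
  have hI := Complex.I_sq
  have hI3 : I ^ 3 = -I := by linear_combination I * hI
  have hI4 : I ^ 4 = 1 := by linear_combination (I ^ 2 - 1) * hI
  refine ⟨?_, ?_, ?_⟩
  · simp only [jetv, Vj, ← hy, g11, g12, a2, a3, a4, hc, s0, s1, Prod.mk.injEq]
    refine ⟨?_, ?_, ?_⟩ <;> ring_nf <;> (try simp only [hI, hI3]) <;> ring
  · simp only [jety, Vjy, ← hy, g11, g12, g22, a2, a3, a4, a5, hc, s0, s1, s2, Prod.smul_mk,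
      Complex.real_smul, Prod.mk.injEq]
    refine ⟨?_, ?_, ?_⟩ <;> ring_nf <;> (try simp only [hI, hI3, hI4]) <;> ring
  · simp only [jetx, jetv, jety, Vjx, ← hy, g11, g12, g22, a2, a3, a4, a5, hc, s0, s1, s2,
      Prod.smul_mk, Complex.real_smul, Prod.mk.injEq]
    have hI5 : I ^ 5 = I := by linear_combination I * hI4
    refine ⟨?_, ?_, ?_⟩ <;> ring_nf <;> (try simp only [hI, hI3, hI4, hI5]) <;> ring

end

end Vale.Agent.P142.Flux
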