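import Vale.Agent.P142.Area.Odd

/-!
The pointwise hypothesis of the flux criterion: the body cut out by the area theorem in the second
to fifth Taylor coefficients, and the flux density of a pair of functions of three jets.
-/

open Complex Vale.Agent.P142.Area

namespace Vale.Agent.P142.Flux

noncomputable section

/-- Necessary conditions on the coefficients `a 2, ..., a 5` of a normalised univalent function. -/
def Body (a : ℕ → ℂ) : Prop :=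
  ‖a 2‖ ≤ 2 ∧
  (∀ x₁ x₂ : ℂ, normSq (g11 a * x₁ + g12 a * x₂) + 2 * normSq (g12 a * x₁ + g22 a * x₂) ≤
    normSq x₁ + normSq x₂ / 2) ∧
  normSq (g11 a) + 2 * normSq (g12 a) + 3 * normSq (g13 a) ≤ 1 ∧
  (∀ x₁ x₃ : ℂ, normSq (o11 a * x₁ + o13 a * x₃) + 3 * normSq (o13 a * x₁ + o33 a * x₃) +
    5 * normSq (o15 a * x₁ + o35 a * x₃) ≤ normSq x₁ + normSq x₃ / 3) ∧
  normSq (o11 a) + 3 * normSq (o13 a) + 5 * normSq (o15 a) + 7 * normSq (o17 a) ≤ 1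

/-- The three jets: the pre-Schwarzian, the first and the mixed Grunsky coefficient. -/
def jetv (a : ℕ → ℂ) : ℂ × ℂ × ℂ := (a 2 - 1, g11 a, g12 a)

/-- The scaled vertical derivative of the jets. -/
def jety (a : ℕ → ℂ) : ℂ × ℂ × ℂ :=
  ((3 * g11 a + a 2 ^ 2 - 1) / 2, 2 * g12 a,
    5 / 2 * g22 a + 3 / 4 * g11 a ^ 2 - 1 / 2 * g11 a)

/-- The scaled horizontal derivative of the jets. -/
def jetx (a : ℕ → ℂ) : ℂ × ℂ × ℂ :=
  (-I * ((jety a).1 - (jetv a).1), -I * (2 * g12 a - 2 * g11 a),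
    -I * ((jety a).2.2 - 3 * g12 a + g11 a))

/-- The flux density. -/
def energy (β : ℝ) (P Q : ℂ × ℂ × ℂ → ℝ) (a : ℕ → ℂ) : ℝ :=
  fderiv ℝ P (jetv a) (jety a) + (β - 2 * (a 2 - 1).re) * P (jetv a) +
    (fderiv ℝ Q (jetv a) (jetx a) - 2 * (a 2).im * Q (jetv a))

/-- The pointwise certificate. -/
def Cert (β c : ℝ) (P Q : ℂ × ℂ × ℂ → ℝ) : Prop :=
  ContDiff ℝ 1 P ∧ ContDiff ℝ 1 Q ∧ 0 < c ∧ ∀ a, Body a → c ≤ energy β P Q a

/-- The flux density for the weight `|1 / G'| ^ (2 τ)`. -/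
def energyT (τ β : ℝ) (P Q : ℂ × ℂ × ℂ → ℝ) (a : ℕ → ℂ) : ℝ :=
  fderiv ℝ P (jetv a) (jety a) + (β - 2 * τ * (a 2 - 1).re) * P (jetv a) +
    (fderiv ℝ Q (jetv a) (jetx a) - 2 * τ * (a 2).im * Q (jetv a))

/-- The pointwise certificate for the power `-2 τ` of the derivative. -/
def CertT (τ β c : ℝ) (P Q : ℂ × ℂ × ℂ → ℝ) : Prop :=
  ContDiff ℝ 1 P ∧ ContDiff ℝ 1 Q ∧ 0 < c ∧ ∀ a, Body a → c ≤ energyT τ β P Q a

theorem energy_eq (β : ℝ) : energy β = energyT 1 β := by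
  funext P Q a
  simp only [energy, energyT, mul_one]

theorem Cert.toT {β c : ℝ} {P Q : ℂ × ℂ × ℂ → ℝ} (h : Cert β c P Q) : CertT 1 β c P Q :=
  ⟨h.1, h.2.1, h.2.2.1, fun a ha => by rw [← energy_eq]; exact h.2.2.2 a ha⟩

theorem body_of_univalent {f : ℂ → ℂ} (hf : DifferentiableOn ℂ f (Metric.ball 0 1))
    (hinj : Set.InjOn f (Metric.ball 0 1)) (hf0 : f 0 = 0) (hf1 : deriv f 0 = 1) :
    Body (tc f) :=
  ⟨bieberbach hf hinj hf0 hf1, grunsky_two hf hinj hf0 hf1, grunsky_row hf hinj hf0 hf1,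
    (grunsky_odd hf hinj hf0 hf1).1, (grunsky_odd hf hinj hf0 hf1).2⟩

end

end Vale.Agent.P142.Flux
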