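import Vale.Agent.P142.Flux.PolyDiff
import Vale.Agent.P142.Flux.Pins

/-!
The flux density of polynomial functions of the jets, as an integer polynomial in `a 2`, `g11`,
`g12`, `g22` and their conjugates.
-/

open Complex Vale.Agent.P142.Area ComplexConjugate

namespace Vale.Agent.P142.Flux

/-- Real parts of integer polynomials are compared through the exchange of conjugate variables. -/
def swapVar (i : ℕ) : Pl 8 := if i < 4 then Pl.var 8 (i + 4) else Pl.var 8 (i - 4)

/-- The conjugate polynomial. -/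
def swap (p : Pl 8) : Pl 8 := Pl.subst 8 swapVar 8 p

/-- The polynomials giving the six variables of a jet polynomial. -/
def jetVar : ℕ → Pl 8
  | 0 => Pl.var 8 0
  | 1 => Pl.var 8 1
  | 2 => Pl.var 8 2
  | 3 => Pl.var 8 4
  | 4 => Pl.var 8 5
  | 5 => Pl.var 8 6
  | _ => Pl.zero 8

/-- A direction of the jets, with its conjugate times a sign. -/
def jetDir (s : ℤ) (p q r : Pl 8) : ℕ → Pl 8
  | 0 => p
  | 1 => q
  | 2 => r
  | 3 => Pl.smul 8 s (swap p)
  | 4 => Pl.smul 8 s (swap q)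
  | 5 => Pl.smul 8 s (swap r)
  | _ => Pl.zero 8

/-- Four times the vertical derivative of `a 2`. -/
def jy1 : Pl 8 :=
  Pl.add 8 (Pl.smul 8 6 (Pl.var 8 1))
    (Pl.add 8 (Pl.smul 8 2 (Pl.mul 8 (Pl.var 8 0) (Pl.var 8 0))) (Pl.const 8 (-2)))

/-- Four times the vertical derivative of `g11`. -/
def jy2 : Pl 8 := Pl.smul 8 8 (Pl.var 8 2)

/-- Four times the vertical derivative of `g12`. -/
def jy3 : Pl 8 :=
  Pl.add 8 (Pl.smul 8 10 (Pl.var 8 3))
    (Pl.add 8 (Pl.smul 8 3 (Pl.mul 8 (Pl.var 8 1) (Pl.var 8 1))) (Pl.smul 8 (-2) (Pl.var 8 1)))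

/-- Four times `i` times the horizontal derivative of `a 2`. -/
def jx1 : Pl 8 := Pl.add 8 jy1 (Pl.add 8 (Pl.smul 8 (-4) (Pl.var 8 0)) (Pl.const 8 4))

/-- Four times `i` times the horizontal derivative of `g11`. -/
def jx2 : Pl 8 := Pl.add 8 (Pl.smul 8 8 (Pl.var 8 2)) (Pl.smul 8 (-8) (Pl.var 8 1))

/-- Four times `i` times the horizontal derivative of `g12`. -/
def jx3 : Pl 8 :=
  Pl.add 8 jy3 (Pl.add 8 (Pl.smul 8 (-12) (Pl.var 8 2)) (Pl.smul 8 4 (Pl.var 8 1)))

/-- A multiple of the flux density at `β = bn / bd` of `Re p` and `Re (i q)`, up to its imaginary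
part. -/
def density (bn : ℤ) (bd : ℕ) (p q : Pl 6) : Pl 8 :=
  Pl.add 8
    (Pl.smul 8 bd (Pl.add 8 (Pl.dsubst 8 jetVar (jetDir 1 jy1 jy2 jy3) 6 p)
      (Pl.dsubst 8 jetVar (jetDir (-1) jx1 jx2 jx3) 6 q)))
    (Pl.add 8
      (Pl.mul 8
        (Pl.add 8 (Pl.const 8 (4 * bn + 8 * (bd : ℤ)))
          (Pl.smul 8 (-4 * (bd : ℤ)) (Pl.add 8 (Pl.var 8 0) (Pl.var 8 4))))
        (Pl.subst 8 jetVar 6 p))
      (Pl.mul 8
        (Pl.smul 8 (-4 * (bd : ℤ)) (Pl.add 8 (Pl.var 8 0) (Pl.smul 8 (-1) (Pl.var 8 4))))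
        (Pl.subst 8 jetVar 6 q)))

noncomputable section

/-- The eight complex variables at a coefficient sequence. -/
def point (a : ℕ → ℂ) : ℕ → ℂ
  | 0 => a 2
  | 1 => g11 a
  | 2 => g12 a
  | 3 => g22 a
  | 4 => conj (a 2)
  | 5 => conj (g11 a)
  | 6 => conj (g12 a)
  | 7 => conj (g22 a)
  | _ => 0

/-- The six complex variables of a jet. -/
def coord (v : ℂ × ℂ × ℂ) : ℕ → ℂ
  | 0 => v.1 + 1
  | 1 => v.2.1
  | 2 => v.2.2
  | 3 => conj v.1 + 1
  | 4 => conj v.2.1
  | 5 => conj v.2.2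
  | _ => 0

/-- A function of the jets from an integer polynomial, a unit and a denominator. -/
def ofPoly (K : ℕ) (u : ℂ) (p : Pl 6) (v : ℂ × ℂ × ℂ) : ℝ :=
  (u * Pl.eval 6 p (coord v)).re / K

theorem eval_congr_lt {R : Type} [CommRing R] {x x' : ℕ → R} :
    ∀ n, (∀ i, i < n → x i = x' i) → ∀ p : Pl n, Pl.eval n p x = Pl.eval n p x'
  | 0, _, _ => rfl
  | n + 1, h, p => by
    show Pl.evalL (fun a => Pl.eval n a x) (x n) p = Pl.evalL (fun a => Pl.eval n a x') (x' n) p
    rw [h n (by omega), funext (eval_congr_lt n fun i hi => h i (by omega))]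

theorem conj_evalL {α : Type} (e f : α → ℂ) (t : ℂ) (h : ∀ a, conj (e a) = f a) :
    ∀ l, conj (Pl.evalL e t l) = Pl.evalL f (conj t) l
  | [] => by simp [Pl.evalL]
  | a :: l => by simp [Pl.evalL, h, conj_evalL e f t h l]

theorem conj_eval (x : ℕ → ℂ) : ∀ n (p : Pl n),
    conj (Pl.eval n p x) = Pl.eval n p (fun i => conj (x i))
  | 0, p => by show conj ((Pl.val p : ℤ) : ℂ) = _; rw [map_intCast]; rfl
  | n + 1, p => conj_evalL _ _ _ (conj_eval x n) p

theorem eval_swap (a : ℕ → ℂ) (p : Pl 8) :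
    Pl.eval 8 (swap p) (point a) = conj (Pl.eval 8 p (point a)) := by
  rw [swap, Pl.eval_subst, conj_eval]
  refine eval_congr_lt 8 (fun i hi => ?_) p
  unfold swapVar
  split_ifs with h
  · rw [Pl.eval_var _ (by omega)]
    interval_cases i <;> simp [point]
  · rw [Pl.eval_var _ (by omega)]
    interval_cases i <;> simp_all [point]

theorem contDiff_coord : ∀ i, ContDiff ℝ 1 fun v : ℂ × ℂ × ℂ => coord v i := by
  have hc : ContDiff ℝ 1 (conj : ℂ → ℂ) := Complex.conjCLE.toContinuousLinearMap.contDiff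
  intro i
  match i with
  | 0 => exact contDiff_fst.add contDiff_const
  | 1 => exact contDiff_fst.comp contDiff_snd
  | 2 => exact contDiff_snd.comp contDiff_snd
  | 3 => exact (hc.comp contDiff_fst).add contDiff_const
  | 4 => exact hc.comp (contDiff_fst.comp contDiff_snd)
  | 5 => exact hc.comp (contDiff_snd.comp contDiff_snd)
  | _ + 6 => exact contDiff_const

theorem contDiff_ofPoly (K : ℕ) (u : ℂ) (p : Pl 6) : ContDiff ℝ 1 (ofPoly K u p) :=
  (Complex.reCLM.contDiff.comp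
    (contDiff_const.mul (Pl.contDiff_eval coord contDiff_coord 6 p))).div_const _

theorem eval_jetVar (a : ℕ → ℂ) : ∀ i, i < 6 →
    Pl.eval 8 (jetVar i) (point a) = coord (jetv a) i := by
  intro i hi
  interval_cases i <;> simp only [jetVar] <;> rw [Pl.eval_var _ (by omega)] <;>
    simp [point, coord, jetv]

/-- The derivative of a polynomial function of the jets, by formal differentiation. -/
theorem fderiv_ofPoly (K : ℕ) (p : Pl 6) (a : ℕ → ℂ) (σ : ℤ) (d1 d2 d3 : Pl 8)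
    (w : ℂ × ℂ × ℂ) (u s : ℂ)
    (hσ : conj s = σ * s)
    (h1 : s * Pl.eval 8 d1 (point a) = w.1) (h2 : s * Pl.eval 8 d2 (point a) = w.2.1)
    (h3 : s * Pl.eval 8 d3 (point a) = w.2.2) :
    fderiv ℝ (ofPoly K u p) (jetv a) w =
      (u * (s * Pl.eval 8 (Pl.dsubst 8 jetVar (jetDir σ d1 d2 d3) 6 p) (point a))).re / K := by
  set v := jetv a with hv
  have hc : ∀ (t : ℝ) i, i < 6 → coord (v + t • w) i =
      Pl.eval 8 (jetVar i) (point a) +
        (t : ℂ) * s * Pl.eval 8 (jetDir σ d1 d2 d3 i) (point a) := by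
    intro t i hi
    rw [eval_jetVar a i hi]
    interval_cases i <;>
      simp [coord, jetDir, hv, Pl.eval_smul, eval_swap, ← h1, ← h2, ← h3, hσ] <;> ring
  have e1 : HasDerivAt (fun t : ℝ => ofPoly K u p (v + t • w))
      ((u * (s * Pl.eval 8 (Pl.dsubst 8 jetVar (jetDir σ d1 d2 d3) 6 p) (point a))).re / K) 0 := by
    have h := Pl.hasDerivAt_eval 8 jetVar (jetDir σ d1 d2 d3) (point a) 6 p
    have h0 : HasDerivAt (fun t : ℂ => Pl.eval 6 p (fun i => Pl.eval 8 (jetVar i) (point a) +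
        t * s * Pl.eval 8 (jetDir σ d1 d2 d3 i) (point a)))
        (s * Pl.eval 8 (Pl.dsubst 8 jetVar (jetDir σ d1 d2 d3) 6 p) (point a)) ((0 : ℝ) : ℂ) := by
      have hl : HasDerivAt (fun t : ℂ => t * s) s 0 := by
        simpa using (hasDerivAt_id (0 : ℂ)).mul_const s
      have h' : HasDerivAt (fun t : ℂ => Pl.eval 6 p (fun i => Pl.eval 8 (jetVar i) (point a) +
          t * Pl.eval 8 (jetDir σ d1 d2 d3 i) (point a)))
          (Pl.eval 8 (Pl.dsubst 8 jetVar (jetDir σ d1 d2 d3) 6 p) (point a))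
          ((fun t : ℂ => t * s) 0) := by simpa using h
      have := HasDerivAt.comp (0 : ℂ) h' hl
      rw [Complex.ofReal_zero, mul_comm s]
      exact this
    have h2' := (Complex.reCLM.hasFDerivAt.comp_hasDerivAt (0 : ℝ)
      (h0.comp_ofReal.const_mul u)).div_const (K : ℝ)
    simp only [Complex.reCLM_apply] at h2'
    refine h2'.congr_of_eventuallyEq (Filter.Eventually.of_forall fun t => ?_)
    show (u * Pl.eval 6 p (coord (v + t • w))).re / (K : ℝ) = (u * Pl.eval 6 p _).re / (K : ℝ)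
    rw [eval_congr_lt 6 (hc t) p]
  have e2 : HasDerivAt (fun t : ℝ => ofPoly K u p (v + t • w))
      (fderiv ℝ (ofPoly K u p) v w) 0 := by
    have hd : HasFDerivAt (ofPoly K u p) (fderiv ℝ (ofPoly K u p) v) (v + (0 : ℝ) • w) := by
      rw [zero_smul, add_zero]
      exact ((contDiff_ofPoly K u p).differentiable one_ne_zero v).hasFDerivAt
    have hl : HasDerivAt (fun t : ℝ => v + t • w) w 0 := by
      simpa using ((hasDerivAt_id (0 : ℝ)).smul_const w).const_add v
    exact hd.comp_hasDerivAt 0 hl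
  exact e2.unique e1

theorem re_eval_density (bn : ℤ) (bd K : ℕ) (hbd : 0 < bd) (hK : 0 < K) (p q : Pl 6)
    (a : ℕ → ℂ) :
    (Pl.eval 8 (density bn bd p q) (point a)).re =
      4 * bd * K * energy ((bn : ℝ) / bd) (ofPoly K 1 p) (ofPoly K I q) a := by
  have hv : ∀ {i}, i < 8 → Pl.eval 8 (Pl.var 8 i) (point a) = point a i :=
    fun h => Pl.eval_var _ h
  have hp := fderiv_ofPoly K p a 1 jy1 jy2 jy3 (jety a) 1 (1 / 4 : ℂ) (by simp [map_ofNat])
    (by simp [jy1, jety, Pl.eval_add, Pl.eval_smul, Pl.eval_mul, Pl.eval_const,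
      hv (show 0 < 8 by omega), hv (show 1 < 8 by omega), point]; ring)
    (by simp [jy2, jety, Pl.eval_smul, hv (show 2 < 8 by omega), point]; ring)
    (by simp [jy3, jety, Pl.eval_add, Pl.eval_smul, Pl.eval_mul,
      hv (show 1 < 8 by omega), hv (show 3 < 8 by omega), point]; ring)
  have hq := fderiv_ofPoly K q a (-1) jx1 jx2 jx3 (jetx a) I (-I / 4)
    (by simp [map_ofNat]; ring)
    (by simp [jx1, jy1, jetx, jety, jetv, Pl.eval_add, Pl.eval_smul, Pl.eval_mul, Pl.eval_const,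
      hv (show 0 < 8 by omega), hv (show 1 < 8 by omega), point]; ring)
    (by simp [jx2, jetx, Pl.eval_add, Pl.eval_smul, hv (show 1 < 8 by omega),
      hv (show 2 < 8 by omega), point]; ring)
    (by simp [jx3, jy3, jetx, jety, Pl.eval_add, Pl.eval_smul, Pl.eval_mul,
      hv (show 1 < 8 by omega), hv (show 2 < 8 by omega), hv (show 3 < 8 by omega), point]; ring)
  have hs : ∀ r : Pl 6, Pl.eval 8 (Pl.subst 8 jetVar 6 r) (point a) =
      Pl.eval 6 r (coord (jetv a)) := fun r => by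
    rw [Pl.eval_subst]
    exact eval_congr_lt 6 (eval_jetVar a) r
  have hKr : (K : ℝ) ≠ 0 := by positivity
  have hbr : (bd : ℝ) ≠ 0 := by positivity
  unfold energy
  rw [hp, hq]
  simp only [density, Pl.eval_add, Pl.eval_mul, Pl.eval_smul, Pl.eval_const, hs,
    hv (show 0 < 8 by omega), hv (show 4 < 8 by omega), ofPoly, point]
  simp
  field_simp
  ring

end

end Vale.Agent.P142.Flux
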