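import Vale.Agent.P142.Flux.Blocks

/-!
The checker at weight `τ = tn / bd`, with the same denominator as `β = bn / bd`.
-/

open Complex Vale.Agent.P142.Area ComplexConjugate

namespace Vale.Agent.P142.Flux

/-- A multiple of the flux density at `β = bn / bd`, `τ = tn / bd` of `Re p` and `Re (i q)`, up to
its imaginary part. -/
def densityT (bn tn : ℤ) (bd : ℕ) (p q : Pl 6) : Pl 8 :=
  Pl.add 8
    (Pl.smul 8 bd (Pl.add 8 (Pl.dsubst 8 jetVar (jetDir 1 jy1 jy2 jy3) 6 p)
      (Pl.dsubst 8 jetVar (jetDir (-1) jx1 jx2 jx3) 6 q)))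
    (Pl.add 8
      (Pl.mul 8
        (Pl.add 8 (Pl.const 8 (4 * bn + 8 * tn))
          (Pl.smul 8 (-4 * tn) (Pl.add 8 (Pl.var 8 0) (Pl.var 8 4))))
        (Pl.subst 8 jetVar 6 p))
      (Pl.mul 8
        (Pl.smul 8 (-4 * tn) (Pl.add 8 (Pl.var 8 0) (Pl.smul 8 (-1) (Pl.var 8 4))))
        (Pl.subst 8 jetVar 6 q)))

noncomputable section

theorem re_eval_densityT (bn tn : ℤ) (bd K : ℕ) (hbd : 0 < bd) (hK : 0 < K) (p q : Pl 6)
    (a : ℕ → ℂ) :
    (Pl.eval 8 (densityT bn tn bd p q) (point a)).re =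
      4 * bd * K * energyT ((tn : ℝ) / bd) ((bn : ℝ) / bd) (ofPoly K 1 p) (ofPoly K I q) a := by
  have hv : ∀ {i}, i < 8 → Pl.eval 8 (Pl.var 8 i) (point a) = point a i :=
    fun h => Pl.eval_var _ h
  have h1 := re_eval_density bn bd K hbd hK p q a
  have hs : ∀ r : Pl 6, Pl.eval 8 (Pl.subst 8 jetVar 6 r) (point a) =
      Pl.eval 6 r (coord (jetv a)) := fun r => by
    rw [Pl.eval_subst]
    exact eval_congr_lt 6 (eval_jetVar a) r
  have hKr : (K : ℝ) ≠ 0 := by positivity
  have hbr : (bd : ℝ) ≠ 0 := by positivity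
  simp only [density, energy, ofPoly, Pl.eval_add, Pl.eval_mul, Pl.eval_smul, Pl.eval_const, hs,
    hv (show 0 < 8 by omega), hv (show 4 < 8 by omega), point] at h1
  simp only [densityT, energyT, ofPoly, Pl.eval_add, Pl.eval_mul, Pl.eval_smul, Pl.eval_const, hs,
    hv (show 0 < 8 by omega), hv (show 4 < 8 by omega), point]
  simp [jetv] at h1 ⊢
  field_simp at h1 ⊢
  linear_combination h1

end

/-- The doubled real part of the certificate's defect at weight `tn / bd`. -/
def defectT (bn tn : ℤ) (bd M C : ℕ) (p q : Pl 6) (l : List Term) : Pl 8 :=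
  let x := Pl.sub 8 (Pl.smul 8 M (Pl.sub 8 (densityT bn tn bd p q) (Pl.const 8 C))) (termSum l)
  Pl.add 8 x (swap x)

/-- A checked identity with checked Gram matrices gives the certificate at weight `tn / bd`. -/
theorem certT_of_check (bn tn : ℤ) (bd K M C : ℕ) (hbd : 0 < bd) (hK : 0 < K) (hM : 0 < M)
    (hC : 0 < C) (p q : Pl 6) (l : List Term)
    (h : Pl.isZero 8 (defectT bn tn bd M C p q l) = true)
    (hl : ∀ t ∈ l, ∃ W s L O D, Psd.check W s t.gram L O D = true) :
    CertT ((tn : ℝ) / bd) ((bn : ℝ) / bd) ((C : ℝ) / (4 * bd * K)) (ofPoly K 1 p)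
      (ofPoly K I q) := by
  refine ⟨contDiff_ofPoly K 1 p, contDiff_ofPoly K I q, by positivity, fun a ha => ?_⟩
  have e := congrArg Complex.re (Pl.eval_isZero (point a) 8 _ h)
  simp only [defectT, Pl.eval_add, eval_swap, Pl.eval_sub, Pl.eval_smul, Pl.eval_const,
    Complex.add_re, Complex.conj_re, Complex.sub_re, Complex.mul_re, Complex.zero_re,
    re_eval_densityT bn tn bd K hbd hK] at e
  norm_num at e
  have hn := termSum_nonneg ha l hl
  have hMr : (0 : ℝ) < M := by exact_mod_cast hM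
  have h4 : (0 : ℝ) < 4 * bd * K := by positivity
  rw [div_le_iff₀ h4]
  nlinarith

end Vale.Agent.P142.Flux
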