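import Mathlib

/-!
Integer polynomials in `n` variables in nested dense form, for checking identities in the kernel.
-/

namespace Vale.Agent.P142.Flux

/-- Integer polynomials in `n` variables: a list of coefficients in the last variable. -/
def Pl : ℕ → Type
  | 0 => ℤ
  | n + 1 => List (Pl n)

namespace Pl

/-- The integer carried by a polynomial in no variables. -/
def val (a : Pl 0) : ℤ := a

/-- An integer as a polynomial in no variables. -/
def ofInt (a : ℤ) : Pl 0 := a

/-- The zero polynomial. -/
def zero : (n : ℕ) → Pl n
  | 0 => ofInt 0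
  | _ + 1 => []

/-- A constant polynomial. -/
def const : (n : ℕ) → ℤ → Pl n
  | 0, k => ofInt k
  | n + 1, k => [const n k]

/-- A variable. -/
def var : (n : ℕ) → ℕ → Pl n
  | 0, _ => ofInt 0
  | n + 1, i => if i = n then [zero n, const n 1] else [var n i]

/-- Coefficientwise addition of lists. -/
def addL {α : Type} (f : α → α → α) : List α → List α → List α
  | [], l => l
  | a :: l, [] => a :: l
  | a :: l, b :: m => f a b :: addL f l m

/-- Addition. -/
def add : (n : ℕ) → Pl n → Pl n → Pl n
  | 0 => fun a b => ofInt (Int.add (val a) (val b))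
  | n + 1 => addL (add n)

/-- Multiplication by an integer. -/
def smul : (n : ℕ) → ℤ → Pl n → Pl n
  | 0 => fun k a => ofInt (Int.mul k (val a))
  | n + 1 => fun k p => List.map (smul n k) p

/-- Every entry of a list passes a test. -/
def allL {α : Type} (f : α → Bool) : List α → Bool
  | [] => true
  | a :: l => f a && allL f l

/-- Test for zero. -/
def isZero : (n : ℕ) → Pl n → Bool
  | 0 => fun a => match val a with
    | Int.ofNat m => Nat.beq m 0
    | Int.negSucc _ => false
  | n + 1 => allL (isZero n)

/-- Product of lists of coefficients. -/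
def mulL {α : Type} (z : α) (isz : α → Bool) (ad mu : α → α → α) : List α → List α → List α
  | [], _ => []
  | a :: l, m => bif isz a then z :: mulL z isz ad mu l m
      else addL ad (m.map (mu a)) (z :: mulL z isz ad mu l m)

/-- Multiplication. -/
def mul : (n : ℕ) → Pl n → Pl n → Pl n
  | 0 => fun a b => ofInt (Int.mul (val a) (val b))
  | n + 1 => mulL (zero n) (isZero n) (add n) (mul n)

variable {R : Type} [CommRing R]

/-- Horner evaluation of a list. -/
def evalL {α : Type} (e : α → R) (t : R) : List α → R
  | [] => 0
  | a :: l => e a + t * evalL e t l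

/-- Evaluation. -/
def eval : (n : ℕ) → Pl n → (ℕ → R) → R
  | 0 => fun a _ => (val a : R)
  | n + 1 => fun p x => evalL (fun a => eval n a x) (x n) p

theorem eval_zero (x : ℕ → R) : ∀ n, eval n (zero n) x = 0
  | 0 => by simp [eval, zero, val, ofInt]
  | n + 1 => rfl

theorem eval_const (x : ℕ → R) : ∀ n k, eval n (const n k) x = (k : R)
  | 0, k => by simp [eval, const, val, ofInt]
  | n + 1, k => by simp [eval, const, evalL, eval_const x n k]

theorem eval_var (x : ℕ → R) : ∀ {n i}, i < n → eval n (var n i) x = x i
  | 0, i, h => absurd h (Nat.not_lt_zero i)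
  | n + 1, i, h => by
    rcases eq_or_ne i n with rfl | hi
    · simp [eval, var, evalL, eval_zero, eval_const]
    · have h1 := eval_var x (n := n) (i := i) (by omega)
      have h2 : var (n + 1) i = ([var n i] : List (Pl n)) := by
        show (if i = n then _ else _) = _
        exact if_neg hi
      rw [h2]
      show eval n (var n i) x + x n * 0 = x i
      rw [h1]; ring

theorem evalL_addL {α : Type} (e : α → R) (t : R) (f : α → α → α)
    (hf : ∀ a b, e (f a b) = e a + e b) :
    ∀ l m, evalL e t (addL f l m) = evalL e t l + evalL e t m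
  | [], m => by simp [addL, evalL]
  | a :: l, [] => by simp [addL, evalL]
  | a :: l, b :: m => by simp [addL, evalL, hf, evalL_addL e t f hf l m]; ring

theorem eval_add (x : ℕ → R) : ∀ n (p q : Pl n), eval n (add n p q) x = eval n p x + eval n q x
  | 0, p, q => Int.cast_add (val p) (val q)
  | n + 1, p, q => evalL_addL _ _ _ (eval_add x n) p q

theorem evalL_map {α : Type} (e : α → R) (t k : R) (f : α → α)
    (hf : ∀ a, e (f a) = k * e a) : ∀ l, evalL e t (l.map f) = k * evalL e t l
  | [] => by simp [evalL]
  | a :: l => by simp [evalL, hf, evalL_map e t k f hf l]; ring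

theorem eval_smul (x : ℕ → R) (k : ℤ) : ∀ n (p : Pl n), eval n (smul n k p) x = k * eval n p x
  | 0, p => Int.cast_mul k (val p)
  | n + 1, p => evalL_map _ _ _ _ (eval_smul x k n) p

theorem evalL_zero {α : Type} (e : α → R) (t : R) (z : α → Bool)
    (hz : ∀ a, z a = true → e a = 0) : ∀ l : List α, allL z l = true → evalL e t l = 0
  | [], _ => rfl
  | a :: l, h => by
    rw [allL, Bool.and_eq_true] at h
    simp [evalL, hz a h.1, evalL_zero e t z hz l h.2]

theorem eval_isZero (x : ℕ → R) : ∀ n (p : Pl n), isZero n p = true → eval n p x = 0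
  | 0, p, h => by
    have h' : val p = 0 := by
      simp only [isZero] at h
      cases hv : val p with
      | ofNat m => rw [hv] at h; simp only [Nat.eq_of_beq_eq_true h]; rfl
      | negSucc m => rw [hv] at h; simp at h
    simp [eval, h']
  | n + 1, p, h => evalL_zero _ _ _ (eval_isZero x n) p h

theorem evalL_mulL {α : Type} (e : α → R) (t : R) (z : α) (isz : α → Bool) (ad mu : α → α → α)
    (hz : e z = 0) (hi : ∀ a, isz a = true → e a = 0) (ha : ∀ a b, e (ad a b) = e a + e b)
    (hm : ∀ a b, e (mu a b) = e a * e b) :
    ∀ l m, evalL e t (mulL z isz ad mu l m) = evalL e t l * evalL e t m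
  | [], m => by simp [mulL, evalL]
  | a :: l, m => by
    unfold mulL
    by_cases h : isz a = true
    · rw [h, cond_true]
      simp [evalL, hz, hi a h, evalL_mulL e t z isz ad mu hz hi ha hm l m]; ring
    · rw [eq_false_of_ne_true h, cond_false, evalL_addL e t ad ha, evalL_map e t (e a) (mu a) (hm a)]
      simp [evalL, hz, evalL_mulL e t z isz ad mu hz hi ha hm l m]; ring

theorem eval_mul (x : ℕ → R) : ∀ n (p q : Pl n), eval n (mul n p q) x = eval n p x * eval n q x
  | 0, p, q => Int.cast_mul (val p) (val q)
  | n + 1, p, q => evalL_mulL (fun a => eval n a x) _ _ _ _ _ (eval_zero x n) (eval_isZero x n)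
      (eval_add x n) (eval_mul x n) p q

/-- Difference. -/
def sub (n : ℕ) (p q : Pl n) : Pl n := add n p (smul n (-1) q)

theorem eval_sub (x : ℕ → R) (n : ℕ) (p q : Pl n) :
    eval n (sub n p q) x = eval n p x - eval n q x := by
  simp [sub, eval_add, eval_smul]; ring

/-- An identity checked by computation. -/
theorem eval_eq_of_check (x : ℕ → R) {n : ℕ} {p q : Pl n} (h : isZero n (sub n p q) = true) :
    eval n p x = eval n q x := by
  have := eval_isZero x n _ h
  rwa [eval_sub, sub_eq_zero] at this

/-- Powers. -/
def pow (n : ℕ) (p : Pl n) : ℕ → Pl n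
  | 0 => const n 1
  | k + 1 => mul n p (pow n p k)

theorem eval_pow (x : ℕ → R) (n : ℕ) (p : Pl n) : ∀ k, eval n (pow n p k) x = eval n p x ^ k
  | 0 => by simp [pow, eval_const]
  | k + 1 => by rw [pow, eval_mul, eval_pow x n p k, pow_succ']

end Pl

end Vale.Agent.P142.Flux
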