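import Vale.Agent.P142.Flux.Poly

/-!
Substitution of integer polynomials and its derivative along a line.
-/

namespace Vale.Agent.P142.Flux

namespace Pl

/-- Horner substitution into a list of coefficients. -/
def substL {α : Type} (m : ℕ) (f : α → Pl m) (T : Pl m) : List α → Pl m
  | [] => zero m
  | a :: l => add m (f a) (mul m T (substL m f T l))

/-- Substitution of polynomials for the variables. -/
def subst (m : ℕ) (X : ℕ → Pl m) : (n : ℕ) → Pl n → Pl m
  | 0 => fun a => const m (val a)
  | n + 1 => substL m (subst m X n) (X n)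

/-- Horner substitution differentiated along a direction. -/
def dsubstL {α : Type} (m : ℕ) (f df : α → Pl m) (T S : Pl m) : List α → Pl m
  | [] => zero m
  | a :: l => add m (df a) (add m (mul m S (substL m f T l)) (mul m T (dsubstL m f df T S l)))

/-- The derivative of a substitution along a direction. -/
def dsubst (m : ℕ) (X D : ℕ → Pl m) : (n : ℕ) → Pl n → Pl m
  | 0 => fun _ => zero m
  | n + 1 => dsubstL m (subst m X n) (dsubst m X D n) (X n) (D n)

theorem evalL_substL {α R : Type} [CommRing R] (m : ℕ) (f : α → Pl m) (T : Pl m) (y : ℕ → R)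
    (e : α → R) (he : ∀ a, eval m (f a) y = e a) :
    ∀ l, eval m (substL m f T l) y = evalL e (eval m T y) l
  | [] => by simp [substL, evalL, eval_zero]
  | a :: l => by simp [substL, evalL, eval_add, eval_mul, he, evalL_substL m f T y e he l]

theorem eval_subst {R : Type} [CommRing R] (m : ℕ) (X : ℕ → Pl m) (y : ℕ → R) :
    ∀ n (p : Pl n), eval m (subst m X n p) y = eval n p (fun i => eval m (X i) y)
  | 0, p => eval_const y m (val p)
  | n + 1, p => evalL_substL m _ _ y _ (eval_subst m X y n) p

theorem hasDerivAt_evalL {α R : Type} [NontriviallyNormedField R] (m : ℕ) (f df : α → Pl m)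
    (T S : Pl m) (y : ℕ → R) (e : α → R → R) (τ : R → R) (hτ : τ 0 = eval m T y) (hτ' : HasDerivAt τ (eval m S y) 0)
    (he : ∀ a, eval m (f a) y = e a 0)
    (he' : ∀ a, HasDerivAt (e a) (eval m (df a) y) 0) :
    ∀ l, HasDerivAt (fun t => evalL (fun a => e a t) (τ t) l)
      (eval m (dsubstL m f df T S l) y) 0
  | [] => by simpa [dsubstL, evalL, eval_zero] using hasDerivAt_const (0 : R) (0 : R)
  | a :: l => by
    have h := (he' a).fun_add (hτ'.fun_mul (hasDerivAt_evalL m f df T S y e τ hτ hτ' he he' l))
    simp only [evalL, dsubstL, eval_add, eval_mul,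
      evalL_substL m f T y (fun a => e a 0) he l, ← hτ]
    exact h

theorem hasDerivAt_eval {R : Type} [NontriviallyNormedField R] (m : ℕ) (X D : ℕ → Pl m)
    (y : ℕ → R) : ∀ n (p : Pl n), HasDerivAt (fun t : R => eval n p (fun i => eval m (X i) y + t * eval m (D i) y))
      (eval m (dsubst m X D n p) y) 0
  | 0, p => by simpa [eval, dsubst, eval_zero] using hasDerivAt_const (0 : R) ((val p : ℤ) : R)
  | n + 1, p => by
    refine hasDerivAt_evalL m (subst m X n) (dsubst m X D n) (X n) (D n) y
      (fun a t => eval n a (fun i => eval m (X i) y + t * eval m (D i) y))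
      (fun t => eval m (X n) y + t * eval m (D n) y) (by simp) ?_ (fun a => ?_)
      (hasDerivAt_eval m X D y n) p
    · simpa using ((hasDerivAt_id (0 : R)).mul_const (eval m (D n) y)).const_add (eval m (X n) y)
    · simp [eval_subst]

theorem contDiff_evalL {α E : Type} [NormedAddCommGroup E] [NormedSpace ℝ E] (e : α → E → ℂ)
    (τ : E → ℂ) (he : ∀ a, ContDiff ℝ 1 (e a)) (hτ : ContDiff ℝ 1 τ) :
    ∀ l, ContDiff ℝ 1 (fun v => evalL (fun a => e a v) (τ v) l)
  | [] => by simpa [evalL] using contDiff_const (𝕜 := ℝ) (c := (0 : ℂ))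
  | a :: l => (he a).add (hτ.mul (contDiff_evalL e τ he hτ l))

theorem contDiff_eval {E : Type} [NormedAddCommGroup E] [NormedSpace ℝ E] (c : E → ℕ → ℂ)
    (hc : ∀ i, ContDiff ℝ 1 fun v => c v i) :
    ∀ n (p : Pl n), ContDiff ℝ 1 fun v => eval n p (c v)
  | 0, _ => contDiff_const
  | n + 1, p => contDiff_evalL (fun a v => eval n a (c v)) (fun v => c v n)
      (contDiff_eval c hc n) (hc n) p

end Pl

end Vale.Agent.P142.Flux
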