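import Vale.Agent.P142.Flux.ModelT

/-!
A cheap form of the identity check: sorted lists of monomial codes and coefficients, merged pairwise.
A monomial code has the exponent of variable `i` as its base `32` digit number `i`.
-/

open Complex ComplexConjugate Finset

namespace Vale.Agent.P142.Flux

namespace Sparse

/-- Sparse polynomials. -/
abbrev SP : Type := List (ℕ × ℤ)

/-- Digits of a code. -/
def digits : ℕ → ℕ → List ℕ
  | 0, _ => []
  | n + 1, c => c % 32 :: digits n (c / 32)

/-- All digits are below `8`. -/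
def small (c : ℕ) : Bool :=
  decide (c < 32 ^ 8) && decide (c % 32 < 8) && decide (c / 32 % 32 < 8) &&
    decide (c / 32 ^ 2 % 32 < 8) && decide (c / 32 ^ 3 % 32 < 8) && decide (c / 32 ^ 4 % 32 < 8) &&
    decide (c / 32 ^ 5 % 32 < 8) && decide (c / 32 ^ 6 % 32 < 8) && decide (c / 32 ^ 7 % 32 < 8)

/-- The value of a code at eight complex variables. -/
noncomputable def mon (y : ℕ → ℂ) (c : ℕ) : ℂ :=
  y 0 ^ (c % 32) * y 1 ^ (c / 32 % 32) * y 2 ^ (c / 32 ^ 2 % 32) * y 3 ^ (c / 32 ^ 3 % 32) *
    y 4 ^ (c / 32 ^ 4 % 32) * y 5 ^ (c / 32 ^ 5 % 32) * y 6 ^ (c / 32 ^ 6 % 32) *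
    y 7 ^ (c / 32 ^ 7 % 32)

/-- Conjugation of codes. -/
def cswap (c : ℕ) : ℕ := Nat.add (Nat.mul (Nat.mod c 1048576) 1048576) (Nat.div c 1048576)

/-- The value of a sparse polynomial. -/
noncomputable def ev (y : ℕ → ℂ) : SP → ℂ
  | [] => 0
  | a :: l => (a.2 : ℂ) * mon y a.1 + ev y l

/-- The value of a list of sparse polynomials. -/
noncomputable def evs (y : ℕ → ℂ) : List SP → ℂ
  | [] => 0
  | l :: L => ev y l + evs y L

/-- Sum of two sorted lists. -/
noncomputable def mrg (l : SP) : SP → SP :=
  List.rec (fun m => m) (fun a t r m => List.rec (a :: t) (fun b m' s =>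
    cond (Nat.blt a.1 b.1) (a :: r (b :: m'))
      (cond (Nat.blt b.1 a.1) (b :: s) ((a.1, Int.add a.2 b.2) :: r m'))) m) l

/-- One round of pairwise sums. -/
noncomputable def pairs : List SP → List SP
  | [] => []
  | [l] => [l]
  | l :: m :: L => mrg l m :: pairs L

/-- Rounds of pairwise sums, then the sum of what is left. -/
noncomputable def mrgAll : ℕ → List SP → SP
  | 0, L => L.foldr mrg []
  | k + 1, L => mrgAll k (pairs L)

/-- All coefficients vanish. -/
noncomputable def zeros (l : SP) : Bool :=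
  List.rec true (fun a _ r => decide (a.2 = 0) && r) l

/-- All codes are small. -/
noncomputable def smalls (l : SP) : Bool := List.rec true (fun a _ r => small a.1 && r) l

/-- The nonzero coefficients of a nested polynomial, in increasing order of codes. -/
def toS : (n : ℕ) → Pl n → ℕ → SP
  | 0 => fun a o => if Pl.val a = 0 then [] else [(o, Pl.val a)]
  | n + 1 => fun p o => go (toS n) (32 ^ n) p o
where
  /-- Walk along the coefficients. -/
  go {α : Type} (f : α → ℕ → SP) (step : ℕ) : List α → ℕ → SP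
    | [], _ => []
    | a :: l, o => f a o ++ go f step l (o + step)

/-- The nested polynomial of a sparse one. -/
noncomputable def toP : SP → Pl 8
  | [] => Pl.zero 8
  | a :: l => Pl.add 8 (Pl.smul 8 a.2 (monomial 0 (digits 8 a.1))) (toP l)

/-- A nested polynomial agrees with its sparse form, whose codes are small. -/
noncomputable def faithful (p : Pl 8) : Bool :=
  Pl.isZero 8 (Pl.sub 8 p (toP (toS 8 p 0))) && smalls (toS 8 p 0)

theorem mrg_nil (m : SP) : mrg [] m = m := rfl

theorem mrg_cons_nil (a : ℕ × ℤ) (t : SP) : mrg (a :: t) [] = a :: t := rfl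

theorem mrg_cons (a : ℕ × ℤ) (t : SP) (b : ℕ × ℤ) (m : SP) : mrg (a :: t) (b :: m) =
    cond (Nat.blt a.1 b.1) (a :: mrg t (b :: m))
      (cond (Nat.blt b.1 a.1) (b :: mrg (a :: t) m) ((a.1, Int.add a.2 b.2) :: mrg t m)) := rfl

variable (y : ℕ → ℂ)

theorem ev_mrg : ∀ l m : SP, ev y (mrg l m) = ev y l + ev y m := by
  intro l
  induction l with
  | nil => intro m; simp [mrg_nil, ev]
  | cons a t ih =>
    intro m
    induction m with
    | nil => simp [mrg_cons_nil, ev]
    | cons b m ihm =>
      rw [mrg_cons]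
      cases h : Nat.blt a.1 b.1 with
      | true => simp [ev, ih]; ring
      | false =>
        cases h' : Nat.blt b.1 a.1 with
        | true => simp only [cond_false, cond_true, ev, ihm]; ring
        | false =>
          have h1 : ¬ a.1 < b.1 := fun c => by rw [← Nat.blt_eq] at c; simp [c] at h
          have h2 : ¬ b.1 < a.1 := fun c => by rw [← Nat.blt_eq] at c; simp [c] at h'
          have e : b.1 = a.1 := by omega
          simp only [cond_false, ev, ih, e]
          rw [show Int.add a.2 b.2 = a.2 + b.2 from rfl]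
          push_cast; ring

theorem evs_pairs : ∀ L, evs y (pairs L) = evs y L
  | [] => rfl
  | [l] => rfl
  | l :: m :: L => by simp only [pairs, evs, ev_mrg, evs_pairs L]; ring

theorem ev_mrgAll : ∀ k L, ev y (mrgAll k L) = evs y L
  | 0, L => by
    induction L with
    | nil => rfl
    | cons l L ih =>
      simp only [mrgAll] at ih
      simp [mrgAll, List.foldr_cons, ev_mrg, evs, ih]
  | k + 1, L => by rw [mrgAll, ev_mrgAll k, evs_pairs]

theorem ev_of_zeros : ∀ l, zeros l = true → ev y l = 0
  | [], _ => rfl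
  | a :: l, h => by
    change (decide (a.2 = 0) && zeros l) = true at h
    simp only [Bool.and_eq_true, decide_eq_true_eq] at h
    simp [ev, h.1, ev_of_zeros l h.2]

theorem small_of_smalls : ∀ {l : SP}, smalls l = true → ∀ a ∈ l, small a.1 = true
  | [], _, a, ha => absurd ha List.not_mem_nil
  | b :: l, h, a, ha => by
    change (small b.1 && smalls l) = true at h
    simp only [Bool.and_eq_true] at h
    rcases List.mem_cons.1 ha with rfl | ha
    · exact h.1
    · exact small_of_smalls h.2 a ha

theorem digit_lt {a : ℕ} (ha : small a = true) : ∀ k < 8, a / 32 ^ k % 32 < 8 := by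
  simp only [small, Bool.and_eq_true, decide_eq_true_eq] at ha
  obtain ⟨⟨⟨⟨⟨⟨⟨⟨-, h0⟩, h1⟩, h2⟩, h3⟩, h4⟩, h5⟩, h6⟩, h7⟩ := ha
  intro k hk
  interval_cases k
  all_goals try simp only [pow_zero, pow_one, Nat.div_one]
  all_goals assumption

theorem lt_top {a : ℕ} (ha : small a = true) : a < 32 ^ 8 := by
  simp only [small, Bool.and_eq_true, decide_eq_true_eq] at ha
  exact ha.1.1.1.1.1.1.1.1

theorem small_of_digits {a : ℕ} (h0 : a < 32 ^ 8) (h : ∀ k < 8, a / 32 ^ k % 32 < 8) :
    small a = true := by
  have e0 := h 0 (by omega)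
  have e1 := h 1 (by omega)
  simp only [pow_zero, pow_one, Nat.div_one] at e0 e1
  simp only [small, Bool.and_eq_true, decide_eq_true_eq]
  exact ⟨⟨⟨⟨⟨⟨⟨⟨h0, e0⟩, e1⟩, h 2 (by omega)⟩, h 3 (by omega)⟩, h 4 (by omega)⟩, h 5 (by omega)⟩,
    h 6 (by omega)⟩, h 7 (by omega)⟩

theorem div_add {a b c : ℕ} : ∀ k, (∀ i < k, a / 32 ^ i % 32 < 8) →
    (∀ i < k, b / 32 ^ i % 32 < 8) → (∀ i < k, c / 32 ^ i % 32 < 8) →
    (a + b + c) / 32 ^ k = a / 32 ^ k + b / 32 ^ k + c / 32 ^ k
  | 0, _, _, _ => by simp
  | k + 1, ha, hb, hc => by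
    have ih := div_add k (fun i hi => ha i (by omega)) (fun i hi => hb i (by omega))
      fun i hi => hc i (by omega)
    have h1 := ha k (by omega)
    have h2 := hb k (by omega)
    have h3 := hc k (by omega)
    simp only [pow_succ, ← Nat.div_div_eq_div_mul, ih]
    generalize a / 32 ^ k = x at h1 ⊢
    generalize b / 32 ^ k = z at h2 ⊢
    generalize c / 32 ^ k = w at h3 ⊢
    omega

theorem mon_add {a b c : ℕ} (ha : small a = true) (hb : small b = true) (hc : small c = true) :
    mon y (a + b + c) = mon y a * mon y b * mon y c := by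
  have d : ∀ k < 8, (a + b + c) / 32 ^ k % 32 =
      a / 32 ^ k % 32 + b / 32 ^ k % 32 + c / 32 ^ k % 32 := fun k hk => by
    rw [div_add k (fun i hi => digit_lt ha i (by omega)) (fun i hi => digit_lt hb i (by omega))
      fun i hi => digit_lt hc i (by omega)]
    have h1 := digit_lt ha k hk
    have h2 := digit_lt hb k hk
    have h3 := digit_lt hc k hk
    generalize a / 32 ^ k = x at h1 ⊢
    generalize b / 32 ^ k = z at h2 ⊢
    generalize c / 32 ^ k = w at h3 ⊢
    omega
  have d0 := d 0 (by omega)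
  have d1 := d 1 (by omega)
  simp only [pow_zero, pow_one, Nat.div_one] at d0 d1
  simp only [mon, d0, d1, d 2 (by omega), d 3 (by omega), d 4 (by omega), d 5 (by omega),
    d 6 (by omega), d 7 (by omega), pow_add]
  ring

theorem cswap_digit {c : ℕ} (h : c < 32 ^ 8) : ∀ k < 8,
    cswap c / 32 ^ k % 32 = c / 32 ^ ((k + 4) % 8) % 32 := by
  intro k hk
  simp only [cswap, Nat.add_eq, Nat.mul_eq]
  rw [show Nat.mod c 1048576 = c % 1048576 from rfl, show Nat.div c 1048576 = c / 1048576 from rfl]
  have hl : c % 1048576 < 1048576 := Nat.mod_lt _ (by norm_num)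
  have hh : c / 1048576 < 1048576 := by norm_num at h; omega
  have hc := Nat.div_add_mod c 1048576
  generalize c % 1048576 = l at hl hc ⊢
  generalize c / 1048576 = u at hh hc ⊢
  subst hc
  have e1 : (l * 1048576 + u) / 1048576 = l := by omega
  have e2 : (1048576 * u + l) / 1048576 = u := by omega
  have lo : ∀ m r : ℕ, r < 1048576 → (m * 1048576 + r) / 32 = m * 32768 + r / 32 ∧
      (m * 1048576 + r) / 1024 = m * 1024 + r / 1024 ∧
      (m * 1048576 + r) / 32768 = m * 32 + r / 32768 ∧
      (m * 1048576 + r) / 33554432 = m / 32 ∧ (m * 1048576 + r) / 1073741824 = m / 1024 ∧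
      (m * 1048576 + r) / 34359738368 = m / 32768 := fun m r hr => by
    have e : (m * 1048576 + r) / 1048576 = m := by
      rw [Nat.mul_comm m, Nat.mul_add_div (by norm_num), Nat.div_eq_of_lt hr, add_zero]
    refine ⟨?_, ?_, ?_, ?_, ?_, ?_⟩
    · rw [show m * 1048576 = 32 * (m * 32768) by ring, Nat.mul_add_div (by norm_num)]
    · rw [show m * 1048576 = 1024 * (m * 1024) by ring, Nat.mul_add_div (by norm_num)]
    · rw [show m * 1048576 = 32768 * (m * 32) by ring, Nat.mul_add_div (by norm_num)]
    · rw [show (33554432 : ℕ) = 1048576 * 32 from rfl, ← Nat.div_div_eq_div_mul, e]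
    · rw [show (1073741824 : ℕ) = 1048576 * 1024 from rfl, ← Nat.div_div_eq_div_mul, e]
    · rw [show (34359738368 : ℕ) = 1048576 * 32768 from rfl, ← Nat.div_div_eq_div_mul, e]
  obtain ⟨a1, a2, a3, a4, a5, a6⟩ := lo l u hh
  obtain ⟨b1, b2, b3, b4, b5, b6⟩ := lo u l hl
  simp only [Nat.mul_comm 1048576 u] at e2 ⊢
  interval_cases k <;> norm_num <;>
    simp only [a1, a2, a3, a4, a5, a6, b1, b2, b3, b4, b5, b6, e1, e2] <;> omega

theorem cswap_lt {c : ℕ} (h : c < 32 ^ 8) : cswap c < 32 ^ 8 := by
  simp only [cswap, Nat.add_eq, Nat.mul_eq]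
  rw [show Nat.mod c 1048576 = c % 1048576 from rfl, show Nat.div c 1048576 = c / 1048576 from rfl]
  omega

theorem small_cswap {c : ℕ} (h : small c = true) : small (cswap c) = true :=
  small_of_digits (cswap_lt (lt_top h)) fun k hk => by
    rw [cswap_digit (lt_top h) k hk]
    exact digit_lt h _ (Nat.mod_lt _ (by omega))

theorem mon_cswap (a : ℕ → ℂ) {c : ℕ} (h : c < 32 ^ 8) :
    mon (point a) (cswap c) = conj (mon (point a) c) := by
  have d := cswap_digit h
  have d0 := d 0 (by omega)
  have d1 := d 1 (by omega)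
  norm_num at d0 d1
  simp only [mon, map_mul, map_pow, point, conj_conj, d0, d1, d 2 (by omega), d 3 (by omega),
    d 4 (by omega), d 5 (by omega), d 6 (by omega), d 7 (by omega)]
  norm_num
  ring

theorem eval_monomial (c : ℕ) : Pl.eval 8 (monomial 0 (digits 8 c)) y = mon y c := by
  simp only [digits, monomial, Pl.eval_mul, Pl.eval_pow, Pl.eval_const, mon, Nat.zero_add,
    Pl.eval_var y (show 0 < 8 by omega), Pl.eval_var y (show 1 < 8 by omega),
    Pl.eval_var y (show 2 < 8 by omega), Pl.eval_var y (show 3 < 8 by omega),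
    Pl.eval_var y (show 4 < 8 by omega), Pl.eval_var y (show 5 < 8 by omega),
    Pl.eval_var y (show 6 < 8 by omega), Pl.eval_var y (show 7 < 8 by omega)]
  norm_num [Nat.div_div_eq_div_mul]
  ring

theorem eval_toP : ∀ l, Pl.eval 8 (toP l) y = ev y l
  | [] => by simp [toP, ev, Pl.eval_zero]
  | a :: l => by simp [toP, ev, Pl.eval_add, Pl.eval_smul, eval_monomial, eval_toP l]

theorem ev_toS {p : Pl 8} (h : faithful p = true) :
    ev y (toS 8 p 0) = Pl.eval 8 p y ∧ ∀ a ∈ toS 8 p 0, small a.1 = true := by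
  simp only [faithful, Bool.and_eq_true] at h
  exact ⟨by rw [Pl.eval_eq_of_check y h.1, eval_toP], small_of_smalls h.2⟩

/-- Keys as used by the blocks. -/
def expand (ks : List (ℕ × ℕ)) : List (ℕ × List ℕ) := ks.map fun k => (k.1, digits 8 k.2)

/-- A block with coded monomials. -/
structure Blk where
  /-- The block. -/
  kind : Kind
  /-- Component and monomial code of each index. -/
  keys : List (ℕ × ℕ)
  /-- The Gram matrix. -/
  gram : List (List ℤ)

/-- The same block with lists of exponents. -/
def Blk.term (t : Blk) : Term := ⟨t.kind, expand t.keys, t.gram⟩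

/-- The part of a row in one component. -/
noncomputable def sel (j : ℕ) (h : List ℤ) : List (ℕ × ℕ) → SP :=
  List.rec (fun _ => ([] : SP)) (fun a _ r ks => List.rec ([] : SP)
    (fun k ks' _ => cond (Nat.beq j k.1) ((k.2, a) :: r ks') (r ks')) ks) h

theorem sel_nil (j : ℕ) (ks : List (ℕ × ℕ)) : sel j [] ks = [] := rfl

theorem sel_cons_nil (j : ℕ) (a : ℤ) (h : List ℤ) : sel j (a :: h) [] = [] := rfl

theorem sel_cons (j : ℕ) (a : ℤ) (h : List ℤ) (k : ℕ × ℕ) (ks : List (ℕ × ℕ)) :
    sel j (a :: h) (k :: ks) = cond (Nat.beq j k.1) ((k.2, a) :: sel j h ks) (sel j h ks) := rfl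

/-- A scaled shift. -/
noncomputable def shift (c : ℕ) (g : ℤ) (l : SP) : SP :=
  List.rec ([] : SP) (fun a _ r => (Nat.add c a.1, Int.mul g a.2) :: r) l

/-- The products of an entry, a monomial and a part of a row. -/
noncomputable def contrib (cx : ℕ) (s : SP) (E : SP) : List SP :=
  List.rec ([] : List SP) (fun g _ r => shift (Nat.add cx g.1) g.2 s :: r) E

/-- The lists of one row. -/
noncomputable def rowLists (k : Kind) (i cx : ℕ) (h : List ℤ) (ks : List (ℕ × ℕ)) : List SP :=
  List.rec ([] : List SP) (fun j _ r => contrib cx (sel j h ks) (toS 8 (k.entry i j) 0) ++ r)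
    [0, 1, 2, 3, 4]

/-- The lists of a block, from the given rows. -/
noncomputable def blockLists (k : Kind) (cs : List (ℕ × ℕ)) :
    List (List ℤ) → List (ℕ × ℕ) → List SP
  | [], _ => []
  | _ :: _, [] => []
  | h :: M, x :: ks => rowLists k x.1 (cswap x.2) h cs ++ blockLists k cs M ks

/-- The lists of all blocks. -/
noncomputable def allLists : List Blk → List SP
  | [] => []
  | t :: l => blockLists t.kind t.keys t.gram t.keys ++ allLists l

/-- The entries of a block are faithful and the codes of the keys are small. -/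
noncomputable def okBlk (t : Blk) : Bool :=
  ((List.range 5).all fun i => (List.range 5).all fun j => faithful (t.kind.entry i j)) &&
    t.keys.all fun k => decide (k.1 < 5) && small k.2

theorem evs_append : ∀ L M, evs y (L ++ M) = evs y L + evs y M
  | [], M => by simp [evs]
  | l :: L, M => by simp [evs, evs_append L M, add_assoc]

theorem ev_shift {c : ℕ} {g : ℤ} {v : ℂ} : ∀ {l : SP},
    (∀ a ∈ l, mon y (c + a.1) = v * mon y a.1) → ev y (shift c g l) = g * v * ev y l
  | [], _ => by simp [shift, ev]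
  | a :: l, h => by
    show ev y ((c + a.1, Int.mul g a.2) :: shift c g l) = _
    simp only [ev, h a List.mem_cons_self,
      ev_shift (c := c) (g := g) (v := v) fun b hb => h b (List.mem_cons_of_mem _ hb)]
    rw [show Int.mul g a.2 = g * a.2 from rfl]
    push_cast; ring

theorem evs_contrib {cx : ℕ} {s : SP} (hcx : small cx = true)
    (hs : ∀ a ∈ s, small a.1 = true) : ∀ {E : SP}, (∀ g ∈ E, small g.1 = true) →
      evs y (contrib cx s E) = mon y cx * (ev y E * ev y s)
  | [], _ => by simp [contrib, evs, ev]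
  | g :: E, h => by
    show evs y (shift (cx + g.1) g.2 s :: contrib cx s E) = _
    have hv : ∀ a ∈ s, mon y (cx + g.1 + a.1) = mon y cx * mon y g.1 * mon y a.1 := fun a ha =>
      mon_add y hcx (h g List.mem_cons_self) (hs a ha)
    simp only [evs, ev, ev_shift y hv,
      evs_contrib hcx hs fun b hb => h b (List.mem_cons_of_mem _ hb)]
    ring

theorem sel_small (j : ℕ) : ∀ (h : List ℤ) (ks : List (ℕ × ℕ)),
    (∀ k ∈ ks, small k.2 = true) → ∀ a ∈ sel j h ks, small a.1 = true
  | [], ks, _, a, ha => absurd ha (by rw [sel_nil]; exact List.not_mem_nil)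
  | b :: h, [], _, a, ha => absurd ha (by rw [sel_cons_nil]; exact List.not_mem_nil)
  | b :: h, k :: ks, hk, a, ha => by
    have ih := sel_small j h ks fun x hx => hk x (List.mem_cons_of_mem _ hx)
    rw [sel_cons] at ha
    cases hj : Nat.beq j k.1 with
    | false => rw [hj, cond_false] at ha; exact ih a ha
    | true =>
      rw [hj, cond_true] at ha
      rcases List.mem_cons.1 ha with rfl | ha
      · exact hk k List.mem_cons_self
      · exact ih a ha

/-- The vectors of a list of coded keys. -/
noncomputable def kv (ks : List (ℕ × ℕ)) : List (ℕ × Pl 8) :=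
  (expand ks).map fun k => (k.1, monomial 0 k.2)

theorem ev_sel (j : ℕ) : ∀ (h : List ℤ) (ks : List (ℕ × ℕ)),
    ev y (sel j h ks) = comp y h (kv ks) j
  | [], ks => by simp [sel_nil, ev, comp]
  | b :: h, [] => by simp [sel_cons_nil, kv, expand, ev, comp]
  | b :: h, k :: ks => by
    have e : kv (k :: ks) = (k.1, monomial 0 (digits 8 k.2)) :: kv ks := rfl
    rw [sel_cons, e, comp, ← ev_sel j h ks, eval_monomial]
    cases hj : Nat.beq j k.1 with
    | false =>
      rw [if_neg fun c => Nat.ne_of_beq_eq_false hj c]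
      simp
    | true => rw [if_pos (Nat.eq_of_beq_eq_true hj)]; simp [ev]

theorem evs_rowLists (a : ℕ → ℂ) (k : Kind) {i c : ℕ} (hc : small c = true)
    (hE : ∀ j < 5, faithful (k.entry i j) = true) (h : List ℤ) {ks : List (ℕ × ℕ)}
    (hks : ∀ s ∈ ks, small s.2 = true) :
    evs (point a) (rowLists k i (cswap c) h ks) =
      Psd.rowVal h (kv ks) (kernel k (point a) (i, monomial 0 (digits 8 c))) := by
  have h32 : c < 32 ^ 8 := lt_top hc
  have step : ∀ j, j < 5 →
      evs (point a) (contrib (cswap c) (sel j h ks) (toS 8 (k.entry i j) 0)) =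
        conj (mon (point a) c) *
          (Pl.eval 8 (k.entry i j) (point a) * comp (point a) h (kv ks) j) := fun j hj => by
    obtain ⟨e, hs⟩ := ev_toS (point a) (hE j hj)
    rw [evs_contrib _ (small_cswap hc) (sel_small j h ks hks) hs, e, ev_sel, mon_cswap a h32]
  have e : kernel k (point a) (i, monomial 0 (digits 8 c)) = fun s : ℕ × Pl 8 =>
      conj (mon (point a) c) * (Pl.eval 8 (k.entry i s.1) (point a) * Pl.eval 8 s.2 (point a)) :=
    funext fun s => by simp only [kernel, eval_monomial]
  rw [e, ← mul_rowVal, rowVal_comp_right (point a) (fun j => Pl.eval 8 (k.entry i j) (point a)) 5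
    (fun j hj => by rw [entry_eq_zero _ _ _ (Or.inr hj), Pl.eval_zero]), mul_sum]
  show evs (point a) (_ ++ (_ ++ (_ ++ (_ ++ (_ ++ []))))) = _
  simp [evs_append, evs, step, sum_range_succ]
  ring

theorem evs_blockLists (a : ℕ → ℂ) (k : Kind) {cs : List (ℕ × ℕ)}
    (hE : ∀ i < 5, ∀ j < 5, faithful (k.entry i j) = true)
    (hcs : ∀ s ∈ cs, small s.2 = true) : ∀ (M : List (List ℤ)) (ks : List (ℕ × ℕ)),
      (∀ s ∈ ks, s.1 < 5 ∧ small s.2 = true) →
      evs (point a) (blockLists k cs M ks) =
        Psd.matVal M (kv ks) (kv cs) (kernel k (point a))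
  | [], ks, _ => by simp [blockLists, evs, Psd.matVal]
  | h :: M, [], _ => by simp [blockLists, evs, kv, expand, Psd.matVal]
  | h :: M, x :: ks, hks => by
    have e : kv (x :: ks) = (x.1, monomial 0 (digits 8 x.2)) :: kv ks := rfl
    obtain ⟨h1, h2⟩ := hks x List.mem_cons_self
    rw [blockLists, evs_append, e, Psd.matVal, evs_rowLists a k h2 (hE x.1 h1) h hcs,
      evs_blockLists a k hE hcs M ks fun s hs => hks s (List.mem_cons_of_mem _ hs)]

theorem evs_allLists (a : ℕ → ℂ) : ∀ l : List Blk, (l.all okBlk) = true →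
    evs (point a) (allLists l) = Pl.eval 8 (termSum (l.map Blk.term)) (point a)
  | [], _ => by simp [allLists, evs, termSum, Pl.eval_zero]
  | t :: l, h => by
    simp only [List.all_cons, Bool.and_eq_true] at h
    obtain ⟨ht, hl⟩ := h
    simp only [okBlk, Bool.and_eq_true, List.all_eq_true, List.mem_range, decide_eq_true_eq] at ht
    rw [allLists, evs_append, evs_allLists a l hl, List.map_cons, termSum, Pl.eval_add, Term.poly,
      eval_gramRows, evs_blockLists a t.kind ht.1 (fun s hs => (ht.2 s hs).2) t.gram t.keys ht.2]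
    rfl

/-- A coefficient moved to the conjugate code, as a list. -/
def swapped (a : ℕ × ℤ) : SP := [(cswap a.1, a.2)]

/-- The doubled real part of a sparse polynomial. -/
noncomputable def sym (rounds : ℕ) (t : SP) : SP := mrg t (mrgAll rounds (t.map swapped))

theorem ev_sym (a : ℕ → ℂ) (r : ℕ) (t : SP) (h : ∀ b ∈ t, b.1 < 32 ^ 8) :
    ev (point a) (sym r t) = ev (point a) t + conj (ev (point a) t) := by
  rw [sym, ev_mrg, ev_mrgAll]
  congr 1
  induction t with
  | nil => simp [evs, ev]
  | cons b t ih =>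
    simp only [List.map_cons, evs, ev, swapped, map_add, map_mul, map_intCast, add_zero,
      mon_cswap a (h b List.mem_cons_self), ih fun c hc => h c (List.mem_cons_of_mem _ hc)]

/-- The polynomial whose real part must equal that of the blocks, times `-1`. -/
def head (bn tn : ℤ) (bd M C : ℕ) (p q : Pl 6) : Pl 8 :=
  Pl.smul 8 (-1) (Pl.smul 8 M (Pl.sub 8 (densityT bn tn bd p q) (Pl.const 8 C)))

/-- All codes are below `32 ^ 8`. -/
noncomputable def inRange (t : SP) : Bool :=
  List.rec true (fun a _ r => Nat.blt a.1 1099511627776 && r) t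

theorem lt_of_inRange : ∀ {t : SP}, inRange t = true → ∀ b ∈ t, b.1 < 32 ^ 8
  | [], _, b, hb => absurd hb List.not_mem_nil
  | c :: t, h, b, hb => by
    change (Nat.blt c.1 1099511627776 && inRange t) = true at h
    simp only [Bool.and_eq_true, Nat.blt_eq] at h
    rcases List.mem_cons.1 hb with rfl | hb
    · calc b.1 < 1099511627776 := h.1
        _ = 32 ^ 8 := by norm_num
    · exact lt_of_inRange h.2 b hb

/-- The identity check. -/
noncomputable def check (rounds : ℕ) (bn tn : ℤ) (bd M C : ℕ) (p q : Pl 6) (l : List Blk) :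
    Bool :=
  let t := mrg (toS 8 (head bn tn bd M C p q) 0) (mrgAll rounds (allLists l))
  faithful (head bn tn bd M C p q) && l.all okBlk && inRange t && zeros (sym rounds t)

/-- A checked identity with checked Gram matrices gives the certificate. -/
theorem certT_of_check (rounds : ℕ) (bn tn : ℤ) (bd K M C : ℕ) (hbd : 0 < bd) (hK : 0 < K)
    (hM : 0 < M) (hC : 0 < C) (p q : Pl 6) (l : List Blk)
    (h : check rounds bn tn bd M C p q l = true)
    (hl : ∀ t ∈ l, ∃ W s L O D, Psd.check W s t.gram L O D = true) :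
    CertT ((tn : ℝ) / bd) ((bn : ℝ) / bd) ((C : ℝ) / (4 * bd * K)) (ofPoly K 1 p)
      (ofPoly K I q) := by
  refine ⟨contDiff_ofPoly K 1 p, contDiff_ofPoly K I q, by positivity, fun a ha => ?_⟩
  simp only [check, Bool.and_eq_true] at h
  obtain ⟨⟨⟨hf, hok⟩, hr⟩, hz⟩ := h
  have e := congrArg Complex.re (ev_of_zeros (point a) _ hz)
  rw [ev_sym a rounds _ (lt_of_inRange hr), ev_mrg, ev_mrgAll, evs_allLists a l hok,
    (ev_toS (point a) hf).1] at e
  simp only [head, Pl.eval_sub, Pl.eval_smul, Pl.eval_const, Complex.add_re, Complex.conj_re,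
    Complex.mul_re, Complex.sub_re, Complex.zero_re,
    re_eval_densityT bn tn bd K hbd hK] at e
  norm_num at e
  have hn := termSum_nonneg ha (l.map Blk.term) fun t ht => by
    obtain ⟨u, hu, rfl⟩ := List.mem_map.1 ht
    exact hl u hu
  have hMr : (0 : ℝ) < M := by exact_mod_cast hM
  have h4 : (0 : ℝ) < 4 * bd * K := by positivity
  rw [div_le_iff₀ h4]
  nlinarith

end Sparse

end Vale.Agent.P142.Flux
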